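import Vale.Agent.P054.T3.H900.Three

set_option autoImplicit false
set_option linter.all false

/-!
# The step in dimension three for an abstract complexity function

The number of distances of the set enters the step in dimension three only through a complexity
function `Tc` (numbers of spheres around fixed centres which cover a subset), the number of flags,
and the number of points on surfaces of bounded degree.
-/

namespace Vale.Agent.N054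

section defs

open Finset Module MvPolynomial
open Vale.Agent.P054.T2.H686 (E zt)
open Vale.Agent.P054.T2.SecC (ZZ pt)
open Vale.Agent.P054.T2.H455 (Sep)
open Vale.Agent.P054.T3.H109.Gen (lineC)
open Vale.Agent.P054.T3.H190 (W adjE)
open Vale.Agent.P054.T3.H226 (clf)

/-- what is used about the complexity function -/
structure Cx (P : Finset (E 2)) (Tc : Finset (E 2) → ℕ) : Prop where
  mono : ∀ Z Z' : Finset (E 2), Z ⊆ Z' → Tc Z ≤ Tc Z'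
  pos : ∀ Z : Finset (E 2), Z.Nonempty → 0 < Tc Z
  line : ∀ (Z : Finset (E 2)) (x y : E 2), x ≠ y → lineC Z x y ≤ 2 * Tc Z
  cells : ∀ (J : ℕ) (f : Fin J → MvPolynomial (Fin (2 + 1)) ℝ) (Z : Finset (E 2)),
    ∑ c ∈ (Z.image (clf (n := 2) f)).erase none, Tc (Z.filter fun x => clf (n := 2) f x = c) ≤
      ((2 * (3 * ∑ j, (f j).totalDegree + 2)) ^ 2 + 1) * Tc Z
  sep : ∀ X ⊆ P, ∀ Y ⊆ P, ∀ B : E 2 ≃ₗᵢ[ℝ] E 2,
    Sep (fun s : ZZ 2 => pt s) (2 * (Tc X + Tc Y)) ((X ×ˢ Y).image (zt B))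

open scoped Classical in
/-- the hypotheses of the step -/
structure Hy (D : ℕ) (η : ℝ) (P : Finset (E 2)) (t : ℕ) (Tc : Finset (E 2) → ℕ) : Prop where
  cx : Cx P Tc
  small : Tc P ≤ 8 * t
  flags : P.card ^ 4 ≤ 2 ^ 16 * (t * W adjE (P ×ˢ P))
  hyp : ∀ f : MvPolynomial (Fin 3) ℝ, f ≠ 0 → f.totalDegree ≤ D →
    ((P.filter fun p => eval (fun i => p i) f = 0).card : ℝ) < (P.card : ℝ) ^ (1 - η)

/-- the complexity as a real number -/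
noncomputable def TR (Tc : Finset (E 2) → ℕ) (X : Finset (E 2)) : ℝ := (Tc X : ℝ)

/-- the step: no set with about `K t^(3/2)` points satisfies the hypotheses -/
def Step3 (D : ℕ) (η : ℝ) : Prop :=
  ∃ K₀ : ℝ, ∀ K : ℝ, K₀ ≤ K → 1 ≤ K → ∃ t₀ : ℕ, ∀ t : ℕ, t₀ ≤ t → 1 ≤ t →
    ∀ (P : Finset (E 2)) (Tc : Finset (E 2) → ℕ), Hy D η P t Tc →
      K * (t : ℝ) ^ (((2 + 1 : ℕ) : ℝ) / 2) ≤ P.card →
      (P.card : ℝ) ≤ 2 * (K * (t : ℝ) ^ (((2 + 1 : ℕ) : ℝ) / 2)) → False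

end defs

section start

open Finset Module MvPolynomial
open Vale.Agent.P054.T2.H686 (E)
open Vale.Agent.P054.T3.H190 (W adjE W_mono)
open Vale.Agent.P054.T3.H226

open scoped Classical in
/-- **the cells** -/
theorem cells3 {P X Y : Finset (E 2)} {Tc : Finset (E 2) → ℕ} (hcx : Cx P Tc) {D t : ℕ} {ε₁ η : ℝ}
    (ht : 1 ≤ t) (hε : 0 < ε₁) (hε1 : ε₁ ≤ 1) (hεη : ε₁ ≤ η)
    (ht4 : 32 ≤ (t : ℝ) ^ (ε₁ / 4)) (htP : (t : ℝ) ≤ P.card)
    (hyp : ∀ f : MvPolynomial (Fin 3) ℝ, f ≠ 0 → f.totalDegree ≤ D →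
      ((P.filter fun p => eval (fun i => p i) f = 0).card : ℝ) < (P.card : ℝ) ^ (1 - η))
    (h : ExtW WW (TR Tc) P X Y (1 / 24) ((t : ℝ) ^ (-ε₁) * (P.card : ℝ) ^ 2)) {z : ℝ}
    (hzN : (X.card : ℝ) * Y.card = z * (P.card : ℝ) ^ 2) (hz : (t : ℝ) ^ (-(ε₁ / 2)) ≤ z)
    (m : ℕ) (hm : (2 : ℝ) ^ m ≤ (t : ℝ) ^ (ε₁ / 20)) (hmD : 18 * 2 ^ m ≤ D) :
    ∃ cl : E 2 × E 2 → Option (Fin (3 * m) → Bool) × Option (Fin (3 * m) → Bool),
      (∀ A ⊆ X ×ˢ Y, finrank ℝ (vectorSpan ℝ (A : Set (E 2 × E 2))) ≤ 3 →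
        ((A.image cl).card : ℝ) ≤ 1481548 * 8 ^ m) ∧
      ∑ c ∈ (X ×ˢ Y).image cl, (W adjE ((X ×ˢ Y).filter fun s => cl s = c) : ℝ) ≤
        12548 * ((2 : ℝ) ^ m) ^ (-(13 / 4) : ℝ) * W adjE (X ×ˢ Y) := by
  have htr : (1 : ℝ) ≤ t := by exact_mod_cast ht
  have ht0 : (0 : ℝ) < t := by linarith
  have hp0 : (0 : ℝ) < P.card := by linarith
  set p : ℝ := (P.card : ℝ) with hp
  set w : ℝ := (t : ℝ) ^ (-ε₁) * p ^ 2 with hw
  have hw0 : 0 < w := by rw [hw]; positivity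
  have hz0 : 0 < z := lt_of_lt_of_le (Real.rpow_pos_of_pos ht0 _) hz
  have hN0 : 0 < (X.card : ℝ) * Y.card := lt_of_lt_of_le hw0 h.big
  have hXne : X.Nonempty := by
    rw [nonempty_iff_ne_empty]
    rintro rfl
    simp at hN0
  have hYne : Y.Nonempty := by
    rw [nonempty_iff_ne_empty]
    rintro rfl
    simp at hN0
  have hTX : 0 ≤ TR Tc X := Nat.cast_nonneg _
  have hTpos : ∀ Z : Finset (E 2), Z.Nonempty → 0 < TR Tc Z := by
    intro Z hZ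
    unfold TR
    exact_mod_cast hcx.pos Z hZ
  have hT : 0 < TR Tc X + TR Tc Y := add_pos (hTpos X hXne) (hTpos Y hYne)
  obtain ⟨f, hf0, hfd, hfc⟩ := exists_part3 X m
  obtain ⟨g, hg0, hgd, hgc⟩ := exists_part3 Y m
  set q : ℝ := (2 : ℝ) ^ m with hq
  have hq1 : 1 ≤ q := by rw [hq]; exact one_le_pow₀ (by norm_num)
  have hq0 : 0 < q := by linarith
  -- zero classes
  have hnone : ∀ (f : Fin (3 * m) → MvPolynomial (Fin 3) ℝ), (∀ j, f j ≠ 0) →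
      ∑ j, (f j).totalDegree ≤ 18 * 2 ^ m → ∀ Z ⊆ P,
      ((Z.filter fun x => clf (n := 2) f x = none).card : ℝ) < p ^ (1 - η) := by
    intro f hf0 hfd Z hZ
    refine lt_of_le_of_lt ?_ (hyp (∏ j, f j) (Finset.prod_ne_zero_iff.2 fun j _ => hf0 j) ?_)
    · exact_mod_cast card_none f P Z hZ
    · exact (totalDegree_finset_prod _ _).trans (hfd.trans hmD)
  have hpη : p ^ (1 - η) * p ≤ w := by
    have h1 : p ^ (-η) ≤ (t : ℝ) ^ (-ε₁) := by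
      calc p ^ (-η) ≤ p ^ (-ε₁) := Real.rpow_le_rpow_of_exponent_le (by linarith) (by linarith)
        _ ≤ (t : ℝ) ^ (-ε₁) := Real.rpow_le_rpow_of_nonpos ht0 htP (by linarith)
    calc p ^ (1 - η) * p = p ^ (-η) * p ^ 2 := by
          rw [show (1 - η : ℝ) = -η + 1 by ring, Real.rpow_add hp0, Real.rpow_one]
          ring
      _ ≤ (t : ℝ) ^ (-ε₁) * p ^ 2 := by gcongr
      _ = w := rfl
  have hXp : (X.card : ℝ) ≤ p := by rw [hp]; exact_mod_cast card_le_card h.hX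
  have hYp : (Y.card : ℝ) ≤ p := by rw [hp]; exact_mod_cast card_le_card h.hY
  have hX0 : (0 : ℝ) < X.card := by exact_mod_cast hXne.card_pos
  have hY0 : (0 : ℝ) < Y.card := by exact_mod_cast hYne.card_pos
  have hnX : ((X.filter fun x => clf (n := 2) f x = none).card : ℝ) * Y.card < w := by
    calc ((X.filter fun x => clf (n := 2) f x = none).card : ℝ) * Y.card
        < p ^ (1 - η) * Y.card := mul_lt_mul_of_pos_right (hnone f hf0 hfd X h.hX) hY0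
      _ ≤ p ^ (1 - η) * p := by gcongr
      _ ≤ w := hpη
  have hnY : (X.card : ℝ) * (Y.filter fun x => clf (n := 2) g x = none).card < w := by
    calc (X.card : ℝ) * (Y.filter fun x => clf (n := 2) g x = none).card
        < (X.card : ℝ) * p ^ (1 - η) := mul_lt_mul_of_pos_left (hnone g hg0 hgd Y h.hY) hX0
      _ ≤ p * p ^ (1 - η) := by gcongr
      _ = p ^ (1 - η) * p := mul_comm _ _
      _ ≤ w := hpη
  -- numbers of distances
  have hTsum : ∀ (f : Fin (3 * m) → MvPolynomial (Fin 3) ℝ),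
      ∑ j, (f j).totalDegree ≤ 18 * 2 ^ m → ∀ Z : Finset (E 2),
      ∑ c ∈ (Z.image (clf (n := 2) f)).erase none,
        TR Tc (Z.filter fun x => clf (n := 2) f x = c) ≤ 12545 * q ^ 2 * TR Tc Z := by
    intro f hfd Z
    have h1 := hcx.cells _ f Z
    have h2 : (2 * (3 * ∑ j, (f j).totalDegree + 2)) ^ 2 + 1 ≤ 12545 * (2 ^ m) ^ 2 := by
      have h3 : 2 * (3 * ∑ j, (f j).totalDegree + 2) ≤ 112 * 2 ^ m := by
        have : 1 ≤ 2 ^ m := Nat.one_le_two_pow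
        omega
      calc (2 * (3 * ∑ j, (f j).totalDegree + 2)) ^ 2 + 1 ≤ (112 * 2 ^ m) ^ 2 + (2 ^ m) ^ 2 :=
            Nat.add_le_add (Nat.pow_le_pow_left h3 2) (Nat.one_le_pow _ _ (by positivity))
        _ = 12545 * (2 ^ m) ^ 2 := by ring
    have h3 : ∑ c ∈ (Z.image (clf (n := 2) f)).erase none,
        Tc (Z.filter fun x => clf (n := 2) f x = c) ≤ 12545 * (2 ^ m) ^ 2 * Tc Z := by
      refine le_trans (le_of_eq ?_) (h1.trans (Nat.mul_le_mul_right _ h2))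
      congr!
    have h4 : ((∑ c ∈ (Z.image (clf (n := 2) f)).erase none,
        Tc (Z.filter fun x => clf (n := 2) f x = c) : ℕ) : ℝ) ≤
        ((12545 * (2 ^ m) ^ 2 * Tc Z : ℕ) : ℝ) := by exact_mod_cast h3
    push_cast at h4
    exact h4
  have hpw : (P.card : ℝ) ≤ w := by
    have h1 : p ^ (1 : ℝ) ≤ (t : ℝ) ^ (-ε₁) * p ^ 2 := by
      have h2 : (t : ℝ) ^ ε₁ ≤ p := by
        calc (t : ℝ) ^ ε₁ ≤ (t : ℝ) ^ (1 : ℝ) := Real.rpow_le_rpow_of_exponent_le htr hε1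
          _ = t := Real.rpow_one _
          _ ≤ p := htP
      rw [Real.rpow_one, Real.rpow_neg ht0.le, inv_mul_eq_div, le_div_iff₀ (by positivity)]
      nlinarith
    rwa [Real.rpow_one] at h1
  have h2w : 2 * w ≤ (X.card : ℝ) * Y.card := by
    rw [hzN, hw]
    have h1 : 2 * (t : ℝ) ^ (-ε₁) ≤ z := by
      refine le_trans ?_ hz
      have h3 : (2 : ℝ) ≤ (t : ℝ) ^ (ε₁ / 2) := by
        calc (2 : ℝ) ≤ 32 := by norm_num
          _ ≤ (t : ℝ) ^ (ε₁ / 4) := ht4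
          _ ≤ (t : ℝ) ^ (ε₁ / 2) := Real.rpow_le_rpow_of_exponent_le htr (by linarith)
      calc 2 * (t : ℝ) ^ (-ε₁) ≤ (t : ℝ) ^ (ε₁ / 2) * (t : ℝ) ^ (-ε₁) := by gcongr
        _ = (t : ℝ) ^ (-(ε₁ / 2)) := by
            rw [← Real.rpow_add ht0]
            congr 1
            ring
    nlinarith [pow_pos hp0 2]
  have hq3 : (2 : ℝ) ^ (3 * m) = q ^ 3 := by rw [hq, ← pow_mul, mul_comm m 3]
  have hMcard : ∀ (f : Fin (3 * m) → MvPolynomial (Fin 3) ℝ) (Z : Finset (E 2)),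
      ((Z.image (clf (n := 2) f)).card : ℝ) ≤ 2 * q ^ 3 := by
    intro f Z
    have h1 := card_image_clf (n := 2) f Z
    have h2 : ((Z.image (clf (n := 2) f)).card : ℝ) ≤ ((2 ^ (3 * m) + 1 : ℕ) : ℝ) := by
      have : (Z.image (clf (n := 2) f)).card ≤ 2 ^ (3 * m) + 1 := by convert h1
      exact_mod_cast this
    push_cast at h2
    rw [hq3] at h2
    have h3 : 1 ≤ q ^ 3 := one_le_pow₀ hq1
    linarith
  have hqw := cells_num (t := t) (ε₁ := ε₁) (z := z) (q := q) htr hε ht4 hz hq1 hm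
    (M := 2 * q ^ 3) (by positivity) le_rfl (u := 2 * w / ((X.card : ℝ) * Y.card))
    (by positivity) (by
      rw [hzN, hw]
      apply le_of_eq
      field_simp)
  have hcells := h.cells hw0 (Nat.cast_nonneg _) hT
    (fun X₁ Y₁ X₂ Y₂ h1 h2 _ _ => WW_mono h1 h2) (fun Z _ => Nat.cast_nonneg _)
    (fun Z Z' hZ _ => by unfold TR; exact_mod_cast hcx.mono _ _ hZ) (by norm_num) (by norm_num)
    hpw h2w (clf (n := 2) f) (clf (n := 2) g) hq1 (A := 12545) (by norm_num)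
    (fun c => by
      have h1 := hfc c
      have h2 : (X.filter fun x => clf (n := 2) f x = some c).card * (2 ^ m) ^ 3 ≤ X.card := by
        convert h1 using 2
      rw [hq]
      exact_mod_cast h2)
    (fun c => by
      have h1 := hgc c
      have h2 : (Y.filter fun x => clf (n := 2) g x = some c).card * (2 ^ m) ^ 3 ≤ Y.card := by
        convert h1 using 2
      rw [hq]
      exact_mod_cast h2)
    hnX hnY (hTsum f hfd X) (hTsum g hgd Y) (M := 2 * q ^ 3) (hMcard f X) (hMcard g Y) hqw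
  refine ⟨fun s => (clf (n := 2) f s.1, clf (n := 2) g s.2), ?_, ?_⟩
  · intro A hA hk
    have h1 := card_image_prod (n := 2) f g A hk
    have h2 : (A.image fun s => (clf (n := 2) f s.1, clf (n := 2) g s.2)).card ≤
        1481548 * (2 ^ m) ^ 3 := by
      have h3 : 3 * (∑ j, (f j).totalDegree + ∑ j, (g j).totalDegree + 2) ≤ 114 * 2 ^ m := by
        have : 1 ≤ 2 ^ m := Nat.one_le_two_pow
        omega
      have h4 : 2 * (2 ^ (3 * m) + 1) ≤ 4 * (2 ^ m) ^ 3 := by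
        have h5 : 2 ^ (3 * m) = (2 ^ m) ^ 3 := by rw [← pow_mul, mul_comm m 3]
        rw [h5]
        have : 1 ≤ (2 ^ m) ^ 3 := Nat.one_le_pow _ _ (by positivity)
        omega
      calc (A.image fun s => (clf (n := 2) f s.1, clf (n := 2) g s.2)).card
          ≤ (3 * (∑ j, (f j).totalDegree + ∑ j, (g j).totalDegree + 2)) ^ 3 +
              2 * (2 ^ (3 * m) + 1) := by
            refine le_trans (le_of_eq ?_) h1
            congr!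
        _ ≤ (114 * 2 ^ m) ^ 3 + 4 * (2 ^ m) ^ 3 :=
            Nat.add_le_add (Nat.pow_le_pow_left h3 3) h4
        _ = 1481548 * (2 ^ m) ^ 3 := by ring
    have h3 : ((A.image fun s => (clf (n := 2) f s.1, clf (n := 2) g s.2)).card : ℝ) ≤
        ((1481548 * (2 ^ m) ^ 3 : ℕ) : ℝ) := by exact_mod_cast h2
    refine h3.trans (le_of_eq ?_)
    push_cast
    rw [← pow_mul, mul_comm m 3, pow_mul]
    norm_num
  · refine (sum_classes_le f g X Y).trans (hcells.trans (le_of_eq ?_))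
    rw [show (6 * (1 / 24) - 7 / 2 : ℝ) = -(13 / 4) by norm_num]
    unfold WW
    ring

open scoped Classical in
/-- **START for `n = 2`** -/
theorem start3 : ∃ C : ℝ, 1 ≤ C ∧ ∀ η : ℝ, 0 < η → ∃ ε₀ : ℝ, 0 < ε₀ ∧ ∀ ε₁, 0 < ε₁ → ε₁ ≤ ε₀ →
    ∃ t₀ : ℕ, ∀ t : ℕ, t₀ ≤ t → 1 ≤ t → ∀ (D : ℕ) (P : Finset (E 2)) (Tc : Finset (E 2) → ℕ),
    Hy D η P t Tc →
    ∀ K : ℝ, 1 ≤ K → K * (t : ℝ) ^ (3 / 2 : ℝ) ≤ P.card →
    (P.card : ℝ) ≤ 2 * (K * (t : ℝ) ^ (3 / 2 : ℝ)) →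
    ∃ (X Y : Finset (E 2)) (z : ℝ), X ⊆ P ∧ Y ⊆ P ∧
      X.Nonempty ∧ Y.Nonempty ∧ Tc X + Tc Y ≤ 16 * t ∧
      (X.card : ℝ) * Y.card = z * (P.card : ℝ) ^ 2 ∧ (t : ℝ) ^ (-ε₁) ≤ z ∧ z ≤ 1 ∧
      0 < W adjE (X ×ˢ Y) ∧
      ((X.card : ℝ) * Y.card) ^ 2 / W adjE (X ×ˢ Y) ≤ C * (z ^ (3 / 8 : ℝ) * t) ∧
      K ^ 2 * z ^ (-(1 / 8) : ℝ) * (((X.card : ℝ) * Y.card) ^ 2 / W adjE (X ×ˢ Y)) ^ 3 ≤
        C * ((X.card : ℝ) * Y.card) ∧
      K ^ (4 / 3 : ℝ) * z ^ (-(1 / 12) : ℝ) *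
        (((X.card : ℝ) * Y.card) ^ 2 / W adjE (X ×ˢ Y)) ^ 2 * ((Tc X + Tc Y : ℕ) : ℝ) ≤
        C * ((X.card : ℝ) * Y.card) ∧
      ((t : ℝ) ^ (-(ε₁ / 2)) ≤ z → ∀ m : ℕ, (2 : ℝ) ^ m ≤ (t : ℝ) ^ (ε₁ / 20) → 18 * 2 ^ m ≤ D →
        ∃ cl : E 2 × E 2 → Option (Fin (3 * m) → Bool) × Option (Fin (3 * m) → Bool),
          (∀ A ⊆ X ×ˢ Y, finrank ℝ (vectorSpan ℝ (A : Set (E 2 × E 2))) ≤ 3 →
            ((A.image cl).card : ℝ) ≤ C * 8 ^ m) ∧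
          ∑ c ∈ (X ×ˢ Y).image cl, (W adjE ((X ×ˢ Y).filter fun s => cl s = c) : ℝ) ≤
            C * ((2 : ℝ) ^ m) ^ (-(13 / 4) : ℝ) * W adjE (X ×ˢ Y)) := by
  refine ⟨2 ^ 63, by norm_num, fun η hη => ⟨min η 1, by positivity, fun ε₁ hε hε₁ => ?_⟩⟩
  have hεη : ε₁ ≤ η := hε₁.trans (min_le_left _ _)
  have hε1 : ε₁ ≤ 1 := hε₁.trans (min_le_right _ _)
  obtain ⟨t₂, ht₂⟩ := exists_large η ε₁ hε
  refine ⟨t₂, fun t ht ht1 D P Tc hP K hK hp1 hp2 => ?_⟩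
  obtain ⟨ht4, ht5⟩ := ht₂ t ht
  have htr : (1 : ℝ) ≤ t := by exact_mod_cast ht1
  have ht0 : (0 : ℝ) < t := by linarith
  have ht32 : (0 : ℝ) < (t : ℝ) ^ (3 / 2 : ℝ) := Real.rpow_pos_of_pos ht0 _
  have hPt : (t : ℝ) ^ (3 / 2 : ℝ) ≤ P.card := by
    refine le_trans ?_ hp1
    exact le_mul_of_one_le_left ht32.le hK
  -- `768 t ≤ |P|`
  have hP768 : (768 : ℝ) * t ≤ P.card := by
    refine le_trans ?_ hPt
    rw [show (3 / 2 : ℝ) = 1 / 2 + 1 by norm_num, Real.rpow_add ht0, Real.rpow_one]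
    refine mul_le_mul_of_nonneg_right ?_ ht0.le
    rw [← Real.sqrt_eq_rpow]
    have h1 : (768 : ℝ) ^ 2 ≤ t := by
      have : (590000 : ℝ) ≤ t := by exact_mod_cast ht5
      norm_num
      linarith
    exact Real.le_sqrt_of_sq_le h1
  have htP : (t : ℝ) ≤ P.card := by linarith
  have hp0 : (0 : ℝ) < P.card := by linarith
  have hPne : P.Nonempty := card_pos.1 (by exact_mod_cast hp0)
  -- the extremal product
  set p : ℝ := (P.card : ℝ) with hp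
  set w : ℝ := (t : ℝ) ^ (-ε₁) * p ^ 2 with hw
  have hw0 : 0 < w := by rw [hw]; positivity
  have hwp : w ≤ p * p := by
    rw [hw, ← sq]
    have h1 : (t : ℝ) ^ (-ε₁) ≤ 1 := Real.rpow_le_one_of_one_le_of_nonpos htr (by linarith)
    calc (t : ℝ) ^ (-ε₁) * p ^ 2 ≤ 1 * p ^ 2 := by gcongr
      _ = p ^ 2 := one_mul _
  obtain ⟨X, Y, h⟩ := exists_extW WW (TR Tc) P (1 / 24) w hw0 hwp
  have hN0 : 0 < (X.card : ℝ) * Y.card := lt_of_lt_of_le hw0 h.big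
  have hXne : X.Nonempty := by
    rw [nonempty_iff_ne_empty]
    rintro rfl
    simp at hN0
  have hYne : Y.Nonempty := by
    rw [nonempty_iff_ne_empty]
    rintro rfl
    simp at hN0
  have hdnpos : ∀ Z : Finset (E 2), Z.Nonempty → 0 < Tc Z := hP.cx.pos
  have hdnP : Tc P ≤ 8 * t := hP.small
  have hdnX : Tc X ≤ 8 * t := (hP.cx.mono _ _ h.hX).trans hdnP
  have hdnY : Tc Y ≤ 8 * t := (hP.cx.mono _ _ h.hY).trans hdnP
  set z : ℝ := (X.card : ℝ) * Y.card / p ^ 2 with hz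
  have hpsq : 0 < p ^ 2 := by positivity
  have hzN : (X.card : ℝ) * Y.card = z * p ^ 2 := by rw [hz]; field_simp
  have hzt : (t : ℝ) ^ (-ε₁) ≤ z := by
    rw [hz, le_div_iff₀ hpsq]; exact h.big
  have hXp : (X.card : ℝ) ≤ p := by rw [hp]; exact_mod_cast card_le_card h.hX
  have hYp : (Y.card : ℝ) ≤ p := by rw [hp]; exact_mod_cast card_le_card h.hY
  have hz1 : z ≤ 1 := by
    rw [hz, div_le_one hpsq, sq]
    exact mul_le_mul hXp hYp (Nat.cast_nonneg _) (by linarith)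
  have hmax := h.max P subset_rfl P subset_rfl hwp
  have hv : p ^ 4 ≤ 2 ^ 16 * (t * WW P P) := by
    have h1 := hP.flags
    unfold WW
    rw [hp]
    exact_mod_cast h1
  have hTP : TR Tc P + TR Tc P ≤ 16 * t := by
    have h1 : (Tc P : ℝ) ≤ 8 * t := by exact_mod_cast hdnP
    unfold TR
    linarith
  have hTpos : 0 < TR Tc X + TR Tc Y := by
    unfold TR
    have h1 : (0 : ℝ) < Tc X := by exact_mod_cast hdnpos X hXne
    have h2 : (0 : ℝ) < Tc Y := by exact_mod_cast hdnpos Y hYne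
    linarith
  have hTT0 : 0 ≤ TR Tc P + TR Tc P := by
    unfold TR
    positivity
  have hmax' : WW P P * Phi (1 / 24) ((X.card : ℝ) * Y.card) (TR Tc X + TR Tc Y) ≤
      WW X Y * Phi (1 / 24) (p ^ 2) (TR Tc P + TR Tc P) := by
    rw [sq]
    exact hmax
  obtain ⟨n1, n2, n3, n4⟩ := start2_num (b := 1 / 24) (K := K) (p := p) (t := t)
    (N := (X.card : ℝ) * Y.card) (e := WW X Y) (T := TR Tc X + TR Tc Y) (v := WW P P)
    (TP := TR Tc P + TR Tc P) (A := 16) (D := 2 ^ 16) (by norm_num) hK htr hp1 hp2 hN0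
    (Nat.cast_nonneg _) (by norm_num) hTT0 hTP (by norm_num) hTpos hv hmax' hzN
  refine ⟨X, Y, z, h.hX, h.hY, hXne, hYne, ?_, hzN, hzt, hz1, ?_, ?_, ?_, ?_, ?_⟩
  · omega
  · have : (0 : ℝ) < (W adjE (X ×ˢ Y) : ℝ) := n1
    exact_mod_cast this
  · have h1 : ((X.card : ℝ) * Y.card) ^ 2 / W adjE (X ×ˢ Y) ≤
        2 * (2 * 16 * 2 ^ 16) * (z ^ (1 / 3 + 1 / 24 : ℝ) * t) := n2
    rw [show (1 / 3 + 1 / 24 : ℝ) = 3 / 8 by norm_num] at h1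
    have hz0 : 0 < z := lt_of_lt_of_le (Real.rpow_pos_of_pos ht0 _) hzt
    refine h1.trans (mul_le_mul_of_nonneg_right (by norm_num)
      (mul_nonneg (Real.rpow_nonneg hz0.le _) ht0.le))
  · have h1 : K ^ 2 * z ^ (-(3 * (1 / 24)) : ℝ) *
        (((X.card : ℝ) * Y.card) ^ 2 / W adjE (X ×ˢ Y)) ^ 3 ≤
        (2 * 16 * 2 ^ 16) ^ 3 * ((X.card : ℝ) * Y.card) := n3
    rw [show (-(3 * (1 / 24)) : ℝ) = -(1 / 8) by norm_num] at h1
    refine h1.trans (mul_le_mul_of_nonneg_right (by norm_num) hN0.le)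
  · have h1 : K ^ (4 / 3 : ℝ) * z ^ (-(2 * (1 / 24)) : ℝ) *
        (((X.card : ℝ) * Y.card) ^ 2 / W adjE (X ×ˢ Y)) ^ 2 * (TR Tc X + TR Tc Y) ≤
        (2 * 16 * 2 ^ 16) ^ 2 * ((X.card : ℝ) * Y.card) := n4
    rw [show (-(2 * (1 / 24)) : ℝ) = -(1 / 12) by norm_num] at h1
    have h2 : ((Tc X + Tc Y : ℕ) : ℝ) = TR Tc X + TR Tc Y := by
      unfold TR; push_cast; ring
    rw [h2]
    refine h1.trans (mul_le_mul_of_nonneg_right (by norm_num) hN0.le)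
  · intro hz2 m hm hmD
    obtain ⟨cl, h1, h2⟩ := cells3 hP.cx ht1 hε hε1 hεη ht4 htP hP.hyp h hzN hz2 m hm hmD
    refine ⟨cl, fun A hA hk => ?_, ?_⟩
    · refine (h1 A hA hk).trans (mul_le_mul_of_nonneg_right (by norm_num) (by positivity))
    · refine h2.trans ?_
      refine mul_le_mul_of_nonneg_right (mul_le_mul_of_nonneg_right (by norm_num)
        (by positivity)) (Nat.cast_nonneg _)

end start

section steps

open Finset Module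
open Vale.Agent.P054.T2 Vale.Agent.P054.T2.SecC
open Vale.Agent.P054.T2.H686 (E zt zt_injective Ez Gm)
open Vale.Agent.P054.T2.H455 (Sep)
open Vale.Agent.P054.T3.H109.Gen (onL lineC onL_left onL_right lineC_eq)
open Vale.Agent.P054.T3.H190
open Vale.Agent.P054.T3.H637 (dt)
open Vale.Agent.P054.T3.H533 (MuK NoRichL uz uz_zt)
open Vale.Agent.P054.T3
open Vale.Agent.P054.T3.H900

/-- everything in the coordinates `(ζ, θ)` -/
theorem glue3 {P : Finset (E 2)} {B : E 2 ≃ₗᵢ[ℝ] E 2} (hB : Gm P B) {Tc : Finset (E 2) → ℕ}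
    {X Y : Finset (E 2)} (hX : X ⊆ P) (hY : Y ⊆ P) (hcx : Cx P Tc)
    {E0 : Finset ((E 2 × E 2) × (E 2 × E 2))} (hE0 : E0 ⊆ E1 adj (X ×ˢ Y))
    (Ms : E 2 × E 2 → ℕ) (hor : ∀ e ∈ E0, OrL E0 Ms (dt B) e) {T : ℕ}
    (hT : Tc X + Tc Y ≤ T) :
    ∃ (S : Finset (ZZ 2)) (E' : Finset (ZZ 2 × ZZ 2)), E' ⊆ Ez P B P.card ∧
      (∀ e ∈ E', e.1 ∈ S ∧ e.2 ∈ S) ∧ Sep (fun s : ZZ 2 => pt s) (4 * T) S ∧
      MuK E' 1 ∧ MuK (swp E') 1 ∧
      (∀ e ∈ E', NoRichL B E' (fun z => Ms (uz B z)) (dt B) e) ∧ E'.card = E0.card ∧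
      S.card = X.card * Y.card ∧
      ∀ U ⊆ S, ∃ U' ⊆ X ×ˢ Y, U.card = U'.card ∧
        (∑ z ∈ U, ((Ms (uz B z) : ℕ) : ℝ)) = ∑ s ∈ U', (Ms s : ℝ) := by
  classical
  have hS : X ×ˢ Y ⊆ P ×ˢ P := product_subset_product hX hY
  have hinj : Function.Injective (fun e : (E 2 × E 2) × (E 2 × E 2) => (zt B e.1, zt B e.2)) := by
    intro e e' h
    exact Prod.ext (zt_injective B (congrArg Prod.fst h)) (zt_injective B (congrArg Prod.snd h))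
  have hsub : E0.image (fun e => (zt B e.1, zt B e.2)) ⊆ E1z B (X ×ˢ Y) := by
    intro e he
    obtain ⟨f, hf, rfl⟩ := mem_image.1 he
    exact mem_E1z'.2 (hE0 hf)
  have hmem : ∀ s r, (zt B s, zt B r) ∈ E0.image (fun e => (zt B e.1, zt B e.2)) →
      (s, r) ∈ E0 := by
    intro s r h
    obtain ⟨f, hf, h1⟩ := mem_image.1 h
    have : f = (s, r) := hinj h1
    rwa [← this]
  refine ⟨(X ×ˢ Y).image (zt B), E0.image fun e => (zt B e.1, zt B e.2), ?_, ?_, ?_, ?_, ?_, ?_,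
    ?_, ?_, ?_⟩
  · exact hsub.trans (E1z_subset B hS)
  · intro e he
    obtain ⟨f, hf, rfl⟩ := mem_image.1 he
    obtain ⟨⟨h1, h2⟩, -, -⟩ := mem_E1.1 (hE0 hf)
    exact ⟨mem_image_of_mem _ h1, mem_image_of_mem _ h2⟩
  · refine (hcx.sep X hX Y hY B).mono_deg ?_
    omega
  · exact (muK_E1z hB le_rfl hS).subset hsub
  · refine (muK_swp_E1z hB le_rfl hS).subset ?_
    intro e he
    exact mem_swp.2 (hsub (mem_swp.1 he))
  · intro e he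
    obtain ⟨f, hf, rfl⟩ := mem_image.1 he
    intro Φ s r h1 h2 h3
    have e1 : f.1 = s := zt_injective B (congrArg Prod.fst h1)
    have e2 : f.2 = r := zt_injective B (congrArg Prod.snd h1)
    subst e1; subst e2
    rcases hor f hf Φ h2 h3 with h | h
    · left
      intro cl hcl
      show cl.card ≤ Ms (uz B (zt B f.1))
      rw [uz_zt]
      exact h cl fun x hx => ⟨hmem _ _ (hcl x hx).1, (hcl x hx).2⟩
    · right
      intro cl hcl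
      show cl.card ≤ Ms (uz B (zt B f.2))
      rw [uz_zt]
      exact h cl fun x hx => ⟨hmem _ _ (hcl x hx).1, (hcl x hx).2⟩
  · exact card_image_of_injective _ hinj
  · rw [card_image_of_injective _ (zt_injective B), card_product]
  · intro U hU
    obtain ⟨U', hU', rfl⟩ := subset_image_iff.1 hU
    refine ⟨U', hU', card_image_of_injective _ (zt_injective B), ?_⟩
    rw [sum_image fun x _ y _ h => zt_injective B h]
    refine sum_congr rfl fun s _ => ?_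
    rw [uz_zt]

open scoped Classical in
/-- the interior regime -/
theorem stepA3 {C : ℝ} {q : ℕ} (hC : 1 ≤ C) (hq : 8 * 1990656 * C ^ 2 ≤ 2 ^ q) {γ : Type*}
    {P X Y : Finset (E 2)} {Tc : Finset (E 2) → ℕ} (hcx : Cx P Tc) (cl : E 2 × E 2 → γ)
    (hcl : ∀ A ⊆ X ×ˢ Y, finrank ℝ (vectorSpan ℝ (A : Set (E 2 × E 2))) ≤ 3 →
      ((A.image cl).card : ℝ) ≤ C * 8 ^ (4 * q))
    (hsum : ∑ c ∈ (X ×ˢ Y).image cl, (W adj ((X ×ˢ Y).filter fun s => cl s = c) : ℝ) ≤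
      C * ((2 : ℝ) ^ (4 * q)) ^ (-(13 / 4) : ℝ) * W adj (X ×ˢ Y)) {M κ₀ c₀ : ℕ}
    (hκ : κ₀ = ⌊C * 8 ^ (4 * q)⌋₊) (hc₀ : c₀ = 16 * 1990656 * κ₀)
    (hM : (64 * 1990656 * κ₀ : ℝ) * ((Tc X + Tc Y : ℕ) + 1) ≤ M) (δ : ℝ) :
    ∃ (E0 : Finset ((E 2 × E 2) × (E 2 × E 2))) (Ms : E 2 × E 2 → ℕ), E0 ⊆ E1 adj (X ×ˢ Y) ∧
      (W adj (X ×ˢ Y) : ℝ) / 2 ≤ E0.card ∧ (∀ e ∈ E0, OrL E0 Ms δ e) ∧
      ∀ s, Ms s ≤ M + Nat.sqrt (4 * c₀ * (lns adj (X ×ˢ Y) s).card) := by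
  have h8 : (1 : ℝ) ≤ C * 8 ^ (4 * q) := by
    have : (1 : ℝ) ≤ 8 ^ (4 * q) := one_le_pow₀ (by norm_num)
    nlinarith
  have hκ1 : 1 ≤ κ₀ := by
    rw [hκ]; exact Nat.le_floor (by exact_mod_cast h8)
  have hκ2 : (κ₀ : ℝ) ≤ C * 8 ^ (4 * q) := by
    rw [hκ]; exact Nat.floor_le (by linarith)
  have hκr : (1 : ℝ) ≤ κ₀ := by exact_mod_cast hκ1
  have hM1 : 1 ≤ M := by
    have e1 : (0 : ℝ) < M := by
      refine lt_of_lt_of_le ?_ hM
      positivity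
    exact_mod_cast e1
  set S := X ×ˢ Y with hS
  set L := 2 * Tc X with hL
  have g1 : ∀ A ∈ tr S δ, (A.image cl).card ≤ κ₀ := by
    intro A hA
    rw [hκ]
    exact Nat.le_floor (hcl A (mem_tr.1 hA).subset (mem_tr.1 hA).finrank_le)
  have g2 : ∀ A ∈ tr S δ, ∀ p ∈ A.offDiag, lineC A p.1 p.2 ≤ L := by
    intro A hA p hp
    obtain ⟨p1, p2, p3⟩ := mem_offDiag.1 hp
    have h4 := ((mem_tr.1 hA).adj p1 p2 p3).1
    refine (lineC_mono' (mem_tr.1 hA).subset _ _).trans ?_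
    refine (lineC_prod_le X Y (Finset.Subset.refl _) h4).trans ?_
    exact hcx.line X _ _ h4
  have g3 : ∀ s ∈ S, 4 * c₀ * (lns adj S s).card ≤
      (max M (Nat.sqrt (4 * c₀ * (lns adj S s).card) + 1)) ^ 2 := by
    intro s _
    have e1 := Nat.lt_succ_sqrt (4 * c₀ * (lns adj S s).card)
    have e2 : Nat.sqrt (4 * c₀ * (lns adj S s).card) + 1 ≤
        max M (Nat.sqrt (4 * c₀ * (lns adj S s).card) + 1) := le_max_right _ _
    calc 4 * c₀ * (lns adj S s).card ≤ (Nat.sqrt (4 * c₀ * (lns adj S s).card) + 1) ^ 2 := by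
          rw [sq]; exact e1.le
      _ ≤ _ := Nat.pow_le_pow_left e2 2
  have g4 : 1990656 * (κ₀ : ℝ) * (∑ c ∈ S.image cl, (W adj (S.filter fun s => cl s = c) : ℝ) +
      (1 / (c₀ : ℝ) + 2 * ((L : ℝ) + 1) / M) * W adj S) ≤ (W adj S : ℝ) / 2 := by
    set w : ℝ := (W adj S : ℝ) with hw
    have hw0 : 0 ≤ w := Nat.cast_nonneg _
    have a1 : 1990656 * (κ₀ : ℝ) * ∑ c ∈ S.image cl, (W adj (S.filter fun s => cl s = c) : ℝ) ≤
        w / 8 := by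
      have b1 := two_pow_cancel q
      have b2 : (0 : ℝ) < 2 ^ q := by positivity
      calc 1990656 * (κ₀ : ℝ) * ∑ c ∈ S.image cl, (W adj (S.filter fun s => cl s = c) : ℝ)
          ≤ 1990656 * (κ₀ : ℝ) * (C * ((2 : ℝ) ^ (4 * q)) ^ (-(13 / 4) : ℝ) * w) :=
            mul_le_mul_of_nonneg_left hsum (by positivity)
        _ ≤ 1990656 * (C * 8 ^ (4 * q)) * (C * ((2 : ℝ) ^ (4 * q)) ^ (-(13 / 4) : ℝ) * w) := by
            refine mul_le_mul_of_nonneg_right ?_ (by positivity)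
            exact mul_le_mul_of_nonneg_left hκ2 (by norm_num)
        _ = 1990656 * C ^ 2 * w * (8 ^ (4 * q) * ((2 : ℝ) ^ (4 * q)) ^ (-(13 / 4) : ℝ)) := by
            ring
        _ = 1990656 * C ^ 2 * w / 2 ^ q := by
            rw [eq_div_iff b2.ne', mul_assoc, b1, mul_one]
        _ ≤ w / 8 := by
            rw [div_le_iff₀ b2]
            calc 1990656 * C ^ 2 * w = (8 * 1990656 * C ^ 2) * (w / 8) := by ring
              _ ≤ 2 ^ q * (w / 8) := mul_le_mul_of_nonneg_right hq (by positivity)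
              _ = _ := by ring
    have a2 : 1990656 * (κ₀ : ℝ) * (1 / (c₀ : ℝ)) = 1 / 16 := by
      rw [hc₀]; push_cast
      field_simp
      norm_num
    have a3 : 1990656 * (κ₀ : ℝ) * (2 * ((L : ℝ) + 1) / M) ≤ 1 / 16 := by
      have c1 : (0 : ℝ) < M := by exact_mod_cast hM1
      have c2 : ((L : ℝ) + 1) ≤ 2 * ((Tc X + Tc Y : ℕ) + 1) := by
        rw [hL]; push_cast
        have : (0 : ℝ) ≤ Tc Y := Nat.cast_nonneg _
        linarith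
      rw [mul_div_assoc', div_le_iff₀ c1]
      calc 1990656 * (κ₀ : ℝ) * (2 * ((L : ℝ) + 1))
          ≤ 1990656 * (κ₀ : ℝ) * (2 * (2 * ((Tc X + Tc Y : ℕ) + 1))) := by
            refine mul_le_mul_of_nonneg_left ?_ (by positivity)
            linarith
        _ = (64 * 1990656 * κ₀ : ℝ) * ((Tc X + Tc Y : ℕ) + 1) / 16 := by ring
        _ ≤ M / 16 := by linarith
        _ = _ := by ring
    have a4 : 1990656 * (κ₀ : ℝ) * ((1 / (c₀ : ℝ) + 2 * ((L : ℝ) + 1) / M) * w) ≤ w / 8 := by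
      calc 1990656 * (κ₀ : ℝ) * ((1 / (c₀ : ℝ) + 2 * ((L : ℝ) + 1) / M) * w)
          = (1990656 * (κ₀ : ℝ) * (1 / (c₀ : ℝ)) + 1990656 * (κ₀ : ℝ) * (2 * ((L : ℝ) + 1) / M)) *
            w := by ring
        _ ≤ (1 / 16 + 1 / 16) * w := by
            refine mul_le_mul_of_nonneg_right ?_ hw0
            rw [a2]; linarith
        _ = w / 8 := by ring
    rw [mul_add]
    linarith
  obtain ⟨E0, h1, h2, h3⟩ := selA (S := S) (ε := δ) cl κ₀ L g1 g2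
    c₀ M (by omega) hM1 (fun s => max M (Nat.sqrt (4 * c₀ * (lns adj S s).card) + 1))
    (fun s _ => le_max_left _ _) g3 g4
  refine ⟨E0, _, h1, h2, h3, fun s => ?_⟩
  exact max_le (Nat.le_add_right _ _) (by omega)

/-- the boundary regime -/
theorem stepB3 (ε : ℝ) (hε : 0 < ε) : ∃ (K1 : ℕ) (Cr : ℝ), 0 < Cr ∧
    ∀ (P X Y : Finset (E 2)) (Tc : Finset (E 2) → ℕ), Cx P Tc → ∀ (M : ℕ) (δ : ℝ), Y.Nonempty →
      4 * (Tc X + Tc Y) + K1 ≤ M →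
      Cr * ((X.card : ℝ) * Y.card) ^ (2 + ε) ≤ M * ((W adj (X ×ˢ Y) : ℝ) / 2) →
      ∃ E0 ⊆ E1 adj (X ×ˢ Y), (W adj (X ×ˢ Y) : ℝ) / 2 ≤ E0.card ∧
        ∀ e ∈ E0, OrL E0 (fun _ => M) δ e := by
  classical
  obtain ⟨K1, Cr, hCr, hr⟩ := H549.rich_pairs ε hε
  refine ⟨K1, Cr, hCr, fun P X Y Tc hcx M δ hY hM hnum => ?_⟩
  have h2 : 0 < Tc Y := hcx.pos Y hY
  have hMp : 0 < M := by omega
  refine selB (S := X ×ˢ Y) (ε := δ) M fun A hA => ?_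
  have h3 := hr X Y A (2 * Tc Y) M (by omega) (by omega) 
    (fun x _ y _ hxy => hcx.line Y x y hxy) hA
  have h4 : (0 : ℝ) < M := by exact_mod_cast hMp
  exact le_of_mul_le_mul_left (h3.trans hnum) h4

end steps

section sel

open Finset Module
open Vale.Agent.P054.T2 Vale.Agent.P054.T2.SecC
open Vale.Agent.P054.T2.H686 (E zt zt_injective Ez Gm)
open Vale.Agent.P054.T2.H455 (Sep)
open Vale.Agent.P054.T3.H190
open Vale.Agent.P054.T3.H637 (dt)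
open Vale.Agent.P054.T3.H533 (MuK NoRichL uz uz_zt)
open Vale.Agent.P054.T3.H900

/-- the start for `n = 2` -/
def Sel3 (D : ℕ) (η : ℝ) : Prop :=
  ∃ C : ℝ, 1 ≤ C ∧ ∀ Y₀ : ℝ, ∃ K₀ : ℝ, ∀ K : ℝ, K₀ ≤ K → 1 ≤ K → ∃ t₀ : ℕ, ∀ t : ℕ, t₀ ≤ t →
    1 ≤ t → ∀ (P : Finset (E 2)) (Tc : Finset (E 2) → ℕ), Hy D η P t Tc →
    K * (t : ℝ) ^ (((2 + 1 : ℕ) : ℝ) / 2) ≤ P.card →
    (P.card : ℝ) ≤ 2 * (K * (t : ℝ) ^ (((2 + 1 : ℕ) : ℝ) / 2)) →
    ∀ B : E 2 ≃ₗᵢ[ℝ] E 2, Gm P B →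
    ∃ (S : Finset (ZZ 2)) (E₀ : Finset (ZZ 2 × ZZ 2)) (k T τ M : ℕ) (m : ZZ 2 → ℕ) (Y : ℝ),
      E₀.Nonempty ∧ E₀ ⊆ Ez P B k ∧ (∀ e ∈ E₀, e.1 ∈ S ∧ e.2 ∈ S) ∧
      Sep (fun s : ZZ 2 => pt s) (4 * T) S ∧ S.card ^ 2 ≤ 4 * τ * E₀.card ∧ 1 ≤ τ ∧ τ ≤ T ∧
      (τ : ℝ) ≤ C * t ∧ MuK E₀ 1 ∧ MuK (swp E₀) 1 ∧
      (∀ e ∈ E₀, NoRichL B E₀ m (Vale.Agent.P054.T3.H637.dt B) e) ∧
      (∀ U ⊆ S, ((∑ s ∈ U, m s : ℕ) : ℝ) ≤
        (U.card : ℝ) * M + C * √((U.card : ℝ) * ((S.card : ℝ) ^ 2 / τ))) ∧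
      Y₀ ≤ Y ∧ Y * (τ : ℝ) ^ 3 ≤ S.card ∧ Y * ((τ : ℝ) ^ 2 * T) ≤ S.card ∧
      Y * (M * (τ : ℝ) ^ 2) ≤ S.card ∧ (τ : ℝ) * (T : ℝ) ^ 2 ≤ Y ^ 30 * S.card ∧
      (t : ℝ) ^ (1 / 16 : ℝ) * (τ * (P.card + (t : ℝ) ^ (7 / 4 : ℝ))) ≤ S.card

set_option maxHeartbeats 800000 in
/-- **the selection for `n = 2`** -/
theorem sel3 : ∃ D : ℕ, ∀ η : ℝ, 0 < η → Sel3 D η := by
  classical
  obtain ⟨C, hC, hst⟩ := start3
  obtain ⟨q, hq⟩ := pow_unbounded_of_one_lt (8 * 1990656 * C ^ 2) (one_lt_two (α := ℝ))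
  refine ⟨18 * 2 ^ (4 * q), fun η hη => ?_⟩
  obtain ⟨ε₀, hε₀, hst⟩ := hst η hη
  obtain ⟨ε₁, hε1, hε2, hε3⟩ : ∃ ε₁ : ℝ, 0 < ε₁ ∧ ε₁ ≤ ε₀ ∧ ε₁ ≤ 1 / 8 :=
    ⟨min ε₀ (1 / 8), lt_min hε₀ (by norm_num), min_le_left _ _, min_le_right _ _⟩
  obtain ⟨t₁, hst⟩ := hst ε₁ hε1 hε2
  obtain ⟨K1, Cr, hCr, hB⟩ := stepB3 (ε₁ / 144) (by positivity)
  obtain ⟨κ₀, hκ⟩ : ∃ κ₀ : ℕ, κ₀ = ⌊C * 8 ^ (4 * q)⌋₊ := ⟨_, rfl⟩
  obtain ⟨c₀, hc₀⟩ : ∃ c₀ : ℕ, c₀ = 16 * 1990656 * κ₀ := ⟨_, rfl⟩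
  have hκ1 : 1 ≤ κ₀ := by
    have h8 : (1 : ℝ) ≤ C * 8 ^ (4 * q) := by
      have : (1 : ℝ) ≤ 8 ^ (4 * q) := one_le_pow₀ (by norm_num)
      exact one_le_mul_of_one_le_of_one_le hC this
    rw [hκ]; exact Nat.le_floor (by exact_mod_cast h8)
  have hc₀1 : 1 ≤ c₀ := by omega
  obtain ⟨A₀, hA1, hA2⟩ : ∃ A₀ : ℝ, 64 * 1990656 * (κ₀ : ℝ) ≤ A₀ ∧ 4 + (K1 : ℝ) ≤ A₀ :=
    ⟨max (64 * 1990656 * (κ₀ : ℝ)) (4 + (K1 : ℝ)), le_max_left _ _, le_max_right _ _⟩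
  have hA0 : 0 ≤ A₀ := le_trans (by positivity) hA2
  obtain ⟨c', hc', hc8⟩ : ∃ c' : ℝ, 0 < c' ∧ 8 * c' ^ 2 * C = 1 := by
    have hC0 : 0 < C := by linarith
    refine ⟨√(1 / (8 * C)), by positivity, ?_⟩
    rw [Real.sq_sqrt (by positivity)]
    field_simp
  obtain ⟨C', hC1, hC2, hC3⟩ : ∃ C' : ℝ, 1 ≤ C' ∧ C ≤ C' ∧ 16 ≤ C' :=
    ⟨max C 16, hC.trans (le_max_left _ _), le_max_left _ _, le_max_right _ _⟩
  obtain ⟨Co, hCo1, hCo2, hCo3⟩ : ∃ Co : ℝ, 1 ≤ Co ∧ 8 * (c₀ : ℝ) ≤ Co ∧ 2 * C ≤ Co :=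
    ⟨max (8 * (c₀ : ℝ)) (2 * C), le_trans (by linarith) (le_max_right _ _), le_max_left _ _,
      le_max_right _ _⟩
  refine ⟨Co, hCo1, fun Y₀ => ?_⟩
  obtain ⟨Q, hQ1, hQ2, hQ3, hQ4, hQ5⟩ := exists_Q hc' (2 * A₀ + 4) (8 * C' ^ 3) Y₀
  refine ⟨Q ^ 3, fun K hK hK1 => ?_⟩
  obtain ⟨t₂, ht₂⟩ := exists_t (δ := ε₁ / 20) (by positivity) (2 ^ (4 * q))
  obtain ⟨t₃, ht₃⟩ := exists_t (δ := 7 / 64) (by norm_num) (4 * C)
  obtain ⟨t₄, ht₄⟩ := exists_t (δ := 1 / 4) (by norm_num) (2 * K)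
  obtain ⟨t₅, ht₅⟩ := exists_t (δ := ε₁ / 48) (by positivity)
    (4 * Cr * (4 * K ^ 2) ^ (ε₁ / 144) / c')
  refine ⟨max t₁ (max (max t₂ t₃) (max t₄ t₅)), fun t ht ht1 P Tc hd hp1 hp2 B hG => ?_⟩
  have hb1 := (le_max_left _ _).trans ht
  have hb := (le_max_right _ _).trans ht
  have ht₂ := ht₂ t (((le_max_left _ _).trans (le_max_left _ _)).trans hb)
  have ht₃ := ht₃ t (((le_max_right _ _).trans (le_max_left _ _)).trans hb)
  have ht₄ := ht₄ t (((le_max_left _ _).trans (le_max_right _ _)).trans hb)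
  have ht₅ := ht₅ t (((le_max_right _ _).trans (le_max_right _ _)).trans hb)
  clear hb ht
  have e32 : (((2 + 1 : ℕ) : ℝ) / 2) = 3 / 2 := by norm_num
  rw [e32] at hp1 hp2
  obtain ⟨X, Y, z, hX, hY, hXn, hYn, hdn, hXY, hz1, hz2, hWp, s1, s2, s3, hcell⟩ :=
    hst t hb1 ht1 _ P Tc hd K hK1 hp1 hp2
  have hadj : (adjE : E 2 × E 2 → E 2 × E 2 → Prop) = adj := rfl
  rw [hadj] at hWp s1 s2 s3
  have ht1' : (1 : ℝ) ≤ t := by exact_mod_cast ht1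
  have ht0 : (0 : ℝ) < t := by linarith
  have hz0 : 0 < z := lt_of_lt_of_le (Real.rpow_pos_of_pos ht0 _) hz1
  obtain ⟨k, u, hk1, hu1, ek3, ek4, ek6, eu9, eu2, eu3, eu24⟩ := exists_ku hK1 hz0 hz2
  obtain ⟨N, hN⟩ : ∃ N : ℝ, N = (X.card : ℝ) * Y.card := ⟨_, rfl⟩
  obtain ⟨w, hw⟩ : ∃ w : ℝ, w = (W adj (X ×ˢ Y) : ℝ) := ⟨_, rfl⟩
  obtain ⟨x, hx⟩ : ∃ x : ℝ, N ^ 2 / w = x := ⟨_, rfl⟩
  rw [← hN] at hXY s1 s2 s3
  rw [← hw, hx] at s1 s2 s3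
  have hN0 : 0 < N := by
    have h1 : (0 : ℝ) < X.card := by exact_mod_cast hXn.card_pos
    have h2 : (0 : ℝ) < Y.card := by exact_mod_cast hYn.card_pos
    rw [hN]; positivity
  have hw0 : 0 < w := by rw [hw]; exact_mod_cast hWp
  have hNw : x * w = N ^ 2 := by rw [← hx]; exact div_mul_cancel₀ _ hw0.ne'
  have hx1 : 1 ≤ x := by
    rw [← hx, le_div_iff₀ hw0, one_mul, hw, hN]
    have h1 := W_le_sq adj (X ×ˢ Y)
    rw [card_product] at h1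
    exact_mod_cast h1
  have hCp : 0 < C := by linarith
  -- the inequalities of `nums_core`
  have n1 : 8 * c' ^ 2 * k ^ 6 * u ^ 3 * x ^ 3 ≤ N := by
    have h1 : 8 * c' ^ 2 * (K ^ 2 * z ^ (-(1 / 8) : ℝ) * x ^ 3) ≤ 8 * c' ^ 2 * (C * N) :=
      mul_le_mul_of_nonneg_left s2 (by positivity)
    rw [ek6, eu3]
    calc _ = 8 * c' ^ 2 * (K ^ 2 * z ^ (-(1 / 8) : ℝ) * x ^ 3) := by ring
      _ ≤ 8 * c' ^ 2 * (C * N) := h1
      _ = (8 * c' ^ 2 * C) * N := by ring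
      _ = N := by rw [hc8, one_mul]
  have n2 : 8 * c' ^ 2 * k ^ 4 * u ^ 2 * (x ^ 2 * ((Tc X + Tc Y : ℕ) : ℝ)) ≤ N := by
    have h1 := mul_le_mul_of_nonneg_left s3 (show 0 ≤ 8 * c' ^ 2 by positivity)
    rw [ek4, eu2]
    calc _ = 8 * c' ^ 2 * (K ^ (4 / 3 : ℝ) * z ^ (-(1 / 12) : ℝ) * x ^ 2 *
          ((Tc X + Tc Y : ℕ) : ℝ)) := by ring
      _ ≤ 8 * c' ^ 2 * (C * N) := h1
      _ = (8 * c' ^ 2 * C) * N := by ring
      _ = N := by rw [hc8, one_mul]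
  have n3 : x * u ^ 9 ≤ C' * t := by
    calc x * u ^ 9 ≤ (C * (z ^ (3 / 8 : ℝ) * t)) * u ^ 9 :=
          mul_le_mul_of_nonneg_right s1 (by positivity)
      _ = C * t * (z ^ (3 / 8 : ℝ) * u ^ 9) := by ring
      _ = C * t := by rw [eu9, mul_one]
      _ ≤ C' * t := mul_le_mul_of_nonneg_right hC2 ht0.le
  have n4 : ((Tc X + Tc Y : ℕ) : ℝ) ≤ C' * t := by
    have h1 : ((Tc X + Tc Y : ℕ) : ℝ) ≤ 16 * t := by exact_mod_cast hdn
    exact h1.trans (mul_le_mul_of_nonneg_right hC3 ht0.le)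
  have n5 : k ^ 6 * (t : ℝ) ^ 3 ≤ N * u ^ 24 := by
    have h1 : N * u ^ 24 = (P.card : ℝ) ^ 2 := by
      calc N * u ^ 24 = (z * u ^ 24) * (P.card : ℝ) ^ 2 := by rw [hXY]; ring
        _ = _ := by rw [eu24, one_mul]
    have h2 : (K * (t : ℝ) ^ (3 / 2 : ℝ)) ^ 2 ≤ (P.card : ℝ) ^ 2 :=
      pow_le_pow_left₀ (by positivity) hp1 2
    have h3 : ((t : ℝ) ^ (3 / 2 : ℝ)) ^ 2 = (t : ℝ) ^ 3 := by
      rw [← Real.rpow_natCast, ← Real.rpow_mul ht0.le, ← Real.rpow_natCast]; norm_num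
    rw [mul_pow, h3] at h2
    rw [h1, ek6]
    exact h2
  have hkQ : Q ≤ k := by
    by_contra hc
    have h1 : k ^ 3 < Q ^ 3 := pow_lt_pow_left₀ (not_le.1 hc) (by linarith) (by norm_num)
    rw [ek3] at h1
    linarith
  have hkQ2 : c' * Q ≤ c' * k ^ 2 := by
    refine mul_le_mul_of_nonneg_left (hkQ.trans ?_) hc'.le
    calc k = k * 1 := (mul_one k).symm
      _ ≤ k * k := mul_le_mul_of_nonneg_left hk1 (by linarith)
      _ = k ^ 2 := by ring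
  have n6 : 1 ≤ c' * k ^ 2 := hQ2.trans hkQ2
  have n7 : 8 * C' ^ 3 ≤ c' ^ 30 * k ^ 66 := by
    have h1 : (c' * k ^ 2) ^ 1 ≤ (c' * k ^ 2) ^ 30 := pow_le_pow_right₀ n6 (by norm_num)
    have h2 : (1 : ℝ) ≤ k ^ 6 := one_le_pow₀ hk1
    calc 8 * C' ^ 3 ≤ c' * k ^ 2 := hQ4.trans hkQ2
      _ = (c' * k ^ 2) ^ 1 := (pow_one _).symm
      _ ≤ (c' * k ^ 2) ^ 30 := h1
      _ = (c' * k ^ 2) ^ 30 * 1 := (mul_one _).symm
      _ ≤ (c' * k ^ 2) ^ 30 * k ^ 6 := mul_le_mul_of_nonneg_left h2 (by positivity)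
      _ = _ := by ring
  obtain ⟨Yr, hYr⟩ : ∃ Yr : ℝ, Yr = c' * k ^ 2 * u := ⟨_, rfl⟩
  obtain ⟨τ, T, M, m1, m2, m3, m4, m5, m6, m7, m8, m9, m10, m11, m12⟩ :=
    nums_core (T₀ := Tc X + Tc Y) hc' hC1 hA0 hk1 hu1 hx1 hN0 ht1' n1 n2 n3 n4 n5 n6
      (hQ3.trans hkQ2) n7 hYr
  have hYrp : 0 < Yr := by rw [hYr]; positivity
  have hτ0 : (0 : ℝ) < τ := by exact_mod_cast m1
  -- the selection
  have key : ∃ (E0 : Finset ((E 2 × E 2) × (E 2 × E 2))) (Ms : E 2 × E 2 → ℕ),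
      E0 ⊆ E1 adj (X ×ˢ Y) ∧ (W adj (X ×ˢ Y) : ℝ) / 2 ≤ E0.card ∧
      (∀ e ∈ E0, OrL E0 Ms (dt B) e) ∧ ∀ U ⊆ X ×ˢ Y, ∑ s ∈ U, (Ms s : ℝ) ≤
        U.card * M + Co * √(U.card * (N ^ 2 / τ)) := by
    by_cases hreg : (t : ℝ) ^ (-(ε₁ / 2)) ≤ z
    · obtain ⟨cl, h1, h2⟩ := hcell hreg (4 * q) ht₂ le_rfl
      have himg : ∀ (i₁ i₂ : DecidableEq
          (Option (Fin (3 * (4 * q)) → Bool) × Option (Fin (3 * (4 * q)) → Bool)))
          (A : Finset (E 2 × E 2)), @Finset.image _ _ i₁ cl A = @Finset.image _ _ i₂ cl A := by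
        intro i₁ i₂ A
        have e : i₁ = i₂ := Subsingleton.elim _ _
        rw [e]
      have hfil : ∀ (c : Option (Fin (3 * (4 * q)) → Bool) × Option (Fin (3 * (4 * q)) → Bool))
          (i₁ i₂ : DecidablePred fun s => cl s = c),
          @Finset.filter _ (fun s => cl s = c) i₁ (X ×ˢ Y) =
            @Finset.filter _ (fun s => cl s = c) i₂ (X ×ˢ Y) := by
        intro c i₁ i₂
        have e : i₁ = i₂ := Subsingleton.elim _ _
        rw [e]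
      obtain ⟨E0, Ms, h3, h4, h5, h6⟩ := stepA3 (M := M) hC hq.le hd.cx cl
        (fun A hA hA' => by
          refine le_trans (le_of_eq ?_) (h1 A hA hA')
          exact congrArg (fun F => ((Finset.card F : ℕ) : ℝ)) (himg _ _ A)) (by
          rw [hadj] at h2
          refine le_trans (le_of_eq ?_) h2
          refine Finset.sum_congr (himg _ _ _) fun c _ => ?_
          exact congrArg (fun F => ((W adj F : ℕ) : ℝ)) (hfil c _ _)) hκ hc₀ (by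
          refine le_trans ?_ m10
          exact mul_le_mul_of_nonneg_right hA1 (by positivity)) (dt B)
      refine ⟨E0, Ms, h3, h4, h5, fun U hU => ?_⟩
      refine (msum c₀ M hc₀1 h6 hτ0 (N := N) ?_ U hU).trans ?_
      · rw [← hw, ← hNw]
        calc w * τ ≤ w * (2 * x) := mul_le_mul_of_nonneg_left m3 hw0.le
          _ = _ := by ring
      · have h7 : 0 ≤ √((U.card : ℝ) * (N ^ 2 / τ)) := Real.sqrt_nonneg _
        have h8 := mul_le_mul_of_nonneg_right hCo2 h7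
        linarith
    · have hreg' := not_le.1 hreg
      have h1 := num_bd' (k := k) (u := u) hCr hc' hε1 hK1 hk1 ht1' hz0 hz2 hN0 hXY
        (Nat.cast_nonneg _) hp2 hreg' eu2 ht₅
      have h2 := num_bd (M := (M : ℝ)) (W := w) hCr hN0 hτ0 hYrp (Nat.cast_nonneg _) hw0 hx m2 h1
        m12 m11
      obtain ⟨E0, h3, h4, h5⟩ := hB P X Y Tc hd.cx M (dt B) hYn (by
        have h6 : ((4 * (Tc X + Tc Y) + K1 : ℕ) : ℝ) ≤ M := by
          refine le_trans ?_ m10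
          have h7 : (4 + (K1 : ℝ)) * (((Tc X + Tc Y : ℕ) : ℝ) + 1) ≤
              A₀ * (((Tc X + Tc Y : ℕ) : ℝ) + 1) :=
            mul_le_mul_of_nonneg_right hA2 (by positivity)
          refine le_trans ?_ h7
          have h8 : (0 : ℝ) ≤ (K1 : ℝ) * ((Tc X + Tc Y : ℕ) : ℝ) := by positivity
          push_cast at h8 ⊢
          linarith
        exact_mod_cast h6) (by rw [← hN, ← hw]; exact h2)
      refine ⟨E0, fun _ => M, h3, h4, h5, fun U hU => ?_⟩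
      rw [sum_const, nsmul_eq_mul]
      have h7 : 0 ≤ √((U.card : ℝ) * (N ^ 2 / τ)) := Real.sqrt_nonneg _
      have h8 : 0 ≤ Co * √((U.card : ℝ) * (N ^ 2 / τ)) := mul_nonneg (by linarith) h7
      linarith
  obtain ⟨E0, Ms, k1, k2, k3, k4⟩ := key
  obtain ⟨S, E', g1, g2, g3, g4, g5, g6, g7, g8, g9⟩ := glue3 hG hX hY hd.cx k1 Ms k3 m5
  have hSN : (S.card : ℝ) = N := by rw [g8, hN]; push_cast; ring
  have hEw : w / 2 ≤ E'.card := by rw [g7, hw]; exact k2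
  refine ⟨S, E', P.card, T, τ, M, fun z => Ms (uz B z), Yr, ?_, g1, g2, g3, ?_, m1, m4, ?_, g4, g5,
    g6, ?_, ?_, ?_, ?_, ?_, ?_, ?_⟩
  · rw [← card_pos]
    have : (0 : ℝ) < E'.card := lt_of_lt_of_le (by linarith) hEw
    exact_mod_cast this
  · have h1 : (S.card : ℝ) ^ 2 ≤ 4 * τ * E'.card := by
      rw [hSN, ← hNw]
      calc x * w ≤ τ * w := mul_le_mul_of_nonneg_right m2 hw0.le
        _ ≤ τ * (2 * E'.card) := mul_le_mul_of_nonneg_left (by linarith) hτ0.le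
        _ ≤ 4 * τ * E'.card := by
            have : (0 : ℝ) ≤ τ * E'.card := by positivity
            linarith
    exact_mod_cast h1
  · have h1 : x ≤ C * t := by
      refine s1.trans (mul_le_mul_of_nonneg_left ?_ hCp.le)
      have : z ^ (3 / 8 : ℝ) ≤ 1 := Real.rpow_le_one hz0.le hz2 (by norm_num)
      calc z ^ (3 / 8 : ℝ) * t ≤ 1 * t := mul_le_mul_of_nonneg_right this ht0.le
        _ = t := one_mul _
    calc (τ : ℝ) ≤ 2 * x := m3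
      _ ≤ 2 * C * t := by linarith
      _ ≤ Co * t := mul_le_mul_of_nonneg_right hCo3 ht0.le
  · intro U hU
    obtain ⟨U', hU', h1, h2⟩ := g9 U hU
    push_cast
    rw [h1, h2, hSN]
    exact k4 U' hU'
  · calc Y₀ ≤ c' * Q := hQ5
      _ ≤ c' * k ^ 2 := hkQ2
      _ = c' * k ^ 2 * 1 := (mul_one _).symm
      _ ≤ Yr := by rw [hYr]; exact mul_le_mul_of_nonneg_left hu1 (by positivity)
  · rw [hSN]; exact m6
  · rw [hSN]; exact m7
  · rw [hSN]; exact m8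
  · rw [hSN]; exact m9
  · rw [hSN]
    refine num_h5 hC hK1 ht1' hz0 ?_ hp1 hp2 hXY s1 m3 hτ0.le ht₃ ht₄
    refine le_trans ?_ hz1
    exact Real.rpow_le_rpow_of_exponent_le ht1' (by linarith)

end sel

section flat

open Vale.Agent.P054.T2
open Vale.Agent.P054.T2.H686
open Vale.Agent.P054.T2.SecC (ZZ)
open Vale.Agent.P054.T3.H637
open Module

/-- at most two second coordinates over every first coordinate -/
theorem half_two {n : ℕ} (P : Finset (E n)) (S : Finset (E n × E n)) (hS1 : ∀ s ∈ S, s.1 ∈ P)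
    (x x' : E n) (hadj : ∀ s ∈ S, dist x s.1 = dist x' s.2)
    (U' : Submodule ℝ (E n)) (hU' : finrank ℝ U' ≤ 1)
    (hSU' : ∀ s ∈ S, ∀ s' ∈ S, s.1 = s'.1 → s.2 - s'.2 ∈ U') : S.card ≤ 2 * P.card := by
  classical
  refine Finset.card_le_mul_card_image_of_maps_to (f := Prod.fst) hS1 2 ?_
  intro p _
  set T := S.filter fun s => s.1 = p with hT
  have h1 : T.card = (T.image Prod.snd).card := by
    refine (Finset.card_image_of_injOn ?_).symm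
    intro s hs s' hs' h2
    have e1 := (Finset.mem_filter.1 (Finset.mem_coe.1 hs)).2
    have e2 := (Finset.mem_filter.1 (Finset.mem_coe.1 hs')).2
    exact Prod.ext (e1.trans e2.symm) h2
  rw [h1]
  refine card_line_sphere_le _ x' (dist x p) ?_ U' hU' ?_
  · intro y hy
    obtain ⟨s, hs, rfl⟩ := Finset.mem_image.1 hy
    obtain ⟨h2, h3⟩ := Finset.mem_filter.1 hs
    rw [← hadj s h2, h3]
  · intro y hy y' hy'
    obtain ⟨s, hs, rfl⟩ := Finset.mem_image.1 hy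
    obtain ⟨s', hs', rfl⟩ := Finset.mem_image.1 hy'
    obtain ⟨h2, h3⟩ := Finset.mem_filter.1 hs
    obtain ⟨h4, h5⟩ := Finset.mem_filter.1 hs'
    exact hSU' s h2 s' h4 (h3.trans h5.symm)

/-- in dimension three the bound for flats needs no hypothesis -/
theorem flatQ_three (P : Finset (E 2)) : FlatQ 2 P (2 * P.card) := by
  classical
  intro B V z₀ s hV cl hcl hclV hcls
  have hdiff : ∀ r ∈ cl, ∀ r' ∈ cl, zt B r - zt B r' ∈ V := by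
    intro r hr r' hr'
    have := V.sub_mem (hclV r hr) (hclV r' hr')
    rwa [sub_sub_sub_cancel_right] at this
  have hadj : ∀ r ∈ cl, dist s.1 r.1 = dist s.2 r.2 := fun r hr =>
    (Qf_zt_sub_eq_zero B s r).1 (hcls r hr)
  have hP1 : ∀ r ∈ cl, r.1 ∈ P := fun r hr => (Finset.mem_product.1 (hcl hr)).1
  have hP2 : ∀ r ∈ cl, r.2 ∈ P := fun r hr => (Finset.mem_product.1 (hcl hr)).2
  set a := finrank ℝ (V.map (toX (n := 2))) with ha
  set b := finrank ℝ (V ⊓ LinearMap.ker (toX (n := 2)) : Submodule ℝ _) with hb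
  set b' := finrank ℝ (V ⊓ LinearMap.ker (toY (n := 2)) : Submodule ℝ _) with hb'
  have hab : a + b ≤ 2 + 1 := (finrank_map_add_ker toX V).le.trans hV
  have hX : ∀ r r' : E 2 × E 2, toX (zt B r - zt B r') = r.1 - r'.1 := by
    intro r r'
    rw [map_sub, toX_zt, toX_zt]
  have hY : ∀ r r' : E 2 × E 2, toY (zt B r - zt B r') = B (r.2 - r'.2) := by
    intro r r'
    rw [map_sub, toY_zt, toY_zt, map_sub]
  set K' : Submodule ℝ (E 2) := ((V ⊓ LinearMap.ker (toX (n := 2))).map (toY (n := 2))).map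
    (B.symm.toLinearEquiv : E 2 →ₗ[ℝ] E 2) with hK'
  have hK'b : finrank ℝ K' = b := by
    rw [hK', LinearEquiv.finrank_map_eq, hb]
    have hinj' : Function.Injective ((toY (n := 2)).domRestrict
        (V ⊓ LinearMap.ker (toX (n := 2)))) := by
      rw [injective_iff_map_eq_zero]
      intro w hw
      exact Subtype.ext (eq_zero_of_toX_toY (LinearMap.mem_ker.1 w.2.2) hw)
    have h2 := LinearMap.finrank_range_of_inj hinj'
    rw [LinearMap.range_domRestrict] at h2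
    exact h2
  set K : Submodule ℝ (E 2) := (V ⊓ LinearMap.ker (toY (n := 2))).map (toX (n := 2)) with hK
  by_cases hc : b ≤ 1
  · refine half_two P cl hP1 s.1 s.2 hadj K' (by omega) ?_
    intro r hr r' hr' h
    refine ⟨B (r.2 - r'.2), ⟨zt B r - zt B r', ⟨hdiff r hr r' hr', ?_⟩, hY r r'⟩,
      B.symm_apply_apply _⟩
    rw [SetLike.mem_coe, LinearMap.mem_ker, hX, h, sub_self]
  · have hb1 : finrank ℝ K ≤ 1 := by
      have h1 : K ≤ V.map (toX (n := 2)) := Submodule.map_mono inf_le_left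
      have h2 := Submodule.finrank_mono h1
      omega
    have h1 := half_two P (cl.image Prod.swap) (by
        intro r hr
        obtain ⟨r', hr', rfl⟩ := Finset.mem_image.1 hr
        exact hP2 r' hr') s.2 s.1 (by
        intro r hr
        obtain ⟨r', hr', rfl⟩ := Finset.mem_image.1 hr
        exact (hadj r' hr').symm) K hb1 (by
        intro r hr r' hr' h
        obtain ⟨q, hq, rfl⟩ := Finset.mem_image.1 hr
        obtain ⟨q', hq', rfl⟩ := Finset.mem_image.1 hr'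
        have h' : q.2 = q'.2 := h
        refine ⟨zt B q - zt B q', ⟨hdiff q hq q' hq', ?_⟩, hX q q'⟩
        rw [SetLike.mem_coe, LinearMap.mem_ker, hY, h', sub_self, map_zero])
    rwa [Finset.card_image_of_injective _ Prod.swap_injective] at h1

/-- the bound `Gf` -/
theorem exists_flat3 : ∃ C : ℝ, 1 ≤ C ∧ ∀ (t : ℕ) (P : Finset (E 2)),
    ∃ Gf : ℕ, FlatQ 2 P Gf ∧ P.card ≤ Gf ∧
      (Gf : ℝ) ≤ C * (P.card + (t : ℝ) ^ (7 / 4 : ℝ)) := by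
  refine ⟨2, by norm_num, fun t P => ⟨2 * P.card, flatQ_three P, by omega, ?_⟩⟩
  have h : (0 : ℝ) ≤ (t : ℝ) ^ (7 / 4 : ℝ) := by positivity
  push_cast
  linarith

end flat

section step

open Finset
open Vale.Agent.P054.T2.H686 (E Ez Gm exists_Gm)
open Vale.Agent.P054.T2.SecC (ZZ pt swp)
open Vale.Agent.P054.T2.H455 (Sep)
open Vale.Agent.P054.T3.H461 (SideV ThirdN CC0)
open Vale.Agent.P054.T3.H533 (MuK NoRichL)
open Vale.Agent.P054.T3.H637 (FlatQ)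
open Vale.Agent.P054.T3.H955

/-- **the step in dimension `3`** -/
theorem step3 {D : ℕ} {η : ℝ} (hs : Sel3 D η) (hm : Main2Stmt) : Step3 D η := by
  obtain ⟨C, hC, hs⟩ := hs
  obtain ⟨Cf, hCf, hflat⟩ := exists_flat3
  set Cm : ℝ := max C Cf with hCm
  have hCm1 : 1 ≤ Cm := hC.trans (le_max_left _ _)
  obtain ⟨C₀, hC₀⟩ : ∃ C₀ : ℕ, C₀ = CC0 2 := ⟨_, rfl⟩
  obtain ⟨L, hL1, hL2⟩ : ∃ L : ℕ, 48 * (4 * 2 + 1) ≤ L ∧ 6 * 481 * C₀ ≤ L :=
    ⟨max (48 * (4 * 2 + 1)) (6 * 481 * C₀), le_max_left _ _, le_max_right _ _⟩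
  obtain ⟨β₀, c₂, hm⟩ := hm L hL1 4 1 le_rfl
  obtain ⟨β, hβ₀, hβ4, hβC⟩ : ∃ β : ℕ, β₀ ≤ β ∧ 4 ≤ β ∧ 2 * Cm ≤ β := by
    refine ⟨max (max β₀ ⌈2 * Cm⌉₊) 4, (le_max_left _ _).trans (le_max_left _ _),
      le_max_right _ _, ?_⟩
    refine (Nat.le_ceil _).trans ?_
    exact_mod_cast (le_max_right β₀ ⌈2 * Cm⌉₊).trans (le_max_left _ 4)
  have hβ1 : (1 : ℝ) ≤ β := by exact_mod_cast (by omega : 1 ≤ β)
  obtain ⟨C₁, hC₁⟩ : ∃ C₁ : ℕ, C₁ = c₂ + 1 := ⟨_, rfl⟩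
  obtain ⟨K₀, hs⟩ := hs (1152 ^ 2 * ((β : ℝ) ^ (481 * (5 * C₀ + C₁))) ^ 2)
  refine ⟨K₀, fun K hK hK1 => ?_⟩
  obtain ⟨t₀, hs⟩ := hs K hK hK1
  refine ⟨max t₀ ⌈8 ^ 32 * (β : ℝ) ^ (65 * C₁)⌉₊, fun t ht ht1 P Tc hP hP1 hP2 => ?_⟩
  obtain ⟨B, hB⟩ := exists_Gm P
  obtain ⟨S, E₀, k, T, τ, M, m, Y, hne, hE₀, hends, hsep, hdens, hτ1, hτT, hτt, hmu1, hmu2, hnr, hms,
    hY, h1, h2, h3, h4, h5⟩ := hs t ((le_max_left _ _).trans ht) ht1 P Tc hP hP1 hP2 B hB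
  obtain ⟨Gf, hGf1, hGf2, hGf3⟩ := hflat t P
  have ht1' : (1 : ℝ) ≤ t := by exact_mod_cast ht1
  have ht₀ : 8 ^ 32 * (β : ℝ) ^ (65 * C₁) ≤ t := by
    refine (Nat.le_ceil _).trans ?_
    exact_mod_cast (le_max_right _ _).trans ht
  -- the level
  have hb2 : 1 < β ^ L := by
    have hL0 : L ≠ 0 := by omega
    exact Nat.one_lt_pow hL0 (by omega)
  set ell := Nat.log (β ^ L) τ with hell
  have hell1 : (β ^ L) ^ ell ≤ τ := Nat.pow_log_le_self _ (by omega)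
  have hell2 : τ ≤ (β ^ L) ^ (ell + 1) := (Nat.lt_pow_succ_log_self hb2 τ).le
  obtain ⟨h, hh, A, X₁, X₂, X₃, hA, hcount, hX₁, hX₂, hX₃⟩ := hm β hβ₀ τ ell T hell1 hell2
    (by omega) (by omega) P B k hB S S E₀ hne hE₀ hsep hsep (fun e he => (hends e he).1)
    (fun e he => (hends e he).2) (by rw [← sq]; exact hdens) Gf m hmu1 hmu2 hGf1 hGf2 hnr
  have hSpos : 0 < S.card := by
    obtain ⟨e, he⟩ := hne
    exact Finset.card_pos.2 ⟨_, (hends e he).1⟩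
  have hΘn : 1 ≤ β ^ (CC0 2 * h + c₂) := Nat.one_le_pow _ _ (by omega)
  have hτ0 : (0 : ℝ) < τ := by exact_mod_cast hτ1
  -- the loss
  have hΘ : (β : ℝ) ^ (C₀ * h + C₁) = (β : ℝ) ^ (CC0 2 * h + c₂) * β := by
    rw [hC₁, hC₀, ← pow_succ, Nat.add_assoc]
  have hΘ2 : 2 * Cm * ((β ^ (CC0 2 * h + c₂) : ℕ) : ℝ) ≤ (β : ℝ) ^ (C₀ * h + C₁) := by
    rw [hΘ]
    push_cast
    calc 2 * Cm * (β : ℝ) ^ (CC0 2 * h + c₂) ≤ β * (β : ℝ) ^ (CC0 2 * h + c₂) := by gcongr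
      _ = _ := by ring
  have hg : (((β ^ L) ^ (h / 6) : ℕ) : ℝ) = (β : ℝ) ^ (L * (h / 6)) := by
    push_cast
    rw [← pow_mul]
  have hms' : ∀ U ⊆ S, ((∑ s ∈ U, m s : ℕ) : ℝ) ≤
      (U.card : ℝ) * M + Cm * √((U.card : ℝ) * ((S.card : ℝ) ^ 2 / τ)) := fun U hU => by
    refine (hms U hU).trans ?_
    have := le_max_left C Cf
    gcongr
  have hGf3' : (Gf : ℝ) ≤ Cm * (P.card + (t : ℝ) ^ (7 / 4 : ℝ)) := by
    refine hGf3.trans ?_
    have := le_max_right C Cf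
    gcongr
  have hs1 := side2_of_sideV (Θ := (β : ℝ) ^ (C₀ * h + C₁)) hX₁ le_rfl hCm1 hΘn hΘ2 hms' hGf3'
  have hs2 := side2_of_sideV (Θ := (β : ℝ) ^ (C₀ * h + C₁)) hX₂ le_rfl hCm1 hΘn hΘ2 hms' hGf3'
  have hΘ1 : ((β ^ (CC0 2 * h + c₂) : ℕ) : ℝ) ≤ (β : ℝ) ^ (C₀ * h + C₁) := by
    refine le_trans ?_ hΘ2
    have h6 : (0 : ℝ) ≤ ((β ^ (CC0 2 * h + c₂) : ℕ) : ℝ) := Nat.cast_nonneg _
    nlinarith
  have hs3 := third2_of_thirdN (Θ := (β : ℝ) ^ (C₀ * h + C₁)) hX₃ hΘ1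
  rw [hg] at hs1 hs2 hs3
  refine no_mainOut2 (β := β) (L := L) (C₀ := C₀) (C₁ := C₁) (N := S.card) (τ := τ) (T := T)
    (M := M) (p := P.card) (t := t) (Y := Y) (by omega) hL2 ht1' ht₀ hY
    (by exact_mod_cast hSpos) hτ0 (Nat.cast_nonneg _) (Nat.cast_nonneg _) (Nat.cast_nonneg _)
    h1 h2 h3 h4 h5 ⟨h, A, X₁, X₂, X₃, 0, ?_, ?_, ?_, ?_, hs1, hs2, hs3⟩
  · -- `rng`
    have h6 : β ^ (L * h) ≤ τ := by
      rw [pow_mul]
      exact (Nat.pow_le_pow_right (by omega) hh).trans hell1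
    have h7 : (β : ℝ) ^ (L * h) ≤ τ := by exact_mod_cast h6
    refine h7.trans (hτt.trans ?_)
    have h8 : C ≤ (β : ℝ) ^ C₁ := by
      calc C ≤ Cm := le_max_left _ _
        _ ≤ 2 * Cm := by linarith
        _ ≤ β := hβC
        _ = (β : ℝ) ^ 1 := (pow_one _).symm
        _ ≤ (β : ℝ) ^ C₁ := pow_le_pow_right₀ hβ1 (by omega)
    gcongr
  · -- `start`
    have h6 : (S.card : ℝ) ^ 2 ≤ 4 * τ * E₀.card := by exact_mod_cast hdens
    have h7 : (E₀.card : ℝ) ≤ (β : ℝ) ^ (CC0 2 * h + c₂) * A := by exact_mod_cast hA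
    have h8 : (4 : ℝ) ≤ β := by exact_mod_cast hβ4
    calc (S.card : ℝ) ^ 2 ≤ 4 * τ * E₀.card := h6
      _ ≤ β * τ * ((β : ℝ) ^ (CC0 2 * h + c₂) * A) := by gcongr
      _ = τ * ((β : ℝ) ^ (CC0 2 * h + c₂) * β * A) := by ring
      _ = τ * ((β : ℝ) ^ (C₀ * h + C₁) * A) := by rw [hΘ]
  · have h6 : (A : ℝ) ≤ X₁ + X₂ + X₃ := by exact_mod_cast hcount
    linarith
  · simp

/-- **the step in dimension three**, for a constant degree `D` and every `η > 0` -/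
theorem step3_all : ∃ D : ℕ, ∀ η : ℝ, 0 < η → Step3 D η := by
  obtain ⟨D, h⟩ := sel3
  exact ⟨D, fun η hη => step3 (h η hη) main2Stmt⟩

end step

end Vale.Agent.N054
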