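import Vale.Agent.P054.T3.H461.PsUp

set_option autoImplicit false
set_option linter.all false

/-!
# The step in dimension at least four under abstract hypotheses

The number of distances of the set enters the step in dimension `n + 1 ≥ 4` only through separating
polynomials, the numbers of points on lines, on flats and on hypersurfaces, and the number of flags.
-/

namespace Vale.Agent.N054

section defs

open Finset Module MvPolynomial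
open Vale.Agent.P054.T2.H686 (E zt)
open Vale.Agent.P054.T2.SecC (ZZ pt)
open Vale.Agent.P054.T2.H455 (Sep)
open Vale.Agent.P054.T3.H109.Gen (lineC)
open Vale.Agent.P054.T3.H190 (W adjE)

/-- at most `g` points of `P` in every flat of dimension at most `m` -/
def FB {n : ℕ} (P : Finset (E n)) (m : ℕ) (g : ℝ) : Prop :=
  ∀ U : Submodule ℝ (E n), finrank ℝ U ≤ m → ∀ S ⊆ P, (∀ x ∈ S, ∀ y ∈ S, x - y ∈ U) →
    (S.card : ℝ) ≤ g

/-- the small exponent which belongs to `η` -/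
noncomputable def e1 (η : ℝ) : ℝ := min (1 / 8) (η / 2)

theorem e1_pos {η : ℝ} (hη : 0 < η) : 0 < e1 η := lt_min (by norm_num) (by linarith)

theorem e1_le (η : ℝ) : e1 η ≤ 1 / 8 := min_le_left _ _

theorem e1_le' (η : ℝ) : e1 η ≤ η / 2 := min_le_right _ _

open scoped Classical in
/-- the hypotheses of the step -/
structure HyN (n : ℕ) (η C K : ℝ) (P : Finset (E n)) (t : ℕ) : Prop where
  sep : ∀ B : E n ≃ₗᵢ[ℝ] E n, Sep (fun s : ZZ n => pt s) (4 * t) ((P ×ˢ P).image (zt B))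
  line : ∀ x y : E n, x ≠ y → lineC P x y ≤ 2 * (t + 1)
  flags : P.card ^ 4 ≤ 2 ^ 16 * (t * W adjE (P ×ˢ P))
  hyp : ∀ f : MvPolynomial (Fin (n + 1)) ℝ, f ≠ 0 → (f.totalDegree : ℝ) ≤ (t : ℝ) ^ η →
    ((P.filter fun p => eval (fun i => p i) f = 0).card : ℝ) ≤ (P.card : ℝ) ^ (1 - η)
  plane : FB P 2 (C * K * (t : ℝ) ^ (1 + e1 η / 30))
  flats : ∀ σ : ℕ, 2 ≤ σ → FB P (2 * σ) (C * K * (t : ℝ) ^ σ)

/-- the step: no set with about `K t^((n+1)/2)` points satisfies the hypotheses -/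
def StepN (n : ℕ) (η C : ℝ) : Prop :=
  ∃ K₀ : ℝ, ∀ K : ℝ, K₀ ≤ K → 1 ≤ K → ∃ t₀ : ℕ, ∀ t : ℕ, t₀ ≤ t → 1 ≤ t →
    ∀ P : Finset (E n), HyN n η C K P t →
      K * (t : ℝ) ^ (((n + 1 : ℕ) : ℝ) / 2) ≤ P.card →
      (P.card : ℝ) ≤ 2 * (K * (t : ℝ) ^ (((n + 1 : ℕ) : ℝ) / 2)) → False

theorem FB.mono {n : ℕ} {P : Finset (E n)} {m m' : ℕ} {g g' : ℝ} (h : FB P m g) (hm : m' ≤ m)
    (hg : g ≤ g') : FB P m' g' := fun U hU S hS hSU => (h U (hU.trans hm) S hS hSU).trans hg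

theorem FB.subset {n : ℕ} {P Q : Finset (E n)} {m : ℕ} {g : ℝ} (h : FB P m g) (hQ : Q ⊆ P) :
    FB Q m g := fun U hU S hS hSU => h U hU S (hS.trans hQ) hSU

theorem fb_card {n : ℕ} (P : Finset (E n)) (m : ℕ) : FB P m P.card := fun _ _ S hS _ => by
  exact_mod_cast card_le_card hS

end defs

section flats

open Finset Module
open Vale.Agent.P054.T2.H686
open Vale.Agent.P054.T2.SecC (ZZ)
open Vale.Agent.P054.T3.H637 (FlatQ card_line_sphere_le finrank_map_add_ker)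
open Vale.Agent.P054.T3.H854 (IsoBL)

variable {n : ℕ}

/-- classes in isotropic flats -/
theorem card_iso_le {m : ℕ} {g : ℝ} {P : Finset (E n)} (hg : FB P m g) (B : E n ≃ₗᵢ[ℝ] E n)
    (V : Submodule ℝ ((Fin (n + 1) → ℝ) × (Fin (n + 1) → ℝ))) (hV : finrank ℝ V ≤ m)
    (hQ : ∀ w ∈ V, Qf w = 0) (S : Finset (E n × E n)) (hS : S ⊆ P ×ˢ P)
    (hSV : ∀ s ∈ S, ∀ s' ∈ S, zt B s - zt B s' ∈ V) : (S.card : ℝ) ≤ g := by
  classical
  have hinj : Set.InjOn Prod.fst (S : Set (E n × E n)) := by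
    intro s hs s' hs' h
    have h1 := hSV s hs s' hs'
    have h2 : toX (zt B s - zt B s') = 0 := by
      rw [map_sub, toX_zt, toX_zt, h, sub_self]
    have h3 := toX_injOn_isotropic hQ h1 h2
    exact zt_injective B (sub_eq_zero.1 h3)
  rw [← Finset.card_image_of_injOn hinj]
  refine hg (V.map (toX (n := n))) ((Submodule.finrank_map_le _ _).trans hV) (S.image Prod.fst) ?_ ?_
  · intro x hx
    obtain ⟨s, hs, rfl⟩ := Finset.mem_image.1 hx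
    exact (Finset.mem_product.1 (hS hs)).1
  · intro x hx y hy
    obtain ⟨s, hs, rfl⟩ := Finset.mem_image.1 hx
    obtain ⟨s', hs', rfl⟩ := Finset.mem_image.1 hy
    refine ⟨zt B s - zt B s', hSV s hs s' hs', ?_⟩
    rw [map_sub, toX_zt, toX_zt]

theorem isoBL_of_fb {P : Finset (E n)} {G : ℕ → ℝ} (h : ∀ σ : ℕ, 2 ≤ σ → FB P (2 * σ) (G σ)) :
    IsoBL n P (fun σ => ⌊G σ⌋₊) := by
  intro σ hσ B V z₀ hQ hV cl hcl hclV
  apply Nat.le_floor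
  refine card_iso_le (h σ hσ) B V hV hQ cl hcl ?_
  intro s hs s' hs'
  have := V.sub_mem (hclV s hs) (hclV s' hs')
  rwa [sub_sub_sub_cancel_right] at this

theorem half_twoN (P : Finset (E n)) (S : Finset (E n × E n)) (hS1 : ∀ s ∈ S, s.1 ∈ P)
    (x x' : E n) (hadj : ∀ s ∈ S, dist x s.1 = dist x' s.2)
    (U' : Submodule ℝ (E n)) (hU' : finrank ℝ U' ≤ 1)
    (hSU' : ∀ s ∈ S, ∀ s' ∈ S, s.1 = s'.1 → s.2 - s'.2 ∈ U') : S.card ≤ 2 * P.card := by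
  classical
  refine Finset.card_le_mul_card_image_of_maps_to (f := Prod.fst) hS1 2 ?_
  intro p _
  set T := S.filter fun s => s.1 = p with hT
  have h1 : T.card = (T.image Prod.snd).card := by
    refine (Finset.card_image_of_injOn ?_).symm
    intro s hs s' hs' h2
    have e1 := (Finset.mem_filter.1 (Finset.mem_coe.1 hs)).2
    have e2 := (Finset.mem_filter.1 (Finset.mem_coe.1 hs')).2
    exact Prod.ext (e1.trans e2.symm) h2
  rw [h1]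
  refine card_line_sphere_le _ x' (dist x p) ?_ U' hU' ?_
  · intro y hy
    obtain ⟨s, hs, rfl⟩ := Finset.mem_image.1 hy
    obtain ⟨h2, h3⟩ := Finset.mem_filter.1 hs
    rw [← hadj s h2, h3]
  · intro y hy y' hy'
    obtain ⟨s, hs, rfl⟩ := Finset.mem_image.1 hy
    obtain ⟨s', hs', rfl⟩ := Finset.mem_image.1 hy'
    obtain ⟨h2, h3⟩ := Finset.mem_filter.1 hs
    obtain ⟨h4, h5⟩ := Finset.mem_filter.1 hs'
    exact hSU' s h2 s' h4 (h3.trans h5.symm)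

/-- the product of two bounds for flats -/
theorem card_le_prod {a b : ℕ} {g g' : ℝ} {P : Finset (E n)} (hg : FB P a g) (hg' : FB P b g')
    (S : Finset (E n × E n)) (hS1 : ∀ s ∈ S, s.1 ∈ P) (hS2 : ∀ s ∈ S, s.2 ∈ P)
    (U U' : Submodule ℝ (E n)) (hU : finrank ℝ U ≤ a) (hU' : finrank ℝ U' ≤ b)
    (hSU : ∀ s ∈ S, ∀ s' ∈ S, s.1 - s'.1 ∈ U)
    (hSU' : ∀ s ∈ S, ∀ s' ∈ S, s.1 = s'.1 → s.2 - s'.2 ∈ U') : (S.card : ℝ) ≤ g * g' := by
  classical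
  have hk : 0 ≤ g' := by
    have := hg' U' hU' ∅ (empty_subset _) (by simp)
    simpa using this
  have h1 : ((S.image Prod.fst).card : ℝ) ≤ g := by
    refine hg U hU _ ?_ ?_
    · intro x hx
      obtain ⟨s, hs, rfl⟩ := Finset.mem_image.1 hx
      exact hS1 s hs
    · intro x hx y hy
      obtain ⟨s, hs, rfl⟩ := Finset.mem_image.1 hx
      obtain ⟨s', hs', rfl⟩ := Finset.mem_image.1 hy
      exact hSU s hs s' hs'
  have h2 : ∀ x ∈ S.image Prod.fst, ((S.filter fun s => s.1 = x).card : ℝ) ≤ g' := by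
    intro x _
    set T := S.filter fun s => s.1 = x with hT
    have h3 : T.card = (T.image Prod.snd).card := by
      refine (Finset.card_image_of_injOn ?_).symm
      intro s hs s' hs' h2
      have e1 := (Finset.mem_filter.1 (Finset.mem_coe.1 hs)).2
      have e2 := (Finset.mem_filter.1 (Finset.mem_coe.1 hs')).2
      exact Prod.ext (e1.trans e2.symm) h2
    rw [h3]
    refine hg' U' hU' _ ?_ ?_
    · intro y hy
      obtain ⟨s, hs, rfl⟩ := Finset.mem_image.1 hy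
      exact hS2 s (Finset.mem_filter.1 hs).1
    · intro y hy y' hy'
      obtain ⟨s, hs, rfl⟩ := Finset.mem_image.1 hy
      obtain ⟨s', hs', rfl⟩ := Finset.mem_image.1 hy'
      obtain ⟨h4, h5⟩ := Finset.mem_filter.1 hs
      obtain ⟨h6, h7⟩ := Finset.mem_filter.1 hs'
      exact hSU' s h4 s' h6 (h5.trans h7.symm)
  have h3 : (S.card : ℝ) = ∑ x ∈ S.image Prod.fst, ((S.filter fun s => s.1 = x).card : ℝ) := by
    exact_mod_cast Finset.card_eq_sum_card_image Prod.fst S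
  rw [h3]
  refine (Finset.sum_le_sum h2).trans ?_
  rw [Finset.sum_const, nsmul_eq_mul]
  exact mul_le_mul_of_nonneg_right h1 hk

/-- points of `P × P` adjacent to one point in a flat of dimension at most `n + 1` -/
theorem flatQ_of {P : Finset (E n)} {Gf : ℕ} (h2 : 2 * P.card ≤ Gf)
    (h : ∀ a b : ℕ, 2 ≤ a → 2 ≤ b → a + b ≤ n + 1 →
      ∃ g g' : ℝ, FB P a g ∧ FB P b g' ∧ g * g' ≤ Gf) : FlatQ n P Gf := by
  classical
  intro B V z₀ s hV cl hcl hclV hcls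
  have hdiff : ∀ r ∈ cl, ∀ r' ∈ cl, zt B r - zt B r' ∈ V := by
    intro r hr r' hr'
    have := V.sub_mem (hclV r hr) (hclV r' hr')
    rwa [sub_sub_sub_cancel_right] at this
  have hadj : ∀ r ∈ cl, dist s.1 r.1 = dist s.2 r.2 := fun r hr =>
    (Qf_zt_sub_eq_zero B s r).1 (hcls r hr)
  have hP1 : ∀ r ∈ cl, r.1 ∈ P := fun r hr => (Finset.mem_product.1 (hcl hr)).1
  have hP2 : ∀ r ∈ cl, r.2 ∈ P := fun r hr => (Finset.mem_product.1 (hcl hr)).2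
  set a := finrank ℝ (V.map (toX (n := n))) with ha
  set b := finrank ℝ (V ⊓ LinearMap.ker (toX (n := n)) : Submodule ℝ _) with hb
  have hab : a + b ≤ n + 1 := (finrank_map_add_ker toX V).le.trans hV
  have hX : ∀ r r' : E n × E n, toX (zt B r - zt B r') = r.1 - r'.1 := by
    intro r r'
    rw [map_sub, toX_zt, toX_zt]
  have hY : ∀ r r' : E n × E n, toY (zt B r - zt B r') = B (r.2 - r'.2) := by
    intro r r'
    rw [map_sub, toY_zt, toY_zt, map_sub]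
  set K' : Submodule ℝ (E n) := ((V ⊓ LinearMap.ker (toX (n := n))).map (toY (n := n))).map
    (B.symm.toLinearEquiv : E n →ₗ[ℝ] E n) with hK'
  have hK'b : finrank ℝ K' ≤ b := by
    rw [hK', LinearEquiv.finrank_map_eq, hb]
    exact Submodule.finrank_map_le _ _
  have hmemK' : ∀ r ∈ cl, ∀ r' ∈ cl, r.1 = r'.1 → r.2 - r'.2 ∈ K' := by
    intro r hr r' hr' h
    refine ⟨B (r.2 - r'.2), ⟨zt B r - zt B r', ⟨hdiff r hr r' hr', ?_⟩, hY r r'⟩,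
      B.symm_apply_apply _⟩
    rw [SetLike.mem_coe, LinearMap.mem_ker, hX, h, sub_self]
  set K : Submodule ℝ (E n) := (V ⊓ LinearMap.ker (toY (n := n))).map (toX (n := n)) with hK
  by_cases hc : b ≤ 1
  · exact (half_twoN P cl hP1 s.1 s.2 hadj K' (by omega) hmemK').trans h2
  by_cases hc' : a ≤ 1
  · have hb1 : finrank ℝ K ≤ 1 := by
      have h1 : K ≤ V.map (toX (n := n)) := Submodule.map_mono inf_le_left
      have h2 := Submodule.finrank_mono h1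
      omega
    have h1 := half_twoN P (cl.image Prod.swap) (by
        intro r hr
        obtain ⟨r', hr', rfl⟩ := Finset.mem_image.1 hr
        exact hP2 r' hr') s.2 s.1 (by
        intro r hr
        obtain ⟨r', hr', rfl⟩ := Finset.mem_image.1 hr
        exact (hadj r' hr').symm) K hb1 (by
        intro r hr r' hr' h
        obtain ⟨q, hq, rfl⟩ := Finset.mem_image.1 hr
        obtain ⟨q', hq', rfl⟩ := Finset.mem_image.1 hr'
        have h' : q.2 = q'.2 := h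
        refine ⟨zt B q - zt B q', ⟨hdiff q hq q' hq', ?_⟩, hX q q'⟩
        rw [SetLike.mem_coe, LinearMap.mem_ker, hY, h', sub_self, map_zero])
    rw [Finset.card_image_of_injective _ Prod.swap_injective] at h1
    exact h1.trans h2
  · obtain ⟨g, g', h3, h4, h5⟩ := h a b (by omega) (by omega) hab
    have h6 := card_le_prod h3 h4 cl hP1 hP2 (V.map (toX (n := n))) K' le_rfl hK'b
      (fun r hr r' hr' => ⟨zt B r - zt B r', hdiff r hr r' hr', hX r r'⟩) hmemK'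
    exact_mod_cast h6.trans h5

end flats

section start

open Finset
open Vale.Agent.P054.T2 Vale.Agent.P054.T2.SecC
open Vale.Agent.P054.T2.H686 (E zt zt_injective Ez Sz Gm dists)
open Vale.Agent.P054.T3.H190

variable {n : ℕ}

/-- the extremal set of pairs of points -/
theorem startN {P : Finset (E n)} {t : ℕ} (hfl : P.card ^ 4 ≤ 2 ^ 16 * (t * W adjE (P ×ˢ P)))
    (ht1 : 1 ≤ t) (hp0 : (0 : ℝ) < P.card) {ε₁ : ℝ} (hε0 : 0 ≤ ε₁) (hε1 : ε₁ ≤ 1) :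
    ∃ S ⊆ P ×ˢ P, ∃ (z : ℝ) (τ : ℕ), S.Nonempty ∧ (S.card : ℝ) = z * (P.card : ℝ) ^ 2 ∧
      (t : ℝ) ^ (-ε₁) ≤ z ∧ z ≤ 1 ∧ 1 ≤ τ ∧ S.card ^ 2 ≤ τ * W adjE S ∧
      (τ : ℝ) ≤ 2 ^ 17 * (t * z ^ ((3 : ℝ) / 5)) ∧ 1 ≤ W adjE S ∧
      (∀ T ⊆ S, (t : ℝ) ^ (-ε₁) * (P.card : ℝ) ^ 2 ≤ T.card →
        (W adjE T : ℝ) * (S.card : ℝ) ^ ((7 : ℝ) / 5) ≤
          (W adjE S : ℝ) * (T.card : ℝ) ^ ((7 : ℝ) / 5)) := by
  classical
  have htr : (1 : ℝ) ≤ t := by exact_mod_cast ht1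
  have ht0 : (0 : ℝ) < t := by linarith
  have hp2 : (0 : ℝ) < (P.card : ℝ) ^ 2 := pow_pos hp0 2
  have hz₀ : 0 < (t : ℝ) ^ (-ε₁) := Real.rpow_pos_of_pos ht0 _
  have hz₀1 : (t : ℝ) ^ (-ε₁) ≤ 1 := by
    rw [Real.rpow_neg ht0.le]
    exact inv_le_one_of_one_le₀ (Real.one_le_rpow htr hε0)
  have hfull : ((P ×ˢ P).card : ℝ) = (P.card : ℝ) ^ 2 := by
    rw [card_product]; push_cast; ring
  have hle : (t : ℝ) ^ (-ε₁) * (P.card : ℝ) ^ 2 ≤ (P ×ˢ P).card := by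
    rw [hfull]
    calc (t : ℝ) ^ (-ε₁) * (P.card : ℝ) ^ 2 ≤ 1 * (P.card : ℝ) ^ 2 :=
          mul_le_mul_of_nonneg_right hz₀1 hp2.le
      _ = _ := one_mul _
  obtain ⟨S, hS, hS1, hmax⟩ := exists_ext (P ×ˢ P) (fun T => (W adjE T : ℝ)) (θ := (7 : ℝ) / 5)
    (z₀ := (t : ℝ) ^ (-ε₁) * (P.card : ℝ) ^ 2) (mul_pos hz₀ hp2) hle
  have hScard : (0 : ℝ) < S.card := lt_of_lt_of_le (mul_pos hz₀ hp2) hS1
  have hSne : S.Nonempty := card_pos.1 (by exact_mod_cast hScard)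
  have hSle : (S.card : ℝ) ≤ (P.card : ℝ) ^ 2 := by
    rw [← hfull]; exact_mod_cast card_le_card hS
  have hW1 : (P.card : ℝ) ^ 4 ≤ 2 ^ 16 * (t * (W adjE (P ×ˢ P) : ℝ)) := by
    exact_mod_cast hfl
  have hW2 := hmax (P ×ˢ P) subset_rfl hle
  rw [hfull] at hW2
  obtain ⟨z, hzS, hzt, hz1, hw0, hx1, hx2⟩ := start_num hp0 hScard htr hε1 hSle hS1 hW1 hW2
  have hw1 : 0 < W adjE S := by exact_mod_cast hw0
  have hx0 : (0 : ℝ) < (S.card : ℝ) ^ 2 / (W adjE S : ℝ) := div_pos (pow_pos hScard 2) hw0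
  refine ⟨S, hS, z, ⌈(S.card : ℝ) ^ 2 / (W adjE S : ℝ)⌉₊, hSne, hzS, hzt, hz1,
    Nat.one_le_iff_ne_zero.2 (Nat.ceil_pos.2 hx0).ne', ?_, ?_, hw1, ?_⟩
  · have h1 : (S.card : ℝ) ^ 2 ≤
        (⌈(S.card : ℝ) ^ 2 / (W adjE S : ℝ)⌉₊ : ℝ) * (W adjE S : ℝ) := by
      have h2 := Nat.le_ceil ((S.card : ℝ) ^ 2 / (W adjE S : ℝ))
      rwa [div_le_iff₀ hw0] at h2
    exact_mod_cast h1
  · have h1 := (Nat.ceil_lt_add_one hx0.le).le
    linarith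
  · intro T hT hT2
    exact hmax T (hT.trans hS) hT2

end start

section hyp

open Finset Module
open Vale.Agent.P054.T2.H686 (E)
open Vale.Agent.P054.T3.H226

open scoped Classical in
/-- zero sets of polynomials on `P × P` -/
theorem hypProdN {n : ℕ} (hn : 2 ≤ n) {η : ℝ} (hη : 0 < η) : ∃ t₀ : ℕ, ∀ t : ℕ, t₀ ≤ t → 1 ≤ t →
    ∀ P : Finset (E n),
      (∀ f : MvPolynomial (Fin (n + 1)) ℝ, f ≠ 0 → (f.totalDegree : ℝ) ≤ (t : ℝ) ^ η →
        ((P.filter fun p => MvPolynomial.eval (fun i => p i) f = 0).card : ℝ) ≤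
          (P.card : ℝ) ^ (1 - η)) →
      (t : ℝ) ^ (((n + 1 : ℕ) : ℝ) / 2) ≤ P.card →
      ∀ {J : Type} [Fintype J] (f : J → MvPolynomial (Fin (n + 1) ⊕ Fin (n + 1)) ℝ),
        (∀ j, f j ≠ 0) → ((∑ j, (f j).totalDegree : ℕ) : ℝ) ≤ (t : ℝ) ^ (η / 2) →
        (((P ×ˢ P).filter fun s : E n × E n =>
          ∃ j, MvPolynomial.eval (Sum.elim s.1 s.2) (f j) = 0).card : ℝ) ≤
          (P.card : ℝ) ^ (2 - η / 2) := by
  obtain ⟨t₁, ht₁⟩ : ∃ t₁ : ℕ, ∀ t : ℕ, t₁ ≤ t → 2 < (t : ℝ) ^ (η / 2) := by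
    have h1 := (tendsto_rpow_atTop (show 0 < η / 2 by positivity)).comp
      tendsto_natCast_atTop_atTop
    have h2 := h1.eventually_gt_atTop (2 : ℝ)
    rw [Filter.eventually_atTop] at h2
    exact h2
  refine ⟨t₁, fun t ht ht1 P H hPt J _ f hf hfd => ?_⟩
  have htN := card_ge_of_pow (by omega) ht1 hPt
  have ht1r : (1 : ℝ) ≤ t := by exact_mod_cast ht1
  have ht0r : (0 : ℝ) < t := by linarith
  have hN0 : (0 : ℝ) < P.card := by linarith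
  have hN1 : (1 : ℝ) ≤ P.card := by linarith
  set g : MvPolynomial (Fin (n + 1) ⊕ Fin (n + 1)) ℝ := ∏ j, f j with hg
  have hg0 : g ≠ 0 := Finset.prod_ne_zero_iff.2 fun j _ => hf j
  have hgd : g.totalDegree ≤ ∑ j, (f j).totalDegree := MvPolynomial.totalDegree_finset_prod _ _
  set D := ∑ j, (f j).totalDegree with hD
  have hDt : (D : ℝ) ≤ (t : ℝ) ^ η := by
    refine hfd.trans (Real.rpow_le_rpow_of_exponent_le ht1r (by linarith))
  have hz : ∀ f : MvPolynomial (Fin (n + 1)) ℝ, f ≠ 0 → f.totalDegree ≤ D →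
      (P.filter fun p => MvPolynomial.eval (fun i => p i) f = 0).card ≤
        ⌊(P.card : ℝ) ^ (1 - η)⌋₊ := by
    intro f hf hfD
    refine Nat.le_floor ?_
    refine H f hf ?_
    exact le_trans (by exact_mod_cast hfD) hDt
  have h1 := card_zeros_prod_le P hz g hg0 hgd
  have h2 : ((P ×ˢ P).filter fun s : E n × E n =>
      ∃ j, MvPolynomial.eval (Sum.elim s.1 s.2) (f j) = 0).card ≤
      2 * (P.card * ⌊(P.card : ℝ) ^ (1 - η)⌋₊) := by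
    refine le_trans (card_le_card ?_) h1
    intro s hs
    rw [mem_filter] at hs ⊢
    refine ⟨hs.1, ?_⟩
    obtain ⟨j, hj⟩ := hs.2
    rw [hg, map_prod]
    exact Finset.prod_eq_zero (mem_univ j) hj
  calc (((P ×ˢ P).filter fun s : E n × E n =>
      ∃ j, MvPolynomial.eval (Sum.elim s.1 s.2) (f j) = 0).card : ℝ)
      ≤ ((2 * (P.card * ⌊(P.card : ℝ) ^ (1 - η)⌋₊) : ℕ) : ℝ) := by exact_mod_cast h2
    _ = 2 * (P.card * (⌊(P.card : ℝ) ^ (1 - η)⌋₊ : ℝ)) := by push_cast; ring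
    _ ≤ 2 * (P.card * (P.card : ℝ) ^ (1 - η)) := by
        gcongr
        exact Nat.floor_le (by positivity)
    _ ≤ (P.card : ℝ) ^ (η / 2) * (P.card * (P.card : ℝ) ^ (1 - η)) := by
        gcongr
        have h3 := ht₁ t ht
        exact h3.le.trans (Real.rpow_le_rpow ht0r.le htN (by positivity))
    _ = (P.card : ℝ) ^ (2 - η / 2) := by
        have h4 : (P.card : ℝ) * (P.card : ℝ) ^ (1 - η) = (P.card : ℝ) ^ (2 - η) := by
          conv_lhs => rw [← Real.rpow_one (P.card : ℝ)]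
          rw [← Real.rpow_mul hN0.le, one_mul, ← Real.rpow_add hN0]
          congr 1
          ring
        rw [h4, ← Real.rpow_add hN0]
        congr 1
        ring

end hyp

section psup

open Finset MvPolynomial Module
open Vale.Agent.P054.T2 Vale.Agent.P054.T2.SecC
open Vale.Agent.P054.T2.H307 (Ed)
open Vale.Agent.P054.T2.H686 (Qf E dists Ez Gm zt zt_injective)
open Vale.Agent.P054.T3
open Vale.Agent.P054.T3.H533 (MuK)
open Vale.Agent.P054.T3.H190 (adjE E1z)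
open Vale.Agent.P054.T3.H398 (Cl kp kp_le flats_core theta_cond)
open Vale.Agent.P054.T3.H187 (ps_out)
open Vale.Agent.P054.T2.H269 (Cc lineCard lineCard_eq)
open Vale.Agent.P054.T3.H182 (BOut)
open Vale.Agent.P054.T3.H637 (PSEdge)
open Vale.Agent.P054.T3.H109.Gen (onL lineC)
open Vale.Agent.P054.T3.H461 (PSHyp CC0 CC2)

/-- the planar block in the upper regime -/
def PSUpN (n : ℕ) (η : ℝ) : Prop :=
  ∀ Λ₁ : ℕ, 1 ≤ Λ₁ → ∃ Cp ap L₀ : ℕ, ∀ L : ℕ, L₀ ≤ L → ∃ β₁ : ℕ, ∀ β : ℕ, β₁ ≤ β →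
    ∀ K : ℝ, 1 ≤ K → ∃ t₀ : ℕ, ∀ t : ℕ, t₀ ≤ t → 1 ≤ t → ∀ (C : ℝ) (P : Finset (E n)),
      HyN n η C K P t → K * (t : ℝ) ^ (((n + 1 : ℕ) : ℝ) / 2) ≤ P.card →
      ∀ (B : E n ≃ₗᵢ[ℝ] E n) (S : Finset (E n × E n)) (τ ell : ℕ), Gm P B → S ⊆ P ×ˢ P →
      (t : ℝ) ^ (-(e1 η / 2)) * (P.card : ℝ) ^ 2 ≤ S.card →
      (∀ T ⊆ S, (t : ℝ) ^ (-e1 η) * (P.card : ℝ) ^ 2 ≤ T.card →
        (H190.W adjE T : ℝ) * (S.card : ℝ) ^ ((7 : ℝ) / 5) ≤
          (H190.W adjE S : ℝ) * (T.card : ℝ) ^ ((7 : ℝ) / 5)) →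
      (β ^ L) ^ ell ≤ τ → τ ≤ (β ^ L) ^ (ell + 1) → τ ≤ Λ₁ * t →
      PSHyp n P B (E1z B S) τ ell (fun h => β ^ (CC0 n * h + CC2 n L))
        (fun h => Cp * (β ^ (CC0 n * h + CC2 n L)) ^ ap * t)
        (fun h => Cp * (β ^ (CC0 n * h + CC2 n L)) ^ ap)
        (fun h => H190.W adjE S / (8 * β ^ (CC0 n * h + CC2 n L)))

theorem psUpN (n : ℕ) (hn : 3 ≤ n) {η₀ : ℝ} (hη₀ : 0 < η₀) : PSUpN n η₀ := by
  classical
  obtain ⟨t₁, Hyp⟩ := hypProdN (n := n) (by omega) hη₀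
  obtain ⟨η, hηdef⟩ : ∃ η : ℝ, η = η₀ / 2 := ⟨_, rfl⟩
  rw [← hηdef] at Hyp
  unfold PSUpN
  obtain ⟨ε₁, hε₁⟩ : ∃ ε₁ : ℝ, ε₁ = e1 η₀ := ⟨_, rfl⟩
  have hε0 : 0 < ε₁ := by rw [hε₁]; exact e1_pos hη₀
  have hε8 : ε₁ ≤ 1 / 8 := by rw [hε₁]; exact e1_le _
  have hεη : ε₁ ≤ η := by rw [hε₁, hηdef]; exact e1_le' _
  rw [← hε₁]
  intro Λ₁ hΛ₁
  set A : ℕ := (2 * (2 * (2 * (n + 1)) ^ 2 + 2)) ^ 2 + 1 with hA
  set Cm : ℕ := Λ₁ + 8 * A * (Cl n 1) ^ 2 * (65 + H691.kST * n * Λ₁) with hCm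
  set c₀ : ℕ := 4 * (n + 1) * CC0 n with hc₀
  refine ⟨Cc n + Cm, 2 * (n + 1), max 1 (max c₀ ⌈4 * ((c₀ : ℕ) : ℝ) / ε₁⌉₊), fun L hL =>
    ⟨1, fun β hβ K hK => ?_⟩⟩
  have hL1 : 1 ≤ L := (le_max_left _ _).trans hL
  have hLc : c₀ ≤ L := ((le_max_left _ _).trans (le_max_right _ _)).trans hL
  have hLε : 4 * ((c₀ : ℕ) : ℝ) / ε₁ ≤ L :=
    (Nat.le_ceil _).trans (by
      exact_mod_cast ((le_max_right _ _).trans (le_max_right _ _)).trans hL)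
  obtain ⟨t₂, ht₂⟩ := theta_cond n 1 (CC0 n) (CC2 n L) L Λ₁ β hε0 hL1 hLc hLε hΛ₁
  refine ⟨max t₁ t₂, fun t ht ht1 C P hPd hP1 B S τ ell hB hS hz hext hell hell' hτ => ?_⟩
  intro h hh E₂ hE₂ W D c₁ dF d1 d2 O hW1 hW hD hd1 hd2 hdW1 hdW2 hEB
  dsimp only at hW hD ⊢
  set Θ : ℕ := β ^ (CC0 n * h + CC2 n L) with hΘdef
  have hΘ1 : 1 ≤ Θ := Nat.one_le_pow _ _ hβ
  have hPt : (t : ℝ) ^ (((n + 1 : ℕ) : ℝ) / 2) ≤ P.card :=
    (le_mul_of_one_le_left (by positivity) hK).trans hP1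
  have hβh : (β ^ L) ^ h ≤ Λ₁ * t :=
    ((Nat.pow_le_pow_right (Nat.one_le_pow _ _ hβ) hh).trans hell).trans hτ
  have hΘt := ht₂ t ((le_max_right _ _).trans ht) ht1 h hβh
  have hyp : ∀ {J : Type} [Fintype J] (f : J → MvPolynomial (Fin (n + 1) ⊕ Fin (n + 1)) ℝ),
        (∀ j, f j ≠ 0) → ((∑ j, (f j).totalDegree : ℕ) : ℝ) ≤ (t : ℝ) ^ η →
        ∀ Z ⊆ P ×ˢ P, (∀ s ∈ Z, ∃ j, MvPolynomial.eval (Sum.elim s.1 s.2) (f j) = 0) →
          (Z.card : ℝ) ≤ (P.card : ℝ) ^ (2 - η) := by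
    intro J _ f hf hfd Z hZ hZ0
    refine le_trans ?_ (Hyp t ((le_max_left _ _).trans ht) ht1 P hPd.hyp hPt f hf hfd)
    refine Nat.cast_le.2 (Finset.card_le_card fun s hs => ?_)
    exact Finset.mem_filter.2 ⟨hZ hs, hZ0 s hs⟩
  obtain ⟨m, hm, hcore⟩ := flats_core hn (Cf := 1) le_rfl hε0 (hε8.trans (by norm_num)) hεη ht1
    adjE hS hPt hz hext hyp hΘ1 hΘt
  set mu : ℕ := (n - 1) * W + 1 with hmu
  set M' : ℕ := W + 8 * kp (2 * (n + 1)) m * (16 * (2 * (t + 1)) + 1 + H691.kST * mu) with hM'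
  -- the size of `M'`
  have hWt : W ≤ Λ₁ * Θ * t := by
    calc W ≤ Θ * τ := hW
      _ ≤ Θ * (Λ₁ * t) := Nat.mul_le_mul_left _ hτ
      _ = _ := by ring
  have hkp : kp (2 * (n + 1)) m ≤ A * (Cl n 1 * Θ) ^ 2 := by
    refine (kp_le _ _).trans (Nat.mul_le_mul_left _ ?_)
    calc 4 ^ m = (2 ^ m) ^ 2 := by rw [← pow_mul, mul_comm, pow_mul]; norm_num
      _ ≤ (Cl n 1 * Θ) ^ 2 := Nat.pow_le_pow_left hm 2
  have hmuW : mu ≤ n * W := by
    rw [hmu]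
    obtain ⟨k, rfl⟩ : ∃ k, n = k + 1 := ⟨n - 1, by omega⟩
    rw [Nat.add_sub_cancel, Nat.add_mul, Nat.one_mul]
    omega
  have hin : 16 * (2 * (t + 1)) + 1 + H691.kST * mu ≤ (65 + H691.kST * n * Λ₁) * (Θ * t) := by
    have e1 : 16 * (2 * (t + 1)) + 1 ≤ 65 * t := by omega
    have e2 : 65 * t ≤ 65 * (Θ * t) := Nat.mul_le_mul_left _ (Nat.le_mul_of_pos_left _ hΘ1)
    have e3 : H691.kST * mu ≤ H691.kST * n * Λ₁ * (Θ * t) := by
      calc H691.kST * mu ≤ H691.kST * (n * (Λ₁ * Θ * t)) :=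
            Nat.mul_le_mul_left _ (hmuW.trans (Nat.mul_le_mul_left _ hWt))
        _ = _ := by ring
    rw [Nat.add_mul]
    omega
  have hΘ3 : M' ≤ Cm * Θ ^ 3 * t := by
    have e1 : W ≤ Λ₁ * Θ ^ 3 * t := by
      refine hWt.trans (Nat.mul_le_mul_right _ (Nat.mul_le_mul_left _ ?_))
      exact Nat.le_self_pow (by norm_num) _
    have e2 : 8 * kp (2 * (n + 1)) m * (16 * (2 * (t + 1)) + 1 + H691.kST * mu) ≤
        8 * A * (Cl n 1) ^ 2 * (65 + H691.kST * n * Λ₁) * Θ ^ 3 * t := by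
      calc 8 * kp (2 * (n + 1)) m * (16 * (2 * (t + 1)) + 1 + H691.kST * mu)
          ≤ 8 * (A * (Cl n 1 * Θ) ^ 2) * ((65 + H691.kST * n * Λ₁) * (Θ * t)) := by gcongr
        _ = _ := by ring
    calc M' ≤ Λ₁ * Θ ^ 3 * t +
          8 * A * (Cl n 1) ^ 2 * (65 + H691.kST * n * Λ₁) * Θ ^ 3 * t := Nat.add_le_add e1 e2
      _ = Cm * Θ ^ 3 * t := by rw [hCm]; ring
  have hΘ3' : Θ ^ 3 ≤ Θ ^ (2 * (n + 1)) := Nat.pow_le_pow_right hΘ1 (by omega)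
  have hM1 : M' ≤ (Cc n + Cm) * Θ ^ (2 * (n + 1)) * t := by
    refine hΘ3.trans (Nat.mul_le_mul_right _ ?_)
    exact Nat.mul_le_mul (Nat.le_add_left _ _) hΘ3'
  have hΨ : Cc n * D ^ (2 * (n + 1)) ≤ (Cc n + Cm) * Θ ^ (2 * (n + 1)) :=
    Nat.mul_le_mul (Nat.le_add_right _ _) (Nat.pow_le_pow_left hD _)
  -- the planes
  have hmu1 := H190.muK_E1z (B := B) hB (by omega : 2 ≤ n) hS
  have hmu2 := H190.muK_swp_E1z (B := B) hB (by omega : 2 ≤ n) hS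
  have hswp : swp E₂ ⊆ swp (E1z B S) := Finset.map_subset_map.2 hE₂
  obtain ⟨𝓕, SF, RF, k1, k2, k3, k4, k5, k6, k7, k8⟩ := ps_out hn hB
    (hE₂.trans (H190.E1z_subset B hS)) O hd1 hd2 (hmu1.subset hE₂) (hmu2.subset hswp) (M := M')
    (by rw [Nat.one_mul, hM']; exact Nat.le_add_right _ _)
    ((Cc n + Cm) * Θ ^ (2 * (n + 1)) * t) ((Cc n + Cm) * Θ ^ (2 * (n + 1)) * t) S
    (fun e he => H190.E1z_fst (hE₂ he)) (fun e he => H190.E1z_snd (hE₂ he))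
  have hM0 : 8 * kp (2 * (n + 1)) m * (16 * (2 * (t + 1)) + 1 + H691.kST * mu) ≤ M' :=
    Nat.le_add_left _ _
  have hline : ∀ (A : Finset (E n × E n)), A ⊆ S →
      (∀ s ∈ A, ∀ r ∈ A, s ≠ r → s.1 ≠ r.1 ∧ dist s.1 r.1 = dist s.2 r.2) →
      ∀ p ∈ A.offDiag, lineC A p.1 p.2 ≤ 2 * (t + 1) := by
    intro A hA hadj p hp
    obtain ⟨hp1, hp2, hne⟩ := mem_offDiag.1 hp
    have h1 := (hadj p.1 hp1 p.2 hp2 hne).1
    exact (H900.lineC_prod_le P P (hA.trans hS) h1).trans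
      (hPd.line _ _ h1)
  have hs1 := hcore 𝓕 SF (fun F hF => (k1 F hF).1) k4 k2 mu (2 * (t + 1))
    (fun F hF => hline _ (k1 F hF).1 (k4 F hF)) (fun F hF => hM0.trans (k1 F hF).2.2.1.le) (by
      intro F hF s hs
      obtain ⟨U, hU, hU'⟩ := k6 F hF s hs
      refine ⟨U, hU, fun F' hF' hne hs' u hu => ?_⟩
      obtain ⟨hu1, hu2⟩ := mem_inter.1 hu
      exact hU' F' hF' hne hs' u (H691.mem_dirs.1 hu1) (H691.mem_dirs.1 hu2))
  have hs2 := hcore 𝓕 RF (fun F hF => (k1 F hF).2.1) k5 k3 mu (2 * (t + 1))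
    (fun F hF => hline _ (k1 F hF).2.1 (k5 F hF)) (fun F hF => hM0.trans (k1 F hF).2.2.2.le) (by
      intro F hF s hs
      obtain ⟨U, hU, hU'⟩ := k7 F hF s hs
      refine ⟨U, hU, fun F' hF' hne hs' u hu => ?_⟩
      obtain ⟨hu1, hu2⟩ := mem_inter.1 hu
      exact hU' F' hF' hne hs' u (H691.mem_dirs.1 hu1) (H691.mem_dirs.1 hu2))
  have hR : ∑ F ∈ 𝓕, (SF F).card * (RF F).card ≤ H190.W adjE S / (8 * Θ) := by
    rw [Nat.le_div_iff_mul_le (by omega)]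
    have e1 : 2 * ∑ F ∈ 𝓕, (SF F).card * (RF F).card ≤
        ∑ F ∈ 𝓕, (SF F).card ^ 2 + ∑ F ∈ 𝓕, (RF F).card ^ 2 := by
      rw [Finset.mul_sum, ← Finset.sum_add_distrib]
      refine Finset.sum_le_sum fun F _ => ?_
      have := two_mul_le_add_sq ((SF F).card) ((RF F).card)
      rw [← mul_assoc]
      exact this
    have e2 : 2 * ((∑ F ∈ 𝓕, (SF F).card * (RF F).card) * (8 * Θ)) ≤ 2 * H190.W adjE S := by
      calc 2 * ((∑ F ∈ 𝓕, (SF F).card * (RF F).card) * (8 * Θ))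
          = (8 * 1 * Θ) * (2 * ∑ F ∈ 𝓕, (SF F).card * (RF F).card) := by ring
        _ ≤ (8 * 1 * Θ) * (∑ F ∈ 𝓕, (SF F).card ^ 2 + ∑ F ∈ 𝓕, (RF F).card ^ 2) :=
            Nat.mul_le_mul_left _ e1
        _ = 8 * 1 * Θ * ∑ F ∈ 𝓕, (SF F).card ^ 2 + 8 * 1 * Θ * ∑ F ∈ 𝓕, (RF F).card ^ 2 := by ring
        _ ≤ H190.W adjE S + H190.W adjE S := Nat.add_le_add hs1 hs2
        _ = _ := by ring
    omega
  calc _ ≤ _ := k8
    _ ≤ _ := by gcongr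

end psup

section psempty

open MvPolynomial Finset Module
open Vale.Agent.P054.T2
open Vale.Agent.P054.T2.SecC
open Vale.Agent.P054.T2.H163
open Vale.Agent.P054.T2.H307 (Ed)
open Vale.Agent.P054.T2.H686 (mu Qf Bf zt dists E Ez Ez_pairs)
open Vale.Agent.P054.T2.H192 (Iso)
open Vale.Agent.P054.T3.H637 (PSEdge)
open Vale.Agent.P054.T3.H461 (PSHyp)

variable {n : ℕ}

/-- classes in isotropic flats of dimension at most `2` -/
theorem card_cls_leN {P : Finset (E n)} {g : ℝ} (hg : FB P 2 g)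
    {A : Finset (ZZ n × ZZ n)} {W D σ v : ℕ} (S : Side n A W D σ v) (B : E n ≃ₗᵢ[ℝ] E n)
    (hA : ∀ e ∈ A, ∃ r ∈ P ×ˢ P, e.2 = zt B r) (e : ZZ n × ZZ n) (he : e ∈ A) (hI : Iso (S.V e))
    (hd : finrank ℝ (S.V e) ≤ 2) : ((S.cls e).card : ℝ) ≤ g := by
  classical
  set cl : Finset (E n × E n) := (P ×ˢ P).filter fun r => (e.1, zt B r) ∈ S.cls e with hcl
  have h1 : S.cls e ⊆ cl.image fun r => (e.1, zt B r) := by
    intro e' he'
    have h2 := S.mem_cls.1 he'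
    obtain ⟨r, hr, hre⟩ := hA e' h2.1
    have h3 : e' = (e.1, zt B r) := Prod.ext h2.2.1 hre
    refine Finset.mem_image.2 ⟨r, ?_, h3.symm⟩
    rw [hcl, Finset.mem_filter]
    exact ⟨hr, h3 ▸ he'⟩
  have h2 : ((S.cls e).card : ℝ) ≤ cl.card := by
    exact_mod_cast (Finset.card_le_card h1).trans Finset.card_image_le
  refine h2.trans ?_
  have hdiff : ∀ s ∈ cl, ∀ s' ∈ cl, zt B s - zt B s' ∈ S.V e := by
    intro s hs s' hs'
    rw [hcl, Finset.mem_filter] at hs hs'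
    have h3 := (S.V e).sub_mem (S.sub_mem_V hs.2) (S.sub_mem_V hs'.2)
    rwa [sub_sub_sub_cancel_right] at h3
  exact card_iso_le hg B (S.V e) hd hI cl (Finset.filter_subset _ _) hdiff

/-- the planar block is empty above the bound for planes -/
theorem psHyp_emptyN {P : Finset (E n)} {g : ℝ} (hg : FB P 2 g) (B : E n ≃ₗᵢ[ℝ] E n) (k : ℕ)
    (E₀ : Finset (Ed n ℝ)) (hE₀ : E₀ ⊆ Ez P B k) (τ ell : ℕ) (Θ M Ψ Rb : ℕ → ℕ)
    (hM : ∀ h ≤ ell, g ≤ M h) : PSHyp n P B E₀ τ ell Θ M Ψ Rb := by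
  classical
  intro h' hh' E₂ hE₂ W D c₀ dF d1 d2 O hW1 hW hD hd1 hd2 hd1' hd2' hEB
  have hA : ∀ e ∈ O.A, ∃ r ∈ P ×ˢ P, e.2 = zt B r := by
    intro e he
    obtain ⟨s, hs, r, hr, rfl, -⟩ := Ez_pairs (hE₀ (hE₂ (O.sub he)))
    exact ⟨r, hr, rfl⟩
  have h2 : (O.A.filter fun e => PSEdge O.S₁ O.S₂ (M h') (M h') e).card = 0 := by
    rw [Finset.card_eq_zero, Finset.filter_eq_empty_iff]
    intro e he hP
    have h1 := card_cls_leN hg O.S₁ B hA e he hP.iso hP.dim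
    have h2 : ((M h' : ℕ) : ℝ) < (O.S₁.cls e).card := by exact_mod_cast hP.big₁
    have h3 := hM h' hh'
    linarith
  exact h2.le.trans (Nat.zero_le _)

end psempty

section link

open Finset
open Vale.Agent.P054I Vale.Agent.P054K
open Vale.Agent.P054.T2 Vale.Agent.P054.T2.SecC
open Vale.Agent.P054.T2.H307 (Ed)
open Vale.Agent.P054.T2.H686 (Qf E dists Ez Gm zt zt_injective)
open Vale.Agent.P054.T2.H455 (Sep)
open Vale.Agent.P054.T3.H533 (MuK)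
open Vale.Agent.P054.T3.H190 (W adjE E1z)
open Vale.Agent.P054.T3.H637 (FlatQ)
open Vale.Agent.P054.T3.H461 (PSHyp CC0 CC2 SideN ThirdN main3)
open Vale.Agent.P054.T3.H854

/-- the start and the planar block -/
def StartN (n : ℕ) (η C : ℝ) : Prop :=
  ∃ Λ c : ℕ, 1 ≤ Λ ∧ ∃ L₀ : ℕ, ∀ L : ℕ, L₀ ≤ L → ∃ β₁ : ℕ, ∀ β : ℕ, β₁ ≤ β →
    ∃ C₂ : ℕ, ∀ K : ℝ, 1 ≤ K → ∃ t₀ : ℕ, ∀ t : ℕ, t₀ ≤ t → 1 ≤ t → ∀ P : Finset (E n),
      HyN n η C K P t → K * (t : ℝ) ^ (((n + 1 : ℕ) : ℝ) / 2) ≤ P.card →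
      Nonempty (StartOut n P β L c C₂ Λ (e1 η) K t)

theorem startN_of {n : ℕ} (hn : 3 ≤ n) {η C : ℝ} (hη : 0 < η) (hC : 2 ≤ C) (hU : PSUpN n η) :
    StartN n η C := by
  classical
  unfold PSUpN at hU
  unfold StartN
  have hε0 : 0 < e1 η := e1_pos hη
  have hε8 : e1 η ≤ 1 / 8 := e1_le η
  have hplane : ∀ (K : ℝ) (P : Finset (E n)) (t : ℕ), HyN n η C K P t →
      FB P 2 (C * K * (t : ℝ) ^ (1 + e1 η / 30)) := fun K P t h => h.plane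
  generalize e1 η = ε₁ at hU hε0 hε8 hplane ⊢
  obtain ⟨Cp, ap, L₀, hU⟩ := hU (2 ^ 17) (by norm_num)
  refine ⟨2 ^ 17, ap * CC0 n, by norm_num, max L₀ 1, fun L hL => ?_⟩
  have hL1 : 1 ≤ L := (le_max_right _ _).trans hL
  obtain ⟨β₁, hU⟩ := hU L ((le_max_left _ _).trans hL)
  refine ⟨max β₁ (2 + 2 * ⌈C⌉₊ + Cp), fun β hβ => ?_⟩
  have hβ1 : β₁ ≤ β := (le_max_left _ _).trans hβ
  have hβ2 : 2 + 2 * ⌈C⌉₊ + Cp ≤ β := (le_max_right _ _).trans hβ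
  refine ⟨ap * CC2 n L + 2, fun K hK => ?_⟩
  obtain ⟨t₀, hU⟩ := hU β hβ1 K hK
  refine ⟨t₀, fun t ht0' ht1 P hP hP1 => ?_⟩
  have htr : (1 : ℝ) ≤ t := by exact_mod_cast ht1
  have ht0 : (0 : ℝ) < t := by linarith
  have hK0 : 0 < K := by linarith
  have hβr : (1 : ℝ) ≤ β := by exact_mod_cast (by omega : 1 ≤ β)
  have hp0 : (0 : ℝ) < P.card := lt_of_lt_of_le (by positivity) hP1
  obtain ⟨B, hB⟩ := Vale.Agent.P054.T2.H686.exists_Gm P
  obtain ⟨S, hS, z, τ, hSne, hSz, hz, hz1, hτ1, hst, hτ, hW1, hext⟩ :=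
    startN hP.flags ht1 hp0 (ε₁ := ε₁) hε0.le (by linarith)
  have hz0 : 0 < z := lt_of_lt_of_le (Real.rpow_pos_of_pos ht0 _) hz
  have hz35 : z ^ (3 / 5 : ℝ) ≤ 1 := Real.rpow_le_one hz0.le hz1 (by norm_num)
  have hz15 : 1 ≤ z ^ (-(1 / 15 : ℝ)) :=
    Real.one_le_rpow_of_pos_of_le_one_of_nonpos hz0 hz1 (by norm_num)
  have hP0 : (0 : ℝ) < (P.card : ℝ) ^ 2 := by positivity
  have hb : 1 < β ^ L := Nat.one_lt_pow (by omega) (by omega)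
  obtain ⟨ell, hell⟩ : ∃ ell : ℕ, ell = Nat.log (β ^ L) τ := ⟨_, rfl⟩
  have hell1 : (β ^ L) ^ ell ≤ τ := by
    rw [hell]; exact Nat.pow_log_le_self _ (by omega)
  have hell2 : τ ≤ (β ^ L) ^ (ell + 1) := by
    rw [hell]; exact (Nat.lt_pow_succ_log_self hb _).le
  have hτt : τ ≤ 2 ^ 17 * t := by
    have h1 : (τ : ℝ) ≤ 2 ^ 17 * t := by
      calc (τ : ℝ) ≤ 2 ^ 17 * (t * z ^ (3 / 5 : ℝ)) := hτ
        _ ≤ 2 ^ 17 * (t * 1) := by gcongr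
        _ = _ := by ring
    exact_mod_cast h1
  have hE0 : (E1z B S).card = W adjE S := Vale.Agent.P054.T3.H190.card_E1z B S
  have hne : (E1z B S).Nonempty := Finset.card_pos.1 (by omega)
  have hsub : E1z B S ⊆ Ez P B P.card := Vale.Agent.P054.T3.H190.E1z_subset B hS
  rcases le_or_gt ((t : ℝ) ^ (-(ε₁ / 2))) z with hzc | hzc
  · -- upper regime
    have hS16 : (t : ℝ) ^ (-(ε₁ / 2)) * (P.card : ℝ) ^ 2 ≤ S.card := by
      rw [hSz]; gcongr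
    have hps := hU t ht0' ht1 C P hP hP1 B S τ ell hB hS hS16 hext hell1 hell2 hτt
    refine ⟨⟨B, P.card, S, E1z B S, τ, ell, z, _, _, _, hB, hS, hne, hsub,
      fun e he => Vale.Agent.P054.T3.H190.E1z_fst he, fun e he => Vale.Agent.P054.T3.H190.E1z_snd he,
      Vale.Agent.P054.T3.H190.muK_E1z hB (by omega) hS,
      Vale.Agent.P054.T3.H190.muK_swp_E1z hB (by omega) hS, hSz, hz, ?_, ?_, hell1, hell2, hps,
      ?_, ?_, ?_⟩⟩
    · rw [hE0, ← sq]; exact hst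
    · refine hτ.trans (le_of_eq ?_); push_cast; norm_num
    · intro h _
      have h1 : Cp * (β ^ (CC0 n * h + CC2 n L)) ^ ap ≤ β ^ (ap * CC0 n * h + (ap * CC2 n L + 2)) := by
        calc Cp * (β ^ (CC0 n * h + CC2 n L)) ^ ap ≤ β ^ 1 * (β ^ (CC0 n * h + CC2 n L)) ^ ap := by
              rw [pow_one]; exact Nat.mul_le_mul_right _ (by omega)
          _ = β ^ (1 + (CC0 n * h + CC2 n L) * ap) := by rw [← pow_mul, ← pow_add]
          _ ≤ _ := Nat.pow_le_pow_right (by omega) (by ring_nf; omega)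
      have h2 : ((Cp * (β ^ (CC0 n * h + CC2 n L)) ^ ap : ℕ) : ℝ) ≤
          (β : ℝ) ^ (ap * CC0 n * h + (ap * CC2 n L + 2)) := by exact_mod_cast h1
      have h3 : 1 ≤ K * z ^ (-(1 / 15 : ℝ)) := by nlinarith
      calc ((Cp * (β ^ (CC0 n * h + CC2 n L)) ^ ap * t : ℕ) : ℝ)
          = ((Cp * (β ^ (CC0 n * h + CC2 n L)) ^ ap : ℕ) : ℝ) * 1 * t := by push_cast; ring
        _ ≤ (β : ℝ) ^ (ap * CC0 n * h + (ap * CC2 n L + 2)) * (K * z ^ (-(1 / 15 : ℝ))) * t := by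
            gcongr
    · intro h _
      have h0 : 1 ≤ (β ^ (CC0 n * h + CC2 n L)) ^ ap :=
        Nat.one_le_pow _ _ (Nat.pow_pos (by omega))
      calc Cp * (β ^ (CC0 n * h + CC2 n L)) ^ ap + 1
          ≤ (Cp + 1) * (β ^ (CC0 n * h + CC2 n L)) ^ ap := by nlinarith
        _ ≤ β ^ 1 * (β ^ (CC0 n * h + CC2 n L)) ^ ap := by
            rw [pow_one]; exact Nat.mul_le_mul_right _ (by omega)
        _ = β ^ (1 + (CC0 n * h + CC2 n L) * ap) := by rw [← pow_mul, ← pow_add]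
        _ ≤ _ := Nat.pow_le_pow_right (by omega) (by ring_nf; omega)
    · intro h _
      rw [hE0]
      calc 4 * (W adjE S / (8 * β ^ (CC0 n * h + CC2 n L)) * β ^ (CC0 n * h + CC2 n L))
          ≤ W adjE S / (8 * β ^ (CC0 n * h + CC2 n L)) * (8 * β ^ (CC0 n * h + CC2 n L)) := by
            rw [← mul_assoc, ← mul_assoc, mul_comm 4]
            exact Nat.mul_le_mul_right _ (Nat.mul_le_mul_left _ (by norm_num))
        _ ≤ W adjE S := Nat.div_mul_le_self _ _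
  · -- boundary regime
    have hps := psHyp_emptyN (hplane K P t hP) B P.card (E1z B S) hsub τ ell
      (fun h => β ^ (CC0 n * h + CC2 n L)) (fun _ => ⌈C * K * (t : ℝ) ^ (1 + ε₁ / 30)⌉₊)
      (fun _ => 0) (fun _ => 0) (fun h _ => Nat.le_ceil _)
    refine ⟨⟨B, P.card, S, E1z B S, τ, ell, z, _, _, _, hB, hS, hne, hsub,
      fun e he => Vale.Agent.P054.T3.H190.E1z_fst he, fun e he => Vale.Agent.P054.T3.H190.E1z_snd he,
      Vale.Agent.P054.T3.H190.muK_E1z hB (by omega) hS,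
      Vale.Agent.P054.T3.H190.muK_swp_E1z hB (by omega) hS, hSz, hz, ?_, ?_, hell1, hell2, hps,
      ?_, ?_, ?_⟩⟩
    · rw [hE0, ← sq]; exact hst
    · refine hτ.trans (le_of_eq ?_); push_cast; norm_num
    · intro h _
      have h1 : (t : ℝ) ^ (ε₁ / 30) ≤ z ^ (-(1 / 15 : ℝ)) := by
        have h2 : z ^ (1 / 15 : ℝ) ≤ ((t : ℝ) ^ (-(ε₁ / 2))) ^ (1 / 15 : ℝ) :=
          Real.rpow_le_rpow hz0.le hzc.le (by norm_num)
        have h3 : ((t : ℝ) ^ (-(ε₁ / 2))) ^ (1 / 15 : ℝ) = ((t : ℝ) ^ (ε₁ / 30))⁻¹ := by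
          rw [← Real.rpow_mul ht0.le, ← Real.rpow_neg ht0.le]; congr 1; ring
        rw [h3] at h2
        rw [Real.rpow_neg hz0.le]
        rw [le_inv_comm₀ (Real.rpow_pos_of_pos ht0 _) (Real.rpow_pos_of_pos hz0 _)]
        exact h2
      have h4 : 2 * C ≤ (β : ℝ) ^ (ap * CC0 n * h + (ap * CC2 n L + 2)) := by
        calc 2 * C ≤ 2 * ⌈C⌉₊ := by
              have := Nat.le_ceil C
              linarith
          _ ≤ β := by exact_mod_cast (by omega : 2 * ⌈C⌉₊ ≤ β)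
          _ = (β : ℝ) ^ 1 := (pow_one _).symm
          _ ≤ _ := pow_le_pow_right₀ hβr (by omega)
      have h5 : (1 : ℝ) ≤ (t : ℝ) ^ (1 + ε₁ / 30) := Real.one_le_rpow htr (by linarith)
      have hCK : (1 : ℝ) ≤ C * K := by nlinarith
      have h6 : (1 : ℝ) ≤ C * K * (t : ℝ) ^ (1 + ε₁ / 30) := by nlinarith
      calc ((⌈C * K * (t : ℝ) ^ (1 + ε₁ / 30)⌉₊ : ℕ) : ℝ) ≤ C * K * (t : ℝ) ^ (1 + ε₁ / 30) + 1 :=
            (Nat.ceil_lt_add_one (by linarith)).le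
        _ ≤ 2 * (C * K * (t : ℝ) ^ (1 + ε₁ / 30)) := by linarith
        _ = 2 * C * (K * (t : ℝ) ^ (ε₁ / 30)) * t := by
            rw [Real.rpow_add ht0, Real.rpow_one]; ring
        _ ≤ (β : ℝ) ^ (ap * CC0 n * h + (ap * CC2 n L + 2)) * (K * z ^ (-(1 / 15 : ℝ))) * t := by
            gcongr
    · intro h _
      exact Nat.one_le_pow _ _ (by omega)
    · intro h _
      simp

/-- the bound for flats of `P × P` -/
theorem flatQ_HyN {n : ℕ} (hn : 3 ≤ n) {η C K : ℝ} (hη : 0 < η) (hC : 2 ≤ C) (hK : 1 ≤ K)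
    {P : Finset (E n)} {t : ℕ} (ht1 : 1 ≤ t) (ht : C ^ 2 * K ≤ (t : ℝ) ^ (1 / 2 : ℝ))
    (hP : HyN n η C K P t)
    (hP2 : (P.card : ℝ) ≤ 2 * (K * (t : ℝ) ^ (((n + 1 : ℕ) : ℝ) / 2))) :
    FlatQ n P ⌊4 * (K * (t : ℝ) ^ ((n : ℝ) - 1 / 4))⌋₊ ∧
      P.card ≤ ⌊4 * (K * (t : ℝ) ^ ((n : ℝ) - 1 / 4))⌋₊ := by
  have htr : (1 : ℝ) ≤ t := by exact_mod_cast ht1
  have ht0 : (0 : ℝ) < t := by linarith
  have hK0 : 0 < K := by linarith
  have hC0 : 0 < C := by linarith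
  have hnr : (3 : ℝ) ≤ n := by exact_mod_cast hn
  have hε0 : 0 < e1 η := e1_pos hη
  have hε8 : e1 η ≤ 1 / 8 := e1_le η
  have h35 : (t : ℝ) ^ (((n + 1 : ℕ) : ℝ) / 2) ≤ (t : ℝ) ^ ((n : ℝ) - 1 / 4) := by
    apply Real.rpow_le_rpow_of_exponent_le htr
    push_cast
    linarith
  have h2 : 2 * P.card ≤ ⌊4 * (K * (t : ℝ) ^ ((n : ℝ) - 1 / 4))⌋₊ := by
    apply Nat.le_floor
    push_cast
    calc 2 * (P.card : ℝ) ≤ 2 * (2 * (K * (t : ℝ) ^ (((n + 1 : ℕ) : ℝ) / 2))) := by gcongr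
      _ ≤ 2 * (2 * (K * (t : ℝ) ^ ((n : ℝ) - 1 / 4))) := by gcongr
      _ = _ := by ring
  refine ⟨?_, by omega⟩
  have hfb : ∀ m : ℕ, 2 ≤ m →
      FB P m (C * K * (t : ℝ) ^ ((((m + 1) / 2 : ℕ) : ℝ) + 1 / 16)) := by
    intro m hm
    rcases Nat.lt_or_ge m 3 with h3 | h3
    · have hm2 : m = 2 := by omega
      subst hm2
      refine hP.plane.mono le_rfl ?_
      refine mul_le_mul_of_nonneg_left (Real.rpow_le_rpow_of_exponent_le htr ?_) (by positivity)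
      norm_num
      linarith
    · refine (hP.flats ((m + 1) / 2) (by omega)).mono (by omega) ?_
      refine mul_le_mul_of_nonneg_left ?_ (by positivity)
      rw [← Real.rpow_natCast]
      exact Real.rpow_le_rpow_of_exponent_le htr (by linarith)
  refine flatQ_of h2 fun a b ha hb hab => ⟨_, _, hfb a ha, hfb b hb, ?_⟩
  have h3 : (a + 1) / 2 + (b + 1) / 2 + 1 ≤ n := by omega
  have h4 : ((((a + 1) / 2 : ℕ) : ℝ)) + (((b + 1) / 2 : ℕ) : ℝ) + 1 ≤ n := by exact_mod_cast h3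
  have h5 : C * K * (t : ℝ) ^ ((((a + 1) / 2 : ℕ) : ℝ) + 1 / 16) *
      (C * K * (t : ℝ) ^ ((((b + 1) / 2 : ℕ) : ℝ) + 1 / 16)) ≤
      K * (t : ℝ) ^ ((n : ℝ) - 1 / 4) := by
    calc C * K * (t : ℝ) ^ ((((a + 1) / 2 : ℕ) : ℝ) + 1 / 16) *
          (C * K * (t : ℝ) ^ ((((b + 1) / 2 : ℕ) : ℝ) + 1 / 16))
        = K * ((C ^ 2 * K) * ((t : ℝ) ^ ((((a + 1) / 2 : ℕ) : ℝ) + 1 / 16) *
            (t : ℝ) ^ ((((b + 1) / 2 : ℕ) : ℝ) + 1 / 16))) := by ring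
      _ ≤ K * ((t : ℝ) ^ (1 / 2 : ℝ) * ((t : ℝ) ^ ((((a + 1) / 2 : ℕ) : ℝ) + 1 / 16) *
            (t : ℝ) ^ ((((b + 1) / 2 : ℕ) : ℝ) + 1 / 16))) := by gcongr
      _ ≤ K * (t : ℝ) ^ ((n : ℝ) - 1 / 4) := by
          rw [← Real.rpow_add ht0, ← Real.rpow_add ht0]
          refine mul_le_mul_of_nonneg_left (Real.rpow_le_rpow_of_exponent_le htr ?_) hK0.le
          linarith
  refine h5.trans ?_
  have h6 : (1 : ℝ) ≤ K * (t : ℝ) ^ ((n : ℝ) - 1 / 4) := by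
    have h7 : (1 : ℝ) ≤ (t : ℝ) ^ ((n : ℝ) - 1 / 4) := Real.one_le_rpow htr (by linarith)
    nlinarith
  have h7 := Nat.lt_floor_add_one (4 * (K * (t : ℝ) ^ ((n : ℝ) - 1 / 4)))
  linarith

/-- **the step in dimension `n + 1 ≥ 4`** -/
theorem stepN {n : ℕ} (hn : 3 ≤ n) {η C : ℝ} (hη : 0 < η) (hC : 2 ≤ C) : StepN n η C := by
  classical
  obtain ⟨Λ, c, hΛ, L₀, h⟩ := startN_of hn hη hC (psUpN n hn hη)
  obtain ⟨L, hL0, hL1, hL2⟩ : ∃ L : ℕ, L₀ ≤ L ∧ 48 * (4 * n + 1) ≤ L ∧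
      6 * (3 * n + 17) * (CC0 n + c) ≤ L :=
    ⟨L₀ + 48 * (4 * n + 1) + 6 * (3 * n + 17) * (CC0 n + c), by omega, by omega, by omega⟩
  obtain ⟨β₁, h⟩ := h L hL0
  obtain ⟨β₀, hmain⟩ := main3 n hn (L := L) hL1 1 Λ hΛ
  obtain ⟨β, hβ⟩ : ∃ β : ℕ, max (max β₀ β₁) (Λ + 2 + ⌈C⌉₊ + 12) ≤ β := ⟨_, le_rfl⟩
  have hβ0 : β₀ ≤ β := (le_max_left _ _).trans ((le_max_left _ _).trans hβ)
  have hβ1 : β₁ ≤ β := (le_max_right _ _).trans ((le_max_left _ _).trans hβ)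
  have hβ2 : Λ + 2 + ⌈C⌉₊ + 12 ≤ β := (le_max_right _ _).trans hβ
  clear hβ
  obtain ⟨C₂, h⟩ := h β hβ1
  refine ⟨4096 * (β : ℝ) ^ ((3 * n + 17) * (5 * (CC0 n + c) + (CC2 n L + C₂ + 2)) +
    4 * (CC2 n L + C₂ + 2)), fun K hKβ hK => ?_⟩
  obtain ⟨t₀, h⟩ := h K hK
  refine ⟨max t₀ ⌈(C ^ 2 * K) ^ 2⌉₊, fun t ht ht1 P hP hP1 hP2 => ?_⟩
  obtain ⟨O⟩ := h t ((le_max_left _ _).trans ht) ht1 P hP hP1
  obtain ⟨B, k, S, E₀, τ, ell, z, M, Ψ, Rb, hB, hS, hne, hE₀, hf, hs, hm1, hm2, hcS, hz, hst, hτ,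
    hell, hell', hps, hM, hΨ, hR⟩ := O
  have htr : (1 : ℝ) ≤ t := by exact_mod_cast ht1
  have ht0 : (0 : ℝ) < t := by linarith
  have hz0 : 0 < z := lt_of_lt_of_le (Real.rpow_pos_of_pos ht0 _) hz
  have hK0 : 0 < K := by linarith
  have hC0 : 0 < C := by linarith
  have hP0 : (0 : ℝ) < P.card := lt_of_lt_of_le (by positivity) hP1
  have hSP : S.card ≤ P.card * P.card := by
    calc S.card ≤ (P ×ˢ P).card := Finset.card_le_card hS
      _ = _ := Finset.card_product _ _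
  have hz1 : z ≤ 1 := by
    have h1 : (S.card : ℝ) ≤ (P.card : ℝ) ^ 2 := by
      calc (S.card : ℝ) ≤ (P.card : ℝ) * P.card := by exact_mod_cast hSP
        _ = _ := by ring
    rw [hcS] at h1
    have h2 : 0 < (P.card : ℝ) ^ 2 := by positivity
    exact le_of_mul_le_mul_right (by linarith) h2
  have hz35 : z ^ (3 / 5 : ℝ) ≤ 1 := Real.rpow_le_one hz0.le hz1 (by norm_num)
  have hτt : τ ≤ Λ * t := by
    have : (τ : ℝ) ≤ Λ * t := by
      calc (τ : ℝ) ≤ Λ * (t * z ^ (3 / 5 : ℝ)) := hτ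
        _ ≤ Λ * (t * 1) := by gcongr
        _ = Λ * t := by ring
    exact_mod_cast this
  have hSScard : (S.image (zt B)).card = S.card :=
    Finset.card_image_of_injective _ (zt_injective B)
  have hsep : Sep (fun s : ZZ n => pt s) (4 * t) (S.image (zt B)) :=
    (hP.sep B).subset (Finset.image_subset_image hS)
  have hpn : (P.card : ℝ) ≤ 2 * K * (t : ℝ) ^ n := by
    have h1 : (t : ℝ) ^ (((n + 1 : ℕ) : ℝ) / 2) ≤ (t : ℝ) ^ n := by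
      rw [← Real.rpow_natCast]
      apply Real.rpow_le_rpow_of_exponent_le htr
      have : (3 : ℝ) ≤ n := by exact_mod_cast hn
      push_cast
      linarith
    calc (P.card : ℝ) ≤ 2 * (K * (t : ℝ) ^ (((n + 1 : ℕ) : ℝ) / 2)) := hP2
      _ ≤ 2 * (K * (t : ℝ) ^ n) := by gcongr
      _ = _ := by ring
  have hCt : C ^ 2 * K ≤ (t : ℝ) ^ (1 / 2 : ℝ) := by
    have h1 : (C ^ 2 * K) ^ 2 ≤ t := by
      refine (Nat.le_ceil _).trans ?_
      exact_mod_cast (le_max_right _ _).trans ht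
    have h2 : ((t : ℝ) ^ (1 / 2 : ℝ)) ^ 2 = t := by
      rw [← Real.rpow_natCast, ← Real.rpow_mul ht0.le]
      norm_num
    exact le_of_sq_le_sq (by rw [h2]; exact h1) (by positivity) |>.trans le_rfl
  obtain ⟨hflat', hPG⟩ := flatQ_HyN hn hη hC hK ht1 hCt hP hP2
  have hGf' : ((⌊4 * (K * (t : ℝ) ^ ((n : ℝ) - 1 / 4))⌋₊ : ℕ) : ℝ) ≤
      4 * (K * (t : ℝ) ^ ((n : ℝ) - 1 / 4)) := Nat.floor_le (by positivity)
  generalize ⌊4 * (K * (t : ℝ) ^ ((n : ℝ) - 1 / 4))⌋₊ = Gf at hflat' hPG hGf'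
  have hIso := isoBL_of_fb hP.flats
  obtain ⟨Gi, hGi⟩ : ∃ Gi : ℕ → ℕ, Gi = fun σ => ⌊C * K * (t : ℝ) ^ σ⌋₊ := ⟨_, rfl⟩
  obtain ⟨Gh, hGh⟩ : ∃ Gh : ℕ → ℕ → ℕ,
      Gh = fun h σ => if σ = 0 then 1 else if σ = 1 then M h else Gi σ := ⟨_, rfl⟩
  have hGh0 : ∀ h, Gh h 0 = 1 := fun h => by rw [hGh]; simp
  have hGh1 : ∀ h, Gh h 1 = M h := fun h => by rw [hGh]; simp
  have hGh2 : ∀ h σ, 2 ≤ σ → Gh h σ = Gi σ := fun h σ hσ => by
    rw [hGh]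
    show (if σ = 0 then 1 else if σ = 1 then M h else Gi σ) = Gi σ
    rw [if_neg (by omega), if_neg (by omega)]
  have hGi2 : ∀ σ, (Gi σ : ℝ) ≤ C * K * (t : ℝ) ^ σ := fun σ => by
    rw [hGi]; exact Nat.floor_le (by positivity)
  rw [← hGi] at hIso
  have hps' : PSHyp n P B E₀ τ ell (fun h => β ^ (CC0 n * h + CC2 n L)) (fun h => Gh h 1) Ψ Rb := by
    have : (fun h => Gh h 1) = M := funext hGh1
    rw [this]
    exact hps
  obtain ⟨h', hh', E₂, hE₂, hE₂n, hE₂c, X₁, X₂, X₃, hcnt, hS1, hS2, hT⟩ :=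
    hmain β hβ0 τ ell t hell hell' hτt ht1 P B k hB (S.image (zt B)) (S.image (zt B)) E₀ hne hE₀
      hsep hsep
      (fun e he => by
        obtain ⟨s, hs, h1⟩ := hf e he
        rw [← h1]
        exact Finset.mem_image_of_mem _ hs)
      (fun e he => by
        obtain ⟨s, hs', h1⟩ := hs e he
        rw [← h1]
        exact Finset.mem_image_of_mem _ hs')
      (by rw [hSScard, one_mul]; exact hst) 1 Gf Gi Gh Ψ Rb hm1 hm2 hIso hflat' hPG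
      (fun h σ hσ => (hGh2 h σ hσ).ge)
      (fun h => (hGh0 h).ge) hps'
  rw [hSScard] at hS1 hS2
  have hC3 : 3 * (4 : ℝ) ≤ β := by
    have h2 : ((12 : ℕ) : ℝ) ≤ β := by exact_mod_cast (by omega : 12 ≤ β)
    push_cast at h2
    linarith
  have hCβ : C ≤ β := by
    have h1 : C ≤ ⌈C⌉₊ := Nat.le_ceil _
    have h2 : ((⌈C⌉₊ : ℕ) : ℝ) ≤ β := by exact_mod_cast (by omega : ⌈C⌉₊ ≤ β)
    linarith
  obtain ⟨Mo⟩ := mainOutZ_of hn (by omega) (by omega) hCβ (by linarith) (C₃ := 4) (by norm_num) hC3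
    hK ht1 (by exact_mod_cast hP0) hSP hcS hz hτ hell hh' hst hE₂c hcnt (hR h' hh') (hΨ h' hh') hpn
    hGf' (hGh0 h') (hGh1 h') (fun σ hσ => by rw [hGh2 h' σ hσ]; exact hGi2 σ) (hM h' hh') hS1 hS2 hT
  have hN : K ^ 2 * (t : ℝ) ^ (n + 1) ≤ (P.card : ℝ) ^ 2 := by
    have h4 : ((t : ℝ) ^ (((n + 1 : ℕ) : ℝ) / 2)) ^ 2 = (t : ℝ) ^ (n + 1) := by
      rw [← Real.rpow_natCast, ← Real.rpow_mul ht0.le]
      rw [← Real.rpow_natCast]
      congr 1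
      push_cast
      ring
    rw [← h4, ← mul_pow]
    gcongr
  exact no_mainOutZ (by omega) hL2 (e1_le η) htr hN hK hKβ Mo

end link

end Vale.Agent.N054
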