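import Vale.Agent.N054.Core3

set_option autoImplicit false
set_option linter.all false

/-!
# A complexity function with two families of centres; flags of a dense graph; choice of centres
-/

namespace Vale.Agent.N054

section cplx

open Finset Module MvPolynomial
open Vale.Agent.P054.T2.H686 (E zt)
open Vale.Agent.P054.T2.SecC (ZZ pt)
open Vale.Agent.P054.T2.H455 (Sep)
open Vale.Agent.P054.T3.H109.Gen (lineC lineC_eq onL)
open Vale.Agent.P054.T3.H226 (clf sum_dn_clf)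
open Vale.Agent.P054.T3.H533 (dn dn_mono sepD totalDegree_sepD eval_sepD prod_ne_zero_D)

variable {n k : ℕ}

/-- all points are determined by their distances to the centres -/
def DetAll (a : Fin k → E n) : Prop :=
  ∀ x x' : E n, (∀ i, dist x (a i) = dist x' (a i)) → x = x'

open scoped Classical in
/-- spheres around the `a i` for the points in `A`, spheres around the `b i` for the others -/
noncomputable def Tab (a b : Fin k → E n) (A Z : Finset (E n)) : ℕ :=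
  dn a (Z.filter fun x => x ∈ A) + dn b (Z.filter fun x => x ∉ A)

theorem dn_empty (a : Fin k → E n) : dn a (∅ : Finset (E n)) = 0 := by
  unfold dn
  simp

theorem le_dn (a : Fin k → E n) (i₀ : Fin k) (Z : Finset (E n)) :
    (Z.image fun x => dist x (a i₀)).card ≤ dn a Z := by
  unfold dn
  exact Finset.single_le_sum (f := fun i => (Z.image fun x => dist x (a i)).card)
    (fun _ _ => Nat.zero_le _) (mem_univ i₀)

theorem dn_pos (a : Fin k → E n) (i₀ : Fin k) {Z : Finset (E n)} (hZ : Z.Nonempty) :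
    0 < dn a Z :=
  lt_of_lt_of_le (card_pos.2 (hZ.image _)) (le_dn a i₀ Z)

theorem lineC_le_dn (a : Fin k → E n) (i₀ : Fin k) (Z : Finset (E n)) {x y : E n} (h : x ≠ y) :
    lineC Z x y ≤ 2 * dn a Z :=
  (Vale.Agent.P054.T3.H549.lineC_le_dist Z (a i₀) x y h).trans
    (Nat.mul_le_mul_left 2 (le_dn a i₀ Z))

theorem sum_dn_filter (a : Fin k → E 2) {J : ℕ} (f : Fin J → MvPolynomial (Fin (2 + 1)) ℝ)
    (Z : Finset (E 2)) (p : E 2 → Prop) [DecidablePred p] :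
    ∑ c ∈ (Z.image (clf (n := 2) f)).erase none,
        dn a ((Z.filter fun x => clf (n := 2) f x = c).filter p) ≤
      ((2 * (3 * ∑ j, (f j).totalDegree + 2)) ^ 2 + 1) * dn a (Z.filter p) := by
  refine le_trans (le_of_eq ?_) (sum_dn_clf (n := 2) a f (Z.filter p))
  have h1 : ∀ c, (Z.filter fun x => clf (n := 2) f x = c).filter p =
      (Z.filter p).filter fun x => clf (n := 2) f x = c := fun c => Finset.filter_comm _ _ _
  simp only [h1]
  symm
  refine Finset.sum_subset ?_ ?_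
  · exact Finset.erase_subset_erase _ (Finset.image_subset_image (Finset.filter_subset _ _))
  · intro c hc hc'
    have h2 : ((Z.filter p).filter fun x => clf (n := 2) f x = c) = ∅ := by
      rw [Finset.filter_eq_empty_iff]
      intro x hx h3
      exact hc' (Finset.mem_erase.2 ⟨(Finset.mem_erase.1 hc).1, Finset.mem_image.2 ⟨x, hx, h3⟩⟩)
    rw [h2, dn_empty]

theorem prod_eq_zero_all {a : Fin k → E n} (ha : DetAll a) {X : Finset (E n)} {x x' : E n}
    (hx' : x' ∈ X) (hne : x' ≠ x) :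
    ∏ i, ∏ δ ∈ (X.image fun x => dist x (a i)).erase (dist x (a i)),
      (dist x' (a i) ^ 2 - δ ^ 2) = 0 := by
  classical
  obtain ⟨i, hi⟩ : ∃ i, dist x' (a i) ≠ dist x (a i) := by
    by_contra hcon
    push Not at hcon
    exact hne (ha x' x hcon)
  refine Finset.prod_eq_zero (Finset.mem_univ i) ?_
  exact Finset.prod_eq_zero (Finset.mem_erase.2 ⟨hi, Finset.mem_image_of_mem _ hx'⟩) (sub_self _)

theorem sep_Tab {a b : Fin k → E n} (ha : DetAll a) (hb : DetAll b) (A X Y : Finset (E n))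
    (B : E n ≃ₗᵢ[ℝ] E n) :
    Sep (fun s : ZZ n => pt s) (2 * (Tab a b A X + Tab a b A Y)) ((X ×ˢ Y).image (zt B)) := by
  classical
  set L1 : Fin (n + 1) → MvPolynomial (Fin (n + 1) ⊕ Fin (n + 1)) ℝ := fun i =>
    C (1 / 2) * (MvPolynomial.X (Sum.inl i) + MvPolynomial.X (Sum.inr i)) with hL1
  set L2 : Fin (n + 1) → MvPolynomial (Fin (n + 1) ⊕ Fin (n + 1)) ℝ := fun i =>
    C (1 / 2) * (MvPolynomial.X (Sum.inr i) - MvPolynomial.X (Sum.inl i)) with hL2
  have hd1 : ∀ i, (L1 i).totalDegree ≤ 1 := by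
    intro i
    refine (totalDegree_mul _ _).trans ?_
    rw [totalDegree_C, zero_add]
    exact (totalDegree_add _ _).trans (max_le (totalDegree_X _).le (totalDegree_X _).le)
  have hd2 : ∀ i, (L2 i).totalDegree ≤ 1 := by
    intro i
    refine (totalDegree_mul _ _).trans ?_
    rw [totalDegree_C, zero_add]
    exact (totalDegree_sub _ _).trans (max_le (totalDegree_X _).le (totalDegree_X _).le)
  have he1 : ∀ (s' : E n × E n) i, eval (pt (zt B s')) (L1 i) = s'.1 i := by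
    intro s' i
    simp only [hL1, map_mul, map_add, eval_C, eval_X, pt, Sum.elim_inl, Sum.elim_inr, zt]
    ring
  have he2 : ∀ (s' : E n × E n) i, eval (pt (zt B s')) (L2 i) = (B s'.2) i := by
    intro s' i
    simp only [hL2, map_mul, map_sub, eval_C, eval_X, pt, Sum.elim_inl, Sum.elim_inr, zt]
    ring
  have hs1 : ∀ (a : Fin k → E n) (s' : E n × E n), ∀ i,
      ∑ j, (eval (pt (zt B s')) (L1 j) - (a i) j) ^ 2 = dist s'.1 (a i) ^ 2 := by
    intro a s' i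
    rw [EuclideanSpace.dist_eq, Real.sq_sqrt (Finset.sum_nonneg fun i _ => sq_nonneg _)]
    refine Finset.sum_congr rfl fun j _ => ?_
    rw [he1, Real.dist_eq, sq_abs]
  have hs2 : ∀ (a : Fin k → E n) (s' : E n × E n), ∀ i,
      ∑ j, (eval (pt (zt B s')) (L2 j) - (B (a i)) j) ^ 2 = dist s'.2 (a i) ^ 2 := by
    intro a s' i
    rw [← B.dist_map, EuclideanSpace.dist_eq,
      Real.sq_sqrt (Finset.sum_nonneg fun i _ => sq_nonneg _)]
    refine Finset.sum_congr rfl fun j _ => ?_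
    rw [he2, Real.dist_eq, sq_abs]
  intro z hz
  obtain ⟨s, hs, rfl⟩ := Finset.mem_image.1 hz
  set X₁ := X.filter fun x => x ∈ A with hX₁
  set X₂ := X.filter fun x => x ∉ A with hX₂
  set Y₁ := Y.filter fun x => x ∈ A with hY₁
  set Y₂ := Y.filter fun x => x ∉ A with hY₂
  have hTX : Tab a b A X = dn a X₁ + dn b X₂ := by
    unfold Tab
    congr!
  have hTY : Tab a b A Y = dn a Y₁ + dn b Y₂ := by
    unfold Tab
    congr!
  refine ⟨(sepD a X₁ s.1 (fun i j => (a i) j) L1 * sepD b X₂ s.1 (fun i j => (b i) j) L1) *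
    (sepD a Y₁ s.2 (fun i j => (B (a i)) j) L2 * sepD b Y₂ s.2 (fun i j => (B (b i)) j) L2),
    ?_, ?_, ?_⟩
  · refine (totalDegree_mul _ _).trans ?_
    have h1 := totalDegree_sepD a X₁ s.1 (fun i j => (a i) j) L1 hd1
    have h2 := totalDegree_sepD b X₂ s.1 (fun i j => (b i) j) L1 hd1
    have h3 := totalDegree_sepD a Y₁ s.2 (fun i j => (B (a i)) j) L2 hd2
    have h4 := totalDegree_sepD b Y₂ s.2 (fun i j => (B (b i)) j) L2 hd2
    have h5 := totalDegree_mul (sepD a X₁ s.1 (fun i j => (a i) j) L1)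
      (sepD b X₂ s.1 (fun i j => (b i) j) L1)
    have h6 := totalDegree_mul (sepD a Y₁ s.2 (fun i j => (B (a i)) j) L2)
      (sepD b Y₂ s.2 (fun i j => (B (b i)) j) L2)
    omega
  · show eval (pt (zt B s)) _ ≠ 0
    rw [map_mul, map_mul, map_mul, eval_sepD a X₁ s.1 s.1 _ L1 _ (hs1 a s),
      eval_sepD b X₂ s.1 s.1 _ L1 _ (hs1 b s), eval_sepD a Y₁ s.2 s.2 _ L2 _ (hs2 a s),
      eval_sepD b Y₂ s.2 s.2 _ L2 _ (hs2 b s)]
    exact mul_ne_zero (mul_ne_zero (prod_ne_zero_D a X₁ s.1) (prod_ne_zero_D b X₂ s.1))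
      (mul_ne_zero (prod_ne_zero_D a Y₁ s.2) (prod_ne_zero_D b Y₂ s.2))
  · intro z' hz' hne
    obtain ⟨s', hs', rfl⟩ := Finset.mem_image.1 hz'
    have hsV' := Finset.mem_product.1 hs'
    show eval (pt (zt B s')) _ = 0
    rw [map_mul, map_mul, map_mul, eval_sepD a X₁ s.1 s'.1 _ L1 _ (hs1 a s'),
      eval_sepD b X₂ s.1 s'.1 _ L1 _ (hs1 b s'), eval_sepD a Y₁ s.2 s'.2 _ L2 _ (hs2 a s'),
      eval_sepD b Y₂ s.2 s'.2 _ L2 _ (hs2 b s')]
    by_cases h1 : s'.1 = s.1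
    · have h2 : s'.2 ≠ s.2 := fun h2 => hne (by rw [Prod.ext h1 h2])
      by_cases h3 : s'.2 ∈ A
      · rw [prod_eq_zero_all ha (X := Y₁) (Finset.mem_filter.2 ⟨hsV'.2, h3⟩) h2, zero_mul,
          mul_zero]
      · rw [prod_eq_zero_all hb (X := Y₂) (Finset.mem_filter.2 ⟨hsV'.2, h3⟩) h2, mul_zero,
          mul_zero]
    · by_cases h3 : s'.1 ∈ A
      · rw [prod_eq_zero_all ha (X := X₁) (Finset.mem_filter.2 ⟨hsV'.1, h3⟩) h1, zero_mul,
          zero_mul]
      · rw [prod_eq_zero_all hb (X := X₂) (Finset.mem_filter.2 ⟨hsV'.1, h3⟩) h1, mul_zero,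
          zero_mul]

theorem lineC_le_Tab (a b : Fin k → E n) (i₀ : Fin k) (A Z : Finset (E n)) {x y : E n}
    (hxy : x ≠ y) : lineC Z x y ≤ 2 * Tab a b A Z := by
  classical
  unfold Tab
  have h1 := lineC_le_dn a i₀ (Z.filter fun x => x ∈ A) hxy
  have h2 := lineC_le_dn b i₀ (Z.filter fun x => x ∉ A) hxy
  have h3 : lineC Z x y ≤ lineC (Z.filter fun x => x ∈ A) x y +
      lineC (Z.filter fun x => x ∉ A) x y := by
    rw [lineC_eq, lineC_eq, lineC_eq, Finset.filter_comm (fun x => x ∈ A),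
      Finset.filter_comm (fun x => x ∉ A)]
    exact (Finset.card_filter_add_card_filter_not _).ge
  have h4 : lineC Z x y ≤ 2 * dn a (Z.filter fun x => x ∈ A) +
      2 * dn b (Z.filter fun x => x ∉ A) := h3.trans (Nat.add_le_add h1 h2)
  rw [mul_add]
  convert h4

/-- the complexity function of two families of centres -/
theorem cx_Tab {a b : Fin k → E 2} (i₀ : Fin k) (ha : DetAll a) (hb : DetAll b)
    (A P : Finset (E 2)) : Cx P (Tab a b A) := by
  classical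
  refine ⟨?_, ?_, ?_, ?_, ?_⟩
  · intro Z Z' h
    unfold Tab
    exact Nat.add_le_add (dn_mono a (Finset.filter_subset_filter _ h))
      (dn_mono b (Finset.filter_subset_filter _ h))
  · rintro Z ⟨x, hx⟩
    unfold Tab
    by_cases h : x ∈ A
    · exact Nat.add_pos_left (dn_pos a i₀ ⟨x, Finset.mem_filter.2 ⟨hx, h⟩⟩) _
    · exact Nat.add_pos_right _ (dn_pos b i₀ ⟨x, Finset.mem_filter.2 ⟨hx, h⟩⟩)
  · intro Z x y hxy
    exact lineC_le_Tab a b i₀ A Z hxy
  · intro J f Z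
    unfold Tab
    rw [Finset.sum_add_distrib, mul_add]
    refine Nat.add_le_add ?_ ?_
    · convert sum_dn_filter a f Z (fun x => x ∈ A)
    · convert sum_dn_filter b f Z (fun x => x ∉ A)
  · intro X _ Y _ B
    exact sep_Tab ha hb A X Y B

end cplx

section flags

open Finset
open Vale.Agent.P054.T2.H686 (E edges mem_edges)
open Vale.Agent.P054.T2.H269 (edges₀ mem_edges₀ edges₀_subset lineCard lineCard_eq)
open Vale.Agent.P054.T3.H190 (W adjE card_le_mul_W card_line_le)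

variable {n : ℕ}

/-- Cauchy–Schwarz on a set of pairs on poor lines -/
theorem card_sq_le_edges₀ (P : Finset (E n)) (C : ℕ) (G : Finset (E n × E n)) (Ds : Finset ℝ)
    (hGs : ∀ p ∈ G, p.1 ∈ P ∧ p.2 ∈ P ∧ p.1 ≠ p.2 ∧ lineCard P p.1 p.2 ≤ C)
    (hD : ∀ p ∈ G, dist p.1 p.2 ∈ Ds) :
    G.card ^ 2 ≤ Ds.card * (edges₀ P C).card := by
  classical
  set f : E n × E n → ℝ := fun p => dist p.1 p.2 with hf
  have h2 : G.card = ∑ r ∈ Ds, (G.filter fun p => f p = r).card := by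
    refine Finset.card_eq_sum_card_fiberwise ?_
    intro p hp
    exact hD p hp
  have h3 : (∑ r ∈ Ds, (G.filter fun p => f p = r).card) ^ 2 ≤
      Ds.card * ∑ r ∈ Ds, (G.filter fun p => f p = r).card ^ 2 :=
    sq_sum_le_card_mul_sum_sq
  rw [h2]
  refine h3.trans (Nat.mul_le_mul_left _ ?_)
  have h4 : ∀ r ∈ Ds, (G.filter fun p => f p = r).card ^ 2 =
      ((G.filter fun p => f p = r) ×ˢ (G.filter fun p => f p = r)).card := by
    intro r _
    rw [Finset.card_product, sq]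
  rw [Finset.sum_congr rfl h4, ← Finset.card_biUnion]
  · refine Finset.card_le_card_of_injOn (fun q => ((q.1.1, q.2.1), (q.1.2, q.2.2))) ?_ ?_
    · intro q hq
      simp only [Finset.coe_biUnion, Finset.mem_coe, Set.mem_iUnion, Finset.mem_product,
        Finset.mem_filter, exists_prop] at hq
      obtain ⟨r, hr, ⟨h5, h8⟩, ⟨h9, h12⟩⟩ := hq
      have h5' := hGs _ h5
      have h9' := hGs _ h9
      simp only [Finset.mem_coe]
      rw [mem_edges₀, mem_edges]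
      exact ⟨⟨⟨⟨h5'.1, h9'.1⟩, ⟨h5'.2.1, h9'.2.1⟩⟩, h5'.2.2.1, h8.trans h12.symm⟩,
        h5'.2.2.2, h9'.2.2.2⟩
    · intro q _ q' _ h
      simp only [Prod.mk.injEq] at h
      obtain ⟨⟨h1, h2⟩, ⟨h3, h4⟩⟩ := h
      exact Prod.ext (Prod.ext h1 h3) (Prod.ext h2 h4)
  · intro r _ r' _ hne
    rw [Function.onFun, Finset.disjoint_left]
    intro q hq hq'
    simp only [Finset.mem_product, Finset.mem_filter] at hq hq'
    exact hne (hq.1.2.symm.trans hq'.1.2)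

theorem edges₀_le_W (P : Finset (E n)) (C : ℕ) :
    (edges₀ P C).card ≤ C * W adjE (P ×ˢ P) := by
  classical
  refine card_le_mul_W (P ×ˢ P) (edges₀ P C) ?_ ?_
  · intro p hp
    obtain ⟨⟨⟨a1, a2⟩, a3, a4⟩, a5⟩ := mem_edges.1 (edges₀_subset P _ hp)
    exact ⟨⟨Finset.mem_product.2 ⟨a1, a2⟩, Finset.mem_product.2 ⟨a3, a4⟩⟩, a5⟩
  · intro s r₀ R h0 hR
    have h3 := mem_edges₀.1 h0
    have h4 := mem_edges.1 h3.1
    refine (card_line_le h4.2.1 R ?_).trans h3.2.1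
    intro r hr
    obtain ⟨h5, h6⟩ := hR r hr
    exact ⟨(mem_edges.1 (edges₀_subset P _ h5)).1.2.1, h6⟩

/-- **many flags from a dense graph with few lengths** -/
theorem flags_of_dense {δ : ℝ} (hδ : 0 < δ) : ∃ (A : ℕ) (Λ : ℝ), 1 ≤ A ∧ 0 < Λ ∧
    ∀ (P : Finset (E n)) (G : Finset (E n × E n)) (Ds : Finset ℝ) (L : ℕ),
      (∀ p ∈ G, p.1 ∈ P ∧ p.2 ∈ P ∧ p.1 ≠ p.2) → (∀ p ∈ G, dist p.1 p.2 ∈ Ds) →
      δ * (P.card : ℝ) ^ 2 ≤ G.card → (∀ p ∈ P.offDiag, lineCard P p.1 p.2 ≤ L) →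
      Λ * (L : ℝ) ^ 2 ≤ (P.card : ℝ) ^ 2 →
      P.card ^ 4 ≤ A * Ds.card * W adjE (P ×ˢ P) := by
  classical
  obtain ⟨m, hm⟩ := pow_unbounded_of_one_lt (144 / δ) (one_lt_two (α := ℝ))
  set C : ℕ := 4 * (8 * 2 ^ m + 1) with hC
  refine ⟨⌈4 * (C : ℝ) / δ ^ 2⌉₊ + 1, 32 * 2 ^ m / δ, by omega, by positivity,
    fun P G Ds L hG hD hd hL hΛ => ?_⟩
  have h1 := Vale.Agent.P054.T3.H109.card_rich_pairs P L hL m
  set R := P.offDiag.filter fun p => 4 * (8 * 2 ^ m + 1) ≤ lineCard P p.1 p.2 with hR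
  set N : ℝ := (P.card : ℝ) with hN
  have hN0 : 0 ≤ N := Nat.cast_nonneg _
  have h2m : (0 : ℝ) < 2 ^ m := by positivity
  have h2m1 : (1 : ℝ) ≤ 2 ^ m := one_le_pow₀ (by norm_num)
  have hR1 : (R.card : ℝ) ≤ δ / 2 * N ^ 2 := by
    have h2 : (4 : ℝ) ^ m * R.card ≤ 4 * (8 * 2 ^ m + 1) * N ^ 2 + 4 ^ m * (8 * 2 ^ m * L ^ 2) := by
      rw [hN]
      exact_mod_cast h1
    have h4 : (4 : ℝ) ^ m = 2 ^ m * 2 ^ m := by rw [← mul_pow]; norm_num
    have h3 : 4 * (8 * (2 : ℝ) ^ m + 1) * N ^ 2 ≤ 4 ^ m * (δ / 4 * N ^ 2) := by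
      have h5 : 144 ≤ 2 ^ m * δ := by
        have := hm.le
        rwa [div_le_iff₀ hδ] at this
      have h6 : 4 * (8 * (2 : ℝ) ^ m + 1) ≤ 4 ^ m * (δ / 4) := by
        rw [h4]
        nlinarith
      calc 4 * (8 * (2 : ℝ) ^ m + 1) * N ^ 2 ≤ (4 ^ m * (δ / 4)) * N ^ 2 := by gcongr
        _ = _ := by ring
    have h5 : 8 * (2 : ℝ) ^ m * L ^ 2 ≤ δ / 4 * N ^ 2 := by
      have h6 : 32 * 2 ^ m / δ * (L : ℝ) ^ 2 * (δ / 4) ≤ N ^ 2 * (δ / 4) := by gcongr
      have h7 : 32 * 2 ^ m / δ * (L : ℝ) ^ 2 * (δ / 4) = 8 * (2 : ℝ) ^ m * L ^ 2 := by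
        field_simp
        ring
      linarith
    have h6 : (4 : ℝ) ^ m * R.card ≤ 4 ^ m * (δ / 2 * N ^ 2) := by
      have h7 : (4 : ℝ) ^ m * (8 * 2 ^ m * L ^ 2) ≤ 4 ^ m * (δ / 4 * N ^ 2) := by gcongr
      linarith
    exact le_of_mul_le_mul_left h6 (by positivity)
  set G' := G.filter fun p => lineCard P p.1 p.2 ≤ C with hG'
  have hsub : G ⊆ G' ∪ R := by
    intro p hp
    rw [mem_union]
    by_cases h : lineCard P p.1 p.2 ≤ C
    · exact Or.inl (mem_filter.2 ⟨hp, h⟩)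
    · right
      obtain ⟨a1, a2, a3⟩ := hG p hp
      exact mem_filter.2 ⟨mem_offDiag.2 ⟨a1, a2, a3⟩, by omega⟩
  have hG1 : δ / 2 * N ^ 2 ≤ G'.card := by
    have h2 : (G.card : ℝ) ≤ G'.card + R.card := by
      exact_mod_cast (card_le_card hsub).trans (card_union_le _ _)
    linarith
  have h3 := card_sq_le_edges₀ P C G' Ds (fun p hp => by
    obtain ⟨h4, h5⟩ := mem_filter.1 hp
    obtain ⟨a1, a2, a3⟩ := hG p h4
    exact ⟨a1, a2, a3, h5⟩) (fun p hp => hD p (mem_filter.1 hp).1)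
  have h4 : G'.card ^ 2 ≤ Ds.card * (C * W adjE (P ×ˢ P)) :=
    h3.trans (Nat.mul_le_mul_left _ (edges₀_le_W P C))
  have h5 : (G'.card : ℝ) ^ 2 ≤ Ds.card * (C * (W adjE (P ×ˢ P) : ℝ)) := by exact_mod_cast h4
  have h6 : (δ / 2 * N ^ 2) ^ 2 ≤ (G'.card : ℝ) ^ 2 := by gcongr
  have h7 : N ^ 4 ≤ 4 * (C : ℝ) / δ ^ 2 * (Ds.card * (W adjE (P ×ˢ P) : ℝ)) := by
    rw [div_mul_eq_mul_div, le_div_iff₀ (by positivity)]
    nlinarith
  have h8 : 4 * (C : ℝ) / δ ^ 2 ≤ ((⌈4 * (C : ℝ) / δ ^ 2⌉₊ + 1 : ℕ) : ℝ) := by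
    push_cast
    have := Nat.le_ceil (4 * (C : ℝ) / δ ^ 2)
    linarith
  have h9 : N ^ 4 ≤ ((⌈4 * (C : ℝ) / δ ^ 2⌉₊ + 1 : ℕ) : ℝ) * Ds.card * (W adjE (P ×ˢ P) : ℝ) := by
    refine h7.trans ?_
    rw [mul_assoc]
    gcongr
  rw [hN] at h9
  exact_mod_cast h9

end flags

section centres

open Finset Module
open Vale.Agent.P054.T2.H686 (E)

/-- one more centre outside a small forbidden set -/
theorem drc_step {V : Type*} [DecidableEq V] (P : Finset V) (G₀ G : Finset (V × V))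
    (hG : G ⊆ G₀) (hGP : ∀ e ∈ G, e.1 ∈ P ∧ e.2 ∈ P) (F : Finset V) {δ : ℝ} (hδ : 0 < δ)
    (hP : P.Nonempty) (hd : δ * (P.card : ℝ) ^ 2 ≤ G.card)
    (hF : (F.card : ℝ) ≤ δ ^ 2 / 2 * P.card) :
    ∃ a ∈ P, a ∉ F ∧
      δ ^ 2 / 4 * (P.card : ℝ) ^ 2 ≤ (G.filter fun e => (a, e.2) ∈ G₀).card := by
  set N : ℝ := (P.card : ℝ) with hN
  have hN0 : 0 < N := by rw [hN]; exact_mod_cast hP.card_pos
  set deg : V → ℕ := fun y => (G.filter fun e => e.2 = y).card with hdeg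
  have h1 : G.card = ∑ y ∈ P, deg y :=
    Finset.card_eq_sum_card_fiberwise (fun e he => (hGP e he).2)
  have h2 : ∀ y, deg y ≤ (P.filter fun a => (a, y) ∈ G₀).card := by
    intro y
    refine Finset.card_le_card_of_injOn Prod.fst ?_ ?_
    · intro e he
      obtain ⟨h3, h4⟩ := mem_filter.1 (mem_coe.1 he)
      refine mem_coe.2 (mem_filter.2 ⟨(hGP e h3).1, ?_⟩)
      rw [← h4]
      exact hG h3
    · intro e he e' he' h
      have h3 := (mem_filter.1 (mem_coe.1 he)).2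
      have h4 := (mem_filter.1 (mem_coe.1 he')).2
      exact Prod.ext h (h3.trans h4.symm)
  have h3 : ∑ a ∈ P, (G.filter fun e => (a, e.2) ∈ G₀).card =
      ∑ e ∈ G, (P.filter fun a => (a, e.2) ∈ G₀).card := by
    simp only [Finset.card_filter]
    exact Finset.sum_comm
  have h4 : ∑ y ∈ P, deg y ^ 2 ≤ ∑ e ∈ G, (P.filter fun a => (a, e.2) ∈ G₀).card := by
    have h5 : ∑ e ∈ G, deg e.2 = ∑ y ∈ P, deg y ^ 2 := by
      rw [← Finset.sum_fiberwise_of_maps_to (s := G) (t := P) (g := fun e => e.2)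
        (fun e he => (hGP e he).2)]
      refine Finset.sum_congr rfl fun y _ => ?_
      rw [Finset.sum_congr rfl (g := fun _ => deg y) (fun e he => by rw [(mem_filter.1 he).2]),
        Finset.sum_const, smul_eq_mul, sq]
    rw [← h5]
    exact Finset.sum_le_sum fun e _ => h2 e.2
  have h5 : G.card ^ 2 ≤ P.card * ∑ y ∈ P, deg y ^ 2 := by
    rw [h1]
    exact sq_sum_le_card_mul_sum_sq
  have h6 : G.card ^ 2 ≤ P.card * ∑ a ∈ P, (G.filter fun e => (a, e.2) ∈ G₀).card := by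
    rw [h3]
    exact h5.trans (Nat.mul_le_mul_left _ h4)
  have h7 : (G.card : ℝ) ^ 2 ≤ N * ∑ a ∈ P, ((G.filter fun e => (a, e.2) ∈ G₀).card : ℝ) := by
    rw [hN]
    exact_mod_cast h6
  have hGN : (G.card : ℝ) ≤ N ^ 2 := by
    have h8 : G ⊆ P ×ˢ P := fun e he => mem_product.2 (hGP e he)
    have h9 := card_le_card h8
    rw [card_product] at h9
    rw [hN, sq]
    exact_mod_cast h9
  by_contra hcon
  push Not at hcon
  have h8 : ∀ a ∈ P, ((G.filter fun e => (a, e.2) ∈ G₀).card : ℝ) ≤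
      δ ^ 2 / 4 * N ^ 2 + if a ∈ F then N ^ 2 else 0 := by
    intro a ha
    split_ifs with h
    · have h9 : ((G.filter fun e => (a, e.2) ∈ G₀).card : ℝ) ≤ G.card := by
        exact_mod_cast card_le_card (filter_subset _ _)
      have : 0 ≤ δ ^ 2 / 4 * N ^ 2 := by positivity
      linarith
    · have := hcon a ha h
      linarith
  have h9 : ∑ a ∈ P, ((G.filter fun e => (a, e.2) ∈ G₀).card : ℝ) ≤
      N * (δ ^ 2 / 4 * N ^ 2) + F.card * N ^ 2 := by
    refine (Finset.sum_le_sum h8).trans ?_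
    rw [Finset.sum_add_distrib, Finset.sum_const, nsmul_eq_mul, ← Finset.sum_filter,
      Finset.sum_const, nsmul_eq_mul]
    have h10 : ((P.filter fun a => a ∈ F).card : ℝ) ≤ F.card := by
      exact_mod_cast card_le_card (fun a ha => (mem_filter.1 ha).2)
    have h11 : ((P.filter fun a => a ∈ F).card : ℝ) * N ^ 2 ≤ F.card * N ^ 2 := by gcongr
    linarith
  have h10 : (δ * N ^ 2) ^ 2 ≤ (G.card : ℝ) ^ 2 := by gcongr
  have h11 : (F.card : ℝ) * N ^ 2 ≤ δ ^ 2 / 2 * N * N ^ 2 := by gcongr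
  have h12 : (δ * N ^ 2) ^ 2 ≤ N * (N * (δ ^ 2 / 4 * N ^ 2) + δ ^ 2 / 2 * N * N ^ 2) := by
    refine h10.trans (h7.trans ?_)
    gcongr
    linarith
  have h13 : 0 < δ ^ 2 * N ^ 4 := by positivity
  nlinarith

variable {n : ℕ}

/-- the directions orthogonal to all differences of centres -/
def Vs {k : ℕ} (a : Fin k → E n) : Submodule ℝ (E n) where
  carrier := {v | ∀ i j, inner ℝ v (a i) = inner ℝ v (a j)}
  add_mem' := by
    intro v w hv hw i j
    rw [inner_add_left, inner_add_left, hv i j, hw i j]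
  zero_mem' := by
    intro i j
    rw [inner_zero_left, inner_zero_left]
  smul_mem' := by
    intro c v hv i j
    rw [real_inner_smul_left, real_inner_smul_left, hv i j]

theorem detAll_of_Vs {k : ℕ} {a : Fin k → E n} (h : Vs a = ⊥) : DetAll a := by
  intro x x' hx
  have h1 : ∀ i, inner ℝ (x - x') (a i) = (‖x‖ ^ 2 - ‖x'‖ ^ 2) / 2 := by
    intro i
    have h2 : ‖x - a i‖ ^ 2 = ‖x' - a i‖ ^ 2 := by
      rw [← dist_eq_norm, ← dist_eq_norm, hx i]
    rw [norm_sub_sq_real, norm_sub_sq_real] at h2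
    rw [inner_sub_left]
    linarith
  have h2 : x - x' ∈ Vs a := by
    intro i j
    rw [h1 i, h1 j]
  rw [h, Submodule.mem_bot] at h2
  exact sub_eq_zero.1 h2

theorem Vs_cons_le {k : ℕ} (x : E n) (a : Fin k → E n) :
    Vs (Fin.cons x a : Fin (k + 1) → E n) ≤ Vs a := by
  intro v hv i j
  have := hv i.succ j.succ
  simpa using this

open scoped Classical in
/-- centres one after the other -/
theorem drc_seq (k : ℕ) {δ : ℝ} (hδ : 0 < δ) : ∃ δ' ρ : ℝ, 0 < δ' ∧ 0 < ρ ∧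
    ∀ (P : Finset (E n)) (G₀ G : Finset (E n × E n)), G ⊆ G₀ → (∀ e ∈ G, e.1 ∈ P ∧ e.2 ∈ P) →
      P.Nonempty → δ * (P.card : ℝ) ^ 2 ≤ G.card →
      (∀ v : E n, v ≠ 0 → ∀ c : ℝ,
        ((P.filter fun x => inner ℝ v x = c).card : ℝ) ≤ ρ * P.card) →
      ∃ (a : Fin (k + 1) → E n) (G' : Finset (E n × E n)), G' ⊆ G ∧
        δ' * (P.card : ℝ) ^ 2 ≤ G'.card ∧ (∀ e ∈ G', ∀ i, (a i, e.2) ∈ G₀) ∧
        finrank ℝ (Vs a) ≤ n + 1 - k := by
  induction k with
  | zero =>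
    refine ⟨δ ^ 2 / 4, 1, by positivity, one_pos, fun P G₀ G hG hGP hP hd _ => ?_⟩
    obtain ⟨x, -, -, hx⟩ := drc_step P G₀ G hG hGP ∅ hδ hP hd (by
      rw [card_empty, Nat.cast_zero]; positivity)
    refine ⟨fun _ => x, _, filter_subset _ _, hx, fun e he _ => (mem_filter.1 he).2, ?_⟩
    refine (Submodule.finrank_le _).trans ?_
    rw [finrank_euclideanSpace, Fintype.card_fin]
    omega
  | succ k ih =>
    obtain ⟨δ', ρ, hδ', hρ, ih⟩ := ih
    refine ⟨δ' ^ 2 / 4, min ρ (δ' ^ 2 / 2), by positivity, lt_min hρ (by positivity),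
      fun P G₀ G hG hGP hP hd hpl => ?_⟩
    have hN0 : (0 : ℝ) ≤ P.card := Nat.cast_nonneg _
    obtain ⟨a, G', h1, h2, h3, h4⟩ := ih P G₀ G hG hGP hP hd (fun v hv c =>
      (hpl v hv c).trans (mul_le_mul_of_nonneg_right (min_le_left _ _) hN0))
    have key : ∀ F : Finset (E n), (F.card : ℝ) ≤ δ' ^ 2 / 2 * P.card →
        (∀ x, x ∉ F → x ∈ P → finrank ℝ (Vs (Fin.cons x a : Fin (k + 1 + 1) → E n)) ≤
          n + 1 - (k + 1)) →
        ∃ (a : Fin (k + 1 + 1) → E n) (G' : Finset (E n × E n)), G' ⊆ G ∧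
          δ' ^ 2 / 4 * (P.card : ℝ) ^ 2 ≤ G'.card ∧ (∀ e ∈ G', ∀ i, (a i, e.2) ∈ G₀) ∧
          finrank ℝ (Vs a) ≤ n + 1 - (k + 1) := by
      intro F hF hV
      obtain ⟨x, hxP, hxF, hx⟩ := drc_step P G₀ G' (h1.trans hG) (fun e he => hGP e (h1 he)) F
        hδ' hP h2 hF
      refine ⟨Fin.cons x a, _, (filter_subset _ _).trans h1, hx, ?_, hV x hxF hxP⟩
      intro e he i
      obtain ⟨h5, h6⟩ := mem_filter.1 he
      refine Fin.cases ?_ (fun j => ?_) i
      · simpa using h6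
      · simpa using h3 e h5 j
    by_cases hbot : Vs a = ⊥
    · refine key ∅ (by rw [card_empty, Nat.cast_zero]; positivity) fun x _ _ => ?_
      have h5 := Submodule.finrank_mono (Vs_cons_le x a)
      rw [hbot, finrank_bot] at h5
      omega
    · obtain ⟨v, hv, hv0⟩ := Submodule.exists_mem_ne_zero_of_ne_bot hbot
      refine key (P.filter fun x => inner ℝ v x = inner ℝ v (a 0))
        ((hpl v hv0 _).trans (mul_le_mul_of_nonneg_right (min_le_right _ _) hN0))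
        fun x hxF hxP => ?_
      have h5 : Vs (Fin.cons x a : Fin (k + 1 + 1) → E n) < Vs a := by
        refine lt_of_le_of_ne (Vs_cons_le x a) fun h => hxF ?_
        rw [← h] at hv
        have h6 := hv 0 (Fin.succ 0)
        simp only [Fin.cons_zero, Fin.cons_succ] at h6
        exact mem_filter.2 ⟨hxP, h6⟩
      have h6 := Submodule.finrank_lt_finrank_of_lt h5
      omega

open scoped Classical in
/-- **two families of centres**: a dense subgraph whose first points see the `a i` and whose second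
points see the `b i` at distances of the graph -/
theorem exists_centres {δ : ℝ} (hδ : 0 < δ) : ∃ δ' ρ : ℝ, 0 < δ' ∧ 0 < ρ ∧
    ∀ (P : Finset (E n)) (G : Finset (E n × E n)) (Ds : Finset ℝ),
      (∀ e ∈ G, e.1 ∈ P ∧ e.2 ∈ P ∧ e.1 ≠ e.2) → (∀ e ∈ G, dist e.1 e.2 ∈ Ds) →
      P.Nonempty → δ * (P.card : ℝ) ^ 2 ≤ G.card →
      (∀ v : E n, v ≠ 0 → ∀ c : ℝ,
        ((P.filter fun x => inner ℝ v x = c).card : ℝ) ≤ ρ * P.card) →
      ∃ (a b : Fin (n + 2) → E n) (H : Finset (E n × E n)), DetAll a ∧ DetAll b ∧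
        (∀ e ∈ H, e.1 ∈ P ∧ e.2 ∈ P ∧ e.1 ≠ e.2) ∧ (∀ e ∈ H, dist e.1 e.2 ∈ Ds) ∧
        δ' * (P.card : ℝ) ^ 2 ≤ H.card ∧
        (∀ e ∈ H, ∀ i, dist e.1 (a i) ∈ Ds) ∧ (∀ e ∈ H, ∀ i, dist e.2 (b i) ∈ Ds) := by
  obtain ⟨δ₁, ρ₁, hδ₁, hρ₁, h₁⟩ := drc_seq (n := n) (n + 1) hδ
  obtain ⟨δ₂, ρ₂, hδ₂, hρ₂, h₂⟩ := drc_seq (n := n) (n + 1) hδ₁
  refine ⟨δ₂, min ρ₁ ρ₂, hδ₂, lt_min hρ₁ hρ₂, fun P G Ds hG hD hP hd hpl => ?_⟩
  have hN0 : (0 : ℝ) ≤ P.card := Nat.cast_nonneg _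
  set G₀ := (P ×ˢ P).filter fun e => dist e.1 e.2 ∈ Ds with hG₀
  obtain ⟨a, G₁, a1, a2, a3, a4⟩ := h₁ P G₀ G (fun e he =>
      mem_filter.2 ⟨mem_product.2 ⟨(hG e he).1, (hG e he).2.1⟩, hD e he⟩)
    (fun e he => ⟨(hG e he).1, (hG e he).2.1⟩) hP hd (fun v hv c =>
      (hpl v hv c).trans (mul_le_mul_of_nonneg_right (min_le_left _ _) hN0))
  have hsw : ∀ e ∈ G₁.image Prod.swap, e.swap ∈ G₁ := by
    intro e he
    obtain ⟨e', he', rfl⟩ := mem_image.1 he
    simpa using he'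
  obtain ⟨b, G₂, b1, b2, b3, b4⟩ := h₂ P G₀ (G₁.image Prod.swap) (fun e he => by
      have h3 := hG _ (a1 (hsw e he))
      have h4 := hD _ (a1 (hsw e he))
      refine mem_filter.2 ⟨mem_product.2 ⟨h3.2.1, h3.1⟩, ?_⟩
      rw [dist_comm]
      exact h4)
    (fun e he => by
      have h3 := hG _ (a1 (hsw e he))
      exact ⟨h3.2.1, h3.1⟩) hP (by
      rw [card_image_of_injective _ Prod.swap_injective]
      exact a2) (fun v hv c =>
      (hpl v hv c).trans (mul_le_mul_of_nonneg_right (min_le_right _ _) hN0))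
  refine ⟨a, b, G₂, detAll_of_Vs (Submodule.finrank_eq_zero.1 (by omega)),
    detAll_of_Vs (Submodule.finrank_eq_zero.1 (by omega)), ?_, ?_, b2, ?_, ?_⟩
  · intro e he
    have h3 := hG _ (a1 (hsw e (b1 he)))
    exact ⟨h3.2.1, h3.1, fun h => h3.2.2 h.symm⟩
  · intro e he
    have h4 := hD _ (a1 (hsw e (b1 he)))
    rw [dist_comm]
    exact h4
  · intro e he i
    have h3 := (mem_filter.1 (a3 _ (hsw e (b1 he)) i)).2
    rw [dist_comm]
    exact h3
  · intro e he i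
    have h3 := (mem_filter.1 (b3 e he i)).2
    rw [dist_comm]
    exact h3

end centres

end Vale.Agent.N054
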