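import Vale.Agent.N054.Cplx3

set_option autoImplicit false
set_option linter.all false

/-!
# Dense graphs on points of space have many distinct edge lengths
-/

namespace Vale.Agent.N054

open Finset Module MvPolynomial Filter
open Vale.Agent.P054.T2.H686 (E)
open Vale.Agent.P054.T2.H269 (lineCard lineCard_eq onLine)
open Vale.Agent.P054.T3.H109.Gen (lineC lineC_eq onL)
open Vale.Agent.P054.T3.H190 (W adjE)
open Vale.Agent.P054.T3.H533 (dn)

theorem lineCard_eq_lineC {n : ℕ} (P : Finset (E n)) (x y : E n) : lineCard P x y = lineC P x y := by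
  classical
  rw [lineCard_eq, lineC_eq]
  congr 1

/-- the polynomial of a plane -/
theorem exists_plane_poly {n : ℕ} (v : E n) (hv : v ≠ 0) (c : ℝ) :
    ∃ f : MvPolynomial (Fin (n + 1)) ℝ, f ≠ 0 ∧ f.totalDegree ≤ 1 ∧
      ∀ x : E n, eval (fun i => x i) f = inner ℝ v x - c := by
  have he : ∀ x : E n, eval (fun i => x i)
      ((∑ i : Fin (n + 1), C (v i) * X i) - C c : MvPolynomial (Fin (n + 1)) ℝ) = inner ℝ v x - c := by
    intro x
    rw [map_sub, map_sum, eval_C, PiLp.inner_apply]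
    congr 1
    refine Finset.sum_congr rfl fun i _ => ?_
    rw [map_mul, eval_C, eval_X]
    simp [mul_comm]
  refine ⟨(∑ i : Fin (n + 1), C (v i) * X i) - C c, ?_, ?_, he⟩
  · intro h
    have h1 := he 0
    have h2 := he v
    rw [h, map_zero] at h1 h2
    rw [inner_zero_right] at h1
    have h3 : inner ℝ v v = (0 : ℝ) := by linarith
    exact hv (inner_self_eq_zero.1 h3)
  · refine (totalDegree_sub _ _).trans (max_le ?_ (by rw [totalDegree_C]; exact Nat.zero_le _))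
    refine (totalDegree_finset_sum _ _).trans (Finset.sup_le fun i _ => ?_)
    refine (totalDegree_mul _ _).trans ?_
    rw [totalDegree_C, zero_add]
    exact (totalDegree_X _).le

theorem dn_le_of_mem {n k : ℕ} (a : Fin k → E n) (Z : Finset (E n)) (Ds : Finset ℝ)
    (h : ∀ x ∈ Z, ∀ i, dist x (a i) ∈ Ds) : dn a Z ≤ k * Ds.card := by
  classical
  unfold dn
  calc ∑ i, (Z.image fun x => dist x (a i)).card ≤ ∑ _i : Fin k, Ds.card := by
        refine Finset.sum_le_sum fun i _ => Finset.card_le_card ?_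
        intro r hr
        obtain ⟨x, hx, rfl⟩ := mem_image.1 hr
        exact h x hx i
    _ = k * Ds.card := by rw [Finset.sum_const, Finset.card_univ, Fintype.card_fin, smul_eq_mul]

/-- the parameter `t` which belongs to the number of points -/
theorem exists_param {K N : ℝ} (hK : 0 < K) (hN : 0 ≤ N) {u : ℕ} (hu : 2 ≤ u)
    (h : (u : ℝ) ≤ (N / K) ^ (2 / 3 : ℝ)) :
    ∃ t : ℕ, u ≤ t ∧ K * (t : ℝ) ^ (3 / 2 : ℝ) ≤ N ∧ N ≤ 2 * (K * (t : ℝ) ^ (3 / 2 : ℝ)) := by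
  set y : ℝ := (N / K) ^ (2 / 3 : ℝ) with hy
  have hy0 : 0 ≤ y := by positivity
  have hy3 : y ^ (3 / 2 : ℝ) = N / K := by
    rw [hy, ← Real.rpow_mul (by positivity)]
    norm_num
  have h1 : u ≤ ⌊y⌋₊ := Nat.le_floor h
  have h2 : (⌊y⌋₊ : ℝ) ≤ y := Nat.floor_le hy0
  have h3 : y < ⌊y⌋₊ + 1 := Nat.lt_floor_add_one y
  have h4 : (2 : ℝ) ≤ ⌊y⌋₊ := by exact_mod_cast hu.trans h1
  refine ⟨⌊y⌋₊, h1, ?_, ?_⟩
  · have h5 : (⌊y⌋₊ : ℝ) ^ (3 / 2 : ℝ) ≤ y ^ (3 / 2 : ℝ) :=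
      Real.rpow_le_rpow (by positivity) h2 (by norm_num)
    rw [hy3, le_div_iff₀ hK] at h5
    linarith
  · have h5 : y ^ (3 / 2 : ℝ) ≤ (3 / 2 * (⌊y⌋₊ : ℝ)) ^ (3 / 2 : ℝ) :=
      Real.rpow_le_rpow hy0 (by linarith) (by norm_num)
    rw [hy3, Real.mul_rpow (by norm_num) (by positivity), div_le_iff₀ hK] at h5
    have h6 : (3 / 2 : ℝ) ^ (3 / 2 : ℝ) ≤ 2 := by
      have h7 : ((3 / 2 : ℝ) ^ (3 / 2 : ℝ)) ^ 2 ≤ 2 ^ 2 := by
        rw [← Real.rpow_natCast, ← Real.rpow_mul (by norm_num)]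
        norm_num
      exact le_of_sq_le_sq h7 (by norm_num) |>.trans le_rfl
    have h7 : (0 : ℝ) ≤ (⌊y⌋₊ : ℝ) ^ (3 / 2 : ℝ) * K := by positivity
    nlinarith

theorem exists_large_pow {η A : ℝ} (hη : 0 < η) :
    ∃ n₀ : ℕ, 1 ≤ n₀ ∧ ∀ n : ℕ, n₀ ≤ n → A < (n : ℝ) ^ η := by
  have h1 := (tendsto_rpow_atTop hη).comp tendsto_natCast_atTop_atTop
  have h2 := h1.eventually_gt_atTop A
  rw [Filter.eventually_atTop] at h2
  obtain ⟨n₀, h⟩ := h2
  exact ⟨max n₀ 1, le_max_right _ _, fun n hn => h n ((le_max_left _ _).trans hn)⟩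

open scoped Classical in
/-- **dense graphs**, for `η ≤ 1` and a finite set of lengths -/
theorem dense_fin : ∃ D : ℕ, ∀ δ η : ℝ, 0 < δ → 0 < η → η ≤ 1 → ∃ c : ℝ, 0 < c ∧
    ∀ (P : Finset (E 2)),
      (∀ f : MvPolynomial (Fin 3) ℝ, f ≠ 0 → f.totalDegree ≤ D →
        ((P.filter fun p => eval (fun i => p i) f = 0).card : ℝ) ≤ (P.card : ℝ) ^ (1 - η)) →
      ∀ (G : Finset (E 2 × E 2)) (Ds : Finset ℝ),
        (∀ e ∈ G, e.1 ∈ P ∧ e.2 ∈ P ∧ e.1 ≠ e.2) → (∀ e ∈ G, dist e.1 e.2 ∈ Ds) →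
        δ * (P.card : ℝ) ^ 2 ≤ G.card → c * (P.card : ℝ) ^ (2 / 3 : ℝ) ≤ Ds.card := by
  obtain ⟨D, hD⟩ := step3_all
  refine ⟨max D 1, fun δ η hδ hη hη1 => ?_⟩
  obtain ⟨K₀, hK₀⟩ := hD (η / 2) (by linarith)
  set K : ℝ := max K₀ 1 with hK
  have hK1 : 1 ≤ K := le_max_right _ _
  have hK0 : 0 < K := by linarith
  obtain ⟨t₀, ht₀⟩ := hK₀ K (le_max_left _ _) hK1
  obtain ⟨δ₁, ρ, hδ₁, hρ, hcen⟩ := exists_centres (n := 2) hδ
  set δ' : ℝ := min δ₁ 1 with hδ'
  have hδ'0 : 0 < δ' := lt_min hδ₁ one_pos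
  have hδ'1 : δ' ≤ 1 := min_le_right _ _
  obtain ⟨A, Λ, hA, hΛ, hfl⟩ := flags_of_dense (n := 2) hδ'0
  set s : ℝ := √δ' with hs
  have hs0 : 0 < s := Real.sqrt_pos.2 hδ'0
  have hs1 : s ≤ 1 := Real.sqrt_le_one.2 hδ'1
  obtain ⟨n₁, hn₁, hn₁'⟩ := exists_large_pow (A := 1 / ρ) hη
  obtain ⟨n₂, -, hn₂'⟩ := exists_large_pow (η := η / 2) (A := 1 / s) (by linarith)
  set n₀ : ℕ := max n₁ n₂ with hn₀
  have hn₀1 : (1 : ℝ) ≤ n₀ := by exact_mod_cast hn₁.trans (le_max_left _ _)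
  set t₁ : ℕ := t₀ + 2 + ⌈256 * Λ⌉₊ with ht₁
  set M : ℕ := A * t₁ with hM
  have hM2 : 2 ≤ M := by
    have : 1 * t₁ ≤ A * t₁ := Nat.mul_le_mul_right _ hA
    omega
  have hM0 : (0 : ℝ) < M := by exact_mod_cast (by omega : 0 < M)
  set κ : ℝ := (s / K) ^ (2 / 3 : ℝ) with hκ
  have hκ0 : 0 < κ := by positivity
  refine ⟨min (1 / n₀) (κ / M), lt_min (by positivity) (by positivity),
    fun P hyp G Ds hG hDs hd => ?_⟩
  rcases P.eq_empty_or_nonempty with rfl | hP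
  · rw [card_empty, Nat.cast_zero, Real.zero_rpow (by norm_num), mul_zero]
    exact Nat.cast_nonneg _
  set N : ℝ := (P.card : ℝ) with hN
  have hN1 : 1 ≤ N := by rw [hN]; exact_mod_cast hP.card_pos
  have hN0 : 0 < N := by linarith
  have hGne : G.Nonempty := by
    rw [← card_pos]
    have : (0 : ℝ) < G.card := lt_of_lt_of_le (by positivity) hd
    exact_mod_cast this
  have ht1 : 1 ≤ Ds.card := by
    obtain ⟨e, he⟩ := hGne
    exact card_pos.2 ⟨_, hDs e he⟩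
  have ht1r : (1 : ℝ) ≤ Ds.card := by exact_mod_cast ht1
  rcases Nat.lt_or_ge P.card n₀ with hsmall | hlarge
  · have h1 : N ^ (2 / 3 : ℝ) ≤ n₀ := by
      calc N ^ (2 / 3 : ℝ) ≤ N ^ (1 : ℝ) := Real.rpow_le_rpow_of_exponent_le hN1 (by norm_num)
        _ = N := Real.rpow_one _
        _ ≤ n₀ := by rw [hN]; exact_mod_cast hsmall.le
    calc min (1 / (n₀ : ℝ)) (κ / M) * N ^ (2 / 3 : ℝ) ≤ 1 / n₀ * n₀ :=
          mul_le_mul (min_le_left _ _) h1 (by positivity) (by positivity)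
      _ = 1 := by field_simp
      _ ≤ _ := ht1r
  by_contra hcon
  push Not at hcon
  -- planes
  have hpl : ∀ v : E 2, v ≠ 0 → ∀ c : ℝ,
      ((P.filter fun x => inner ℝ v x = c).card : ℝ) ≤ ρ * N := by
    intro v hv c
    obtain ⟨f, f1, f2, f3⟩ := exists_plane_poly v hv c
    have h1 := hyp f f1 (f2.trans (le_max_right _ _))
    have h2 : (P.filter fun x => inner ℝ v x = c) = P.filter fun p => eval (fun i => p i) f = 0 := by
      refine Finset.filter_congr fun x _ => ?_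
      rw [f3, sub_eq_zero]
    rw [h2]
    refine h1.trans ?_
    have h3 := hn₁' P.card ((le_max_left _ _).trans hlarge)
    rw [← hN, div_lt_iff₀ hρ] at h3
    have h4 : N ^ (1 - η) * N ^ η = N := by
      rw [← Real.rpow_add hN0]
      norm_num
    have h5 : 0 < N ^ (1 - η) := by positivity
    nlinarith
  obtain ⟨a, b, H, ha, hb, hH, hHD, hHd, hHa, hHb⟩ := hcen P G Ds hG hDs hP hd hpl
  set A₁ : Finset (E 2) := H.image Prod.fst with hA₁
  set Q : Finset (E 2) := H.image Prod.fst ∪ H.image Prod.snd with hQ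
  have hQP : Q ⊆ P := by
    intro x hx
    rcases mem_union.1 hx with h | h
    · obtain ⟨e, he, rfl⟩ := mem_image.1 h
      exact (hH e he).1
    · obtain ⟨e, he, rfl⟩ := mem_image.1 h
      exact (hH e he).2.1
  have hHQ : ∀ e ∈ H, e.1 ∈ Q ∧ e.2 ∈ Q ∧ e.1 ≠ e.2 := fun e he =>
    ⟨mem_union_left _ (mem_image_of_mem _ he), mem_union_right _ (mem_image_of_mem _ he),
      (hH e he).2.2⟩
  set N' : ℝ := (Q.card : ℝ) with hN'
  have hN'0 : 0 ≤ N' := Nat.cast_nonneg _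
  have hN'N : N' ≤ N := by rw [hN', hN]; exact_mod_cast card_le_card hQP
  have hHd' : δ' * N ^ 2 ≤ H.card :=
    (mul_le_mul_of_nonneg_right (min_le_left _ _) (by positivity)).trans hHd
  have hsN : s * N ≤ N' := by
    have h1 : H ⊆ Q ×ˢ Q := fun e he => mem_product.2 ⟨(hHQ e he).1, (hHQ e he).2.1⟩
    have h2 := card_le_card h1
    rw [card_product] at h2
    have h3 : (H.card : ℝ) ≤ N' ^ 2 := by rw [hN', sq]; exact_mod_cast h2
    have h4 : (s * N) ^ 2 ≤ N' ^ 2 := by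
      rw [mul_pow, hs, Real.sq_sqrt hδ'0.le]
      exact hHd'.trans h3
    exact le_of_sq_le_sq h4 hN'0 |>.trans le_rfl
  have hN'pos : 0 < N' := lt_of_lt_of_le (by positivity) hsN
  -- the complexity
  have hcx : Cx Q (Tab a b A₁) := cx_Tab (0 : Fin 4) ha hb A₁ Q
  have hT : Tab a b A₁ Q ≤ 8 * Ds.card := by
    have h1 : dn a (Q.filter fun x => x ∈ A₁) ≤ 4 * Ds.card := by
      refine dn_le_of_mem a _ Ds fun x hx i => ?_
      obtain ⟨e, he, rfl⟩ := mem_image.1 (mem_filter.1 hx).2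
      exact hHa e he i
    have h2 : dn b (Q.filter fun x => x ∉ A₁) ≤ 4 * Ds.card := by
      refine dn_le_of_mem b _ Ds fun x hx i => ?_
      obtain ⟨h3, h4⟩ := mem_filter.1 hx
      obtain ⟨e, he, rfl⟩ := mem_image.1 ((mem_union.1 h3).resolve_left h4)
      exact hHb e he i
    have h3 : Tab a b A₁ Q = dn a (Q.filter fun x => x ∈ A₁) + dn b (Q.filter fun x => x ∉ A₁) := by
      unfold Tab
      congr!
    omega
  -- the parameter
  have hMt : ((M * Ds.card : ℕ) : ℝ) ≤ (N' / K) ^ (2 / 3 : ℝ) := by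
    have h1 : (Ds.card : ℝ) < κ / M * N ^ (2 / 3 : ℝ) :=
      hcon.trans_le (mul_le_mul_of_nonneg_right (min_le_right _ _) (by positivity))
    have h2 : κ * N ^ (2 / 3 : ℝ) ≤ (N' / K) ^ (2 / 3 : ℝ) := by
      rw [hκ, ← Real.mul_rpow (by positivity) hN0.le]
      refine Real.rpow_le_rpow (by positivity) ?_ (by norm_num)
      rw [div_mul_eq_mul_div]
      gcongr
    rw [div_mul_eq_mul_div, lt_div_iff₀ hM0] at h1
    push_cast
    linarith
  have hMt2 : M ≤ M * Ds.card := Nat.le_mul_of_pos_right _ ht1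
  obtain ⟨t, h1, h2, h3⟩ := exists_param hK0 hN'0 (hM2.trans hMt2) hMt
  have ht₁t : t₁ ≤ t := by
    have : 1 * t₁ ≤ A * t₁ := Nat.mul_le_mul_right _ hA
    omega
  have hAt : A * Ds.card ≤ t := by
    refine le_trans ?_ h1
    rw [hM]
    exact Nat.mul_le_mul_right _ (Nat.le_mul_of_pos_right _ (by omega))
  have hDt : Ds.card ≤ t := by
    refine le_trans ?_ hAt
    exact Nat.le_mul_of_pos_left _ hA
  have htr : (1 : ℝ) ≤ t := by exact_mod_cast (by omega : 1 ≤ t)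
  have ht0 : (0 : ℝ) < t := by linarith
  have e32 : (((2 + 1 : ℕ) : ℝ) / 2) = 3 / 2 := by norm_num
  refine ht₀ t (by omega) (by omega) Q (Tab a b A₁) ⟨hcx, by omega, ?_, ?_⟩ (by rw [e32]; exact h2)
    (by rw [e32]; exact h3)
  · have h4 := hfl Q H Ds (16 * t) hHQ hHD
      ((mul_le_mul_of_nonneg_left (pow_le_pow_left₀ hN'0 hN'N 2) hδ'0.le).trans hHd')
      (fun p hp => by
        rw [lineCard_eq_lineC]
        refine (hcx.line Q _ _ (mem_offDiag.1 hp).2.2).trans ?_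
        omega) (by
        have h5 : (t : ℝ) ^ (3 / 2 : ℝ) ≤ N' :=
          (le_mul_of_one_le_left (by positivity) hK1).trans h2
        have h6 : ((t : ℝ) ^ (3 / 2 : ℝ)) ^ 2 = (t : ℝ) ^ 3 := by
          rw [← Real.rpow_natCast, ← Real.rpow_mul ht0.le, ← Real.rpow_natCast]; norm_num
        have h7 : (t : ℝ) ^ 3 ≤ N' ^ 2 := by
          rw [← h6]
          gcongr
        have h8 : 256 * Λ ≤ t := by
          refine (Nat.le_ceil _).trans ?_
          exact_mod_cast (by omega : ⌈256 * Λ⌉₊ ≤ t)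
        refine le_trans ?_ h7
        push_cast
        calc Λ * (16 * (t : ℝ)) ^ 2 = (256 * Λ) * (t : ℝ) ^ 2 := by ring
          _ ≤ t * (t : ℝ) ^ 2 := by gcongr
          _ = _ := by ring)
    refine h4.trans ?_
    calc A * Ds.card * W adjE (Q ×ˢ Q) ≤ t * W adjE (Q ×ˢ Q) := Nat.mul_le_mul_right _ hAt
      _ ≤ _ := Nat.le_mul_of_pos_left _ (by positivity)
  · intro f hf hfd
    have h4 := hyp f hf (hfd.trans (le_max_left _ _))
    have h5 : ((Q.filter fun p => eval (fun i => p i) f = 0).card : ℝ) ≤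
        (P.filter fun p => eval (fun i => p i) f = 0).card := by
      exact_mod_cast card_le_card (filter_subset_filter _ hQP)
    refine lt_of_le_of_lt (h5.trans h4) ?_
    have h6 := hn₂' P.card ((le_max_right _ _).trans hlarge)
    rw [← hN, div_lt_iff₀ hs0] at h6
    have h7 : (s * N) ^ (1 - η / 2) ≤ N' ^ (1 - η / 2) :=
      Real.rpow_le_rpow (by positivity) hsN (by linarith)
    refine lt_of_lt_of_le ?_ h7
    rw [Real.mul_rpow hs0.le hN0.le]
    have h8 : s ≤ s ^ (1 - η / 2) := by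
      calc s = s ^ (1 : ℝ) := (Real.rpow_one _).symm
        _ ≤ _ := Real.rpow_le_rpow_of_exponent_ge hs0 hs1 (by linarith)
    have h9 : N ^ (1 - η / 2) = N ^ (η / 2) * N ^ (1 - η) := by
      rw [← Real.rpow_add hN0]
      congr 1
      ring
    have h10 : 0 < N ^ (1 - η) := by positivity
    calc N ^ (1 - η) = 1 * N ^ (1 - η) := (one_mul _).symm
      _ < (N ^ (η / 2) * s) * N ^ (1 - η) := by gcongr
      _ = s * N ^ (1 - η / 2) := by rw [h9]; ring
      _ ≤ _ := by gcongr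

theorem ncard_lengths {d : ℕ} (G : Finset (EuclideanSpace ℝ (Fin d) × EuclideanSpace ℝ (Fin d))) :
    {r : ℝ | ∃ e ∈ G, r = dist e.1 e.2}.ncard = (G.image fun e => dist e.1 e.2).card := by
  rw [← Set.ncard_coe_finset]
  congr 1
  ext r
  simp only [Set.mem_setOf_eq, Finset.coe_image, Set.mem_image, Finset.mem_coe]
  exact ⟨fun ⟨e, h1, h2⟩ => ⟨e, h1, h2.symm⟩, fun ⟨e, h1, h2⟩ => ⟨e, h1, h2.symm⟩⟩

open scoped Classical in
theorem ncard_zeros {d : ℕ} (P : Finset (EuclideanSpace ℝ (Fin d))) (f : MvPolynomial (Fin d) ℝ) :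
    {p : EuclideanSpace ℝ (Fin d) | p ∈ P ∧ eval (fun i => p i) f = 0}.ncard =
      (P.filter fun p => eval (fun i => p i) f = 0).card := by
  rw [← Set.ncard_coe_finset]
  congr 1
  ext p
  simp

/-- **dense graphs on sets with few points on every surface of bounded degree** -/
theorem dense_three : ∃ D : ℕ, ∀ δ η : ℝ, 0 < δ → 0 < η → ∃ c : ℝ, 0 < c ∧
    ∀ P : Finset (EuclideanSpace ℝ (Fin 3)),
      (∀ f : MvPolynomial (Fin 3) ℝ, f ≠ 0 → f.totalDegree ≤ D →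
        ({p : EuclideanSpace ℝ (Fin 3) | p ∈ P ∧
          MvPolynomial.eval (fun i => p i) f = 0}.ncard : ℝ) ≤ (P.card : ℝ) ^ (1 - η)) →
      ∀ G : Finset (EuclideanSpace ℝ (Fin 3) × EuclideanSpace ℝ (Fin 3)),
        (∀ e ∈ G, e.1 ∈ P ∧ e.2 ∈ P ∧ e.1 ≠ e.2) → δ * (P.card : ℝ) ^ 2 ≤ G.card →
        c * (P.card : ℝ) ^ (2 / 3 : ℝ) ≤ ({r : ℝ | ∃ e ∈ G, r = dist e.1 e.2}.ncard : ℝ) := by
  classical
  obtain ⟨D, hD⟩ := dense_fin
  refine ⟨D, fun δ η hδ hη => ?_⟩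
  obtain ⟨c, hc, h⟩ := hD δ (min η 1) hδ (lt_min hη one_pos) (min_le_right _ _)
  refine ⟨c, hc, fun P hyp G hG hd => ?_⟩
  rw [ncard_lengths]
  refine h P (fun f hf hfd => ?_) G _ hG (fun e he => mem_image_of_mem _ he) hd
  have h1 := hyp f hf hfd
  rw [ncard_zeros] at h1
  rcases P.eq_empty_or_nonempty with rfl | hP
  · rw [filter_empty, card_empty, Nat.cast_zero]
    exact Real.rpow_nonneg le_rfl _
  · have hN1 : (1 : ℝ) ≤ P.card := by exact_mod_cast hP.card_pos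
    refine le_trans (le_of_eq ?_) (h1.trans (Real.rpow_le_rpow_of_exponent_le hN1 ?_))
    · congr!
    · have := min_le_left η 1
      linarith

/-- **dense graphs, all sets**: many lengths, or one point with more than `n^(2/3)` distances -/
theorem dense_or_pinned : ∃ η : ℝ, 0 < η ∧ ∀ δ : ℝ, 0 < δ → ∃ c : ℝ, 0 < c ∧
    ∀ (P : Finset (EuclideanSpace ℝ (Fin 3)))
      (G : Finset (EuclideanSpace ℝ (Fin 3) × EuclideanSpace ℝ (Fin 3))),
      (∀ e ∈ G, e.1 ∈ P ∧ e.2 ∈ P ∧ e.1 ≠ e.2) → δ * (P.card : ℝ) ^ 2 ≤ G.card →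
      c * (P.card : ℝ) ^ (2 / 3 : ℝ) ≤ ({r : ℝ | ∃ e ∈ G, r = dist e.1 e.2}.ncard : ℝ) ∨
      ∃ p ∈ P, c * (P.card : ℝ) ^ (2 / 3 + η) ≤
        ({r : ℝ | ∃ q ∈ P, q ≠ p ∧ r = dist p q}.ncard : ℝ) := by
  classical
  obtain ⟨D, hD⟩ := dense_three
  obtain ⟨η, hη, hH⟩ := Vale.Agent.P054.H978.hypersurfaces 3 le_rfl
  obtain ⟨c₂, hc₂, hH⟩ := hH (max (D : ℝ) 1)
  refine ⟨η, hη, fun δ hδ => ?_⟩
  obtain ⟨c₁, hc₁, h₁⟩ := hD δ η hδ hη
  refine ⟨min c₁ c₂, lt_min hc₁ hc₂, fun P G hG hd => ?_⟩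
  have hN0 : (0 : ℝ) ≤ P.card := Nat.cast_nonneg _
  by_cases hyp : ∀ f : MvPolynomial (Fin 3) ℝ, f ≠ 0 → f.totalDegree ≤ D →
      ({p : EuclideanSpace ℝ (Fin 3) | p ∈ P ∧
        MvPolynomial.eval (fun i => p i) f = 0}.ncard : ℝ) ≤ (P.card : ℝ) ^ (1 - η)
  · left
    exact (mul_le_mul_of_nonneg_right (min_le_left _ _) (by positivity)).trans (h₁ P hyp G hG hd)
  · push Not at hyp
    obtain ⟨f, hf, hfd, hz⟩ := hyp
    rcases G.eq_empty_or_nonempty with rfl | ⟨e, he⟩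
    · left
      have h1 : (P.card : ℝ) = 0 := by
        rw [card_empty, Nat.cast_zero] at hd
        have h2 : (P.card : ℝ) ^ 2 ≤ 0 := by
          by_contra h3
          push Not at h3
          have := mul_pos hδ h3
          linarith
        exact pow_eq_zero_iff (two_ne_zero) |>.1 (le_antisymm h2 (by positivity))
      rw [h1, Real.zero_rpow (by norm_num), mul_zero]
      exact Nat.cast_nonneg _
    · right
      obtain ⟨e1, e2, e3⟩ := hG e he
      have hP2 : 2 ≤ P.card := Finset.one_lt_card.2 ⟨_, e1, _, e2, e3⟩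
      have hN1 : (1 : ℝ) ≤ P.card := by exact_mod_cast (by omega : 1 ≤ P.card)
      have hK1 : (1 : ℝ) ≤ max (D : ℝ) 1 := le_max_right _ _
      obtain ⟨p, hp, -, h2⟩ := hH P f hP2 hf (by
        have h3 : (f.totalDegree : ℝ) ≤ max (D : ℝ) 1 :=
          le_trans (by exact_mod_cast hfd) (le_max_left _ _)
        exact h3.trans (le_mul_of_one_le_right (by linarith) (Real.one_le_rpow hN1 hη.le)))
        (hz.le.trans (le_mul_of_one_le_left (Nat.cast_nonneg _) hK1))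
      refine ⟨p, hp, le_trans ?_ h2⟩
      have e : (2 / ((3 : ℕ) : ℝ) + η) = 2 / 3 + η := by norm_num
      rw [e]
      exact mul_le_mul_of_nonneg_right (min_le_right _ _) (by positivity)

end Vale.Agent.N054
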