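import Vale.Agent.N054.DenseN

set_option autoImplicit false
set_option linter.all false

/-!
# Dense graphs in all dimensions; distances with exceptional pairs
-/

namespace Vale.Agent.N054

open Finset Module MvPolynomial Filter
open Vale.Agent.P054.T2.H686 (E)

/-- a set in a flat of dimension at most `m` has an isometric copy in `ℝ^m` -/
theorem exists_iso_map {V : Type*} [NormedAddCommGroup V] [InnerProductSpace ℝ V]
    [FiniteDimensional ℝ V] {m : ℕ} (U : Submodule ℝ V) (hU : finrank ℝ U ≤ m) (S : Finset V)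
    (hS : ∀ x ∈ S, ∀ y ∈ S, x - y ∈ U) :
    ∃ f : V → EuclideanSpace ℝ (Fin m), ∀ p ∈ S, ∀ q ∈ S, dist (f p) (f q) = dist p q := by
  classical
  rcases S.eq_empty_or_nonempty with rfl | ⟨p₀, hp₀⟩
  · exact ⟨fun _ => 0, by simp⟩
  set b := stdOrthonormalBasis ℝ U with hb
  set w := EuclideanSpace.basisFun (Fin m) ℝ with hw
  set g : U →ₗ[ℝ] EuclideanSpace ℝ (Fin m) :=
    b.toBasis.constr ℝ (fun i => w (Fin.castLE hU i)) with hg
  have hgo : Orthonormal ℝ (g ∘ b.toBasis) := by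
    have h1 : (g ∘ b.toBasis) = w ∘ Fin.castLE hU := by
      funext i
      simp only [Function.comp, hg, Basis.constr_basis]
    rw [h1]
    exact w.orthonormal.comp _ (Fin.castLE_injective hU)
  set F := g.isometryOfOrthonormal (v := b.toBasis) (by simpa using b.orthonormal) hgo with hF
  refine ⟨fun p => if h : p - p₀ ∈ U then F ⟨p - p₀, h⟩ else 0, fun p hp q hq => ?_⟩
  simp only []
  rw [dif_pos (hS p hp p₀ hp₀), dif_pos (hS q hq p₀ hp₀), F.dist_map, Subtype.dist_eq,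
    dist_sub_right]

theorem injOn_of_dist {V V' : Type*} [MetricSpace V] [MetricSpace V'] {f : V → V'} {S : Finset V}
    (h : ∀ p ∈ S, ∀ q ∈ S, dist (f p) (f q) = dist p q) : Set.InjOn f (S : Set V) := by
  intro p hp q hq hpq
  have h1 := h p hp q hq
  rw [hpq, dist_self] at h1
  exact dist_eq_zero.mp h1.symm

theorem finite_pinned {V : Type*} [MetricSpace V] (P : Finset V) (p : V) :
    {r : ℝ | ∃ q ∈ P, q ≠ p ∧ r = dist p q}.Finite := by
  refine (P.finite_toSet.image fun q => dist p q).subset ?_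
  rintro r ⟨q, hq, -, rfl⟩
  exact ⟨q, hq, rfl⟩

/-- points in planes, from the pinned bound in the plane -/
theorem fb_plane_of_pinned (n : ℕ) {ε : ℝ} (hε : 0 < ε) : ∃ C : ℝ, 1 ≤ C ∧
    ∀ (P : Finset (E n)) (τ : ℝ), 1 ≤ τ →
      (∀ p ∈ P, ({r : ℝ | ∃ q ∈ P, q ≠ p ∧ r = dist p q}.ncard : ℝ) ≤ τ) →
      FB P 2 (C * τ ^ (1 + ε)) := by
  classical
  obtain ⟨C, hC⟩ := Vale.Agent.P041Z.few_poor hε
  refine ⟨max C 1, le_max_right _ _, fun P τ hτ hP U hU S hS hSU => ?_⟩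
  obtain ⟨f, hf⟩ := exists_iso_map U hU S hSU
  have hinj := injOn_of_dist hf
  have h1 := hC (S.image f) τ hτ
  rw [Finset.filter_true_of_mem, card_image_of_injOn hinj] at h1
  · refine h1.trans (mul_le_mul_of_nonneg_right (le_max_left _ _) (by positivity))
  · intro x hx
    obtain ⟨p, hp, rfl⟩ := mem_image.1 hx
    refine le_trans ?_ (hP p (hS hp))
    rw [← Set.ncard_coe_finset]
    refine Nat.cast_le.2 (Set.ncard_le_ncard ?_ (finite_pinned P p))
    intro r hr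
    obtain ⟨y, hy, rfl⟩ := mem_image.1 (mem_coe.1 hr)
    obtain ⟨hy1, hy2⟩ := mem_erase.1 hy
    obtain ⟨q, hq, rfl⟩ := mem_image.1 hy2
    refine ⟨q, hS hq, fun h => hy1 (by rw [h]), ?_⟩
    rw [hf q hq p hp, dist_comm]

/-- the three alternatives -/
def Tri (d : ℕ) (η δ A c : ℝ) : Prop :=
  ∀ (P : Finset (EuclideanSpace ℝ (Fin d)))
    (G : Finset (EuclideanSpace ℝ (Fin d) × EuclideanSpace ℝ (Fin d))),
    (∀ e ∈ G, e.1 ∈ P ∧ e.2 ∈ P ∧ e.1 ≠ e.2) → δ * (P.card : ℝ) ^ 2 ≤ G.card →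
    c * (P.card : ℝ) ^ (2 / (d : ℝ)) ≤ ({r : ℝ | ∃ e ∈ G, r = dist e.1 e.2}.ncard : ℝ) ∨
    (∃ p ∈ P, c * (P.card : ℝ) ^ (2 / (d : ℝ) + η) ≤
      ({r : ℝ | ∃ q ∈ P, q ≠ p ∧ r = dist p q}.ncard : ℝ)) ∨
    ∃ σ : ℕ, 2 ≤ σ ∧ 2 * σ < d ∧ ∃ U : Submodule ℝ (EuclideanSpace ℝ (Fin d)),
      finrank ℝ U ≤ 2 * σ ∧ ∃ S ⊆ P, (∀ x ∈ S, ∀ y ∈ S, x - y ∈ U) ∧
        A * (P.card : ℝ) ^ (((2 * σ : ℕ) : ℝ) / (d : ℝ)) < S.card

theorem tri_four {n : ℕ} (hn : 3 ≤ n) : ∃ η : ℝ, 0 < η ∧ ∀ δ A : ℝ, 0 < δ →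
    ∃ c : ℝ, 0 < c ∧ Tri (n + 1) η δ A c := by
  classical
  obtain ⟨η₀, hη₀, hH⟩ := Vale.Agent.P054.H978.hypersurfaces (n + 1) (by omega)
  obtain ⟨c₂, hc₂, hH⟩ := hH 1
  set η₁ : ℝ := min η₀ 1 with hη₁
  have hη₁0 : 0 < η₁ := lt_min hη₀ one_pos
  have hη₁1 : η₁ ≤ 1 := min_le_right _ _
  have hη₁₀ : η₁ ≤ η₀ := min_le_left _ _
  set κ : ℝ := kap n η₁ with hκ
  have hκ0 : 0 < κ := kap_pos n hη₁0
  have hκ1 : κ ≤ 1 / 8 := kap_le n η₁
  obtain ⟨C, hC1, hC⟩ := fb_plane_of_pinned n (ε := κ / 2) (by linarith)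
  set η : ℝ := min η₁ (κ / 4) with hη
  have hη0 : 0 < η := lt_min hη₁0 (by linarith)
  have hηη : η ≤ η₁ := min_le_left _ _
  have hηκ : η ≤ κ / 4 := min_le_right _ _
  refine ⟨η, hη0, fun δ A hδ => ?_⟩
  set A' : ℝ := max (max A 1) C with hA'
  have hA1 : 1 ≤ A' := (le_max_right _ _).trans (le_max_left _ _)
  have hAA : A ≤ A' := (le_max_left _ _).trans (le_max_left _ _)
  have hCA : C ≤ A' := le_max_right _ _
  obtain ⟨c₁, hc₁, h₁⟩ := dense_finN hn hδ hη₁0 hη₁1 hA1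
  refine ⟨min (min c₁ c₂) 1, lt_min (lt_min hc₁ hc₂) one_pos, fun P G hG hd => ?_⟩
  set c : ℝ := min (min c₁ c₂) 1 with hc
  have hcc₁ : c ≤ c₁ := (min_le_left _ _).trans (min_le_left _ _)
  have hcc₂ : c ≤ c₂ := (min_le_left _ _).trans (min_le_right _ _)
  have hc1 : c ≤ 1 := min_le_right _ _
  set d : ℝ := ((n + 1 : ℕ) : ℝ) with hdd
  have hd4 : 4 ≤ d := by rw [hdd]; exact_mod_cast (by omega : 4 ≤ n + 1)
  have hd0 : 0 < d := by linarith
  have h2d : 2 / d ≤ 1 / 2 := by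
    rw [div_le_iff₀ hd0]
    linarith
  have h2d0 : 0 < 2 / d := by positivity
  rcases G.eq_empty_or_nonempty with rfl | ⟨e, he⟩
  · left
    have h1 : (P.card : ℝ) = 0 := by
      rw [card_empty, Nat.cast_zero] at hd
      have h2 : (P.card : ℝ) ^ 2 ≤ 0 := by
        by_contra h3
        push Not at h3
        have := mul_pos hδ h3
        linarith
      exact pow_eq_zero_iff (two_ne_zero) |>.1 (le_antisymm h2 (by positivity))
    rw [h1, Real.zero_rpow h2d0.ne', mul_zero]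
    exact Nat.cast_nonneg _
  obtain ⟨e1, e2, e3⟩ := hG e he
  have hP2 : 2 ≤ P.card := Finset.one_lt_card.2 ⟨_, e1, _, e2, e3⟩
  set N : ℝ := (P.card : ℝ) with hN
  have hN1 : 1 ≤ N := by rw [hN]; exact_mod_cast (by omega : 1 ≤ P.card)
  have hN0 : 0 < N := by linarith
  by_cases hp : ∃ p ∈ P, c * N ^ (2 / d + η) ≤
      ({r : ℝ | ∃ q ∈ P, q ≠ p ∧ r = dist p q}.ncard : ℝ)
  · exact Or.inr (Or.inl hp)
  push Not at hp
  by_cases hf : ∃ σ : ℕ, 2 ≤ σ ∧ 2 * σ < n + 1 ∧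
      ∃ U : Submodule ℝ (EuclideanSpace ℝ (Fin (n + 1))),
      finrank ℝ U ≤ 2 * σ ∧ ∃ S ⊆ P, (∀ x ∈ S, ∀ y ∈ S, x - y ∈ U) ∧
        A * N ^ (((2 * σ : ℕ) : ℝ) / d) < S.card
  · exact Or.inr (Or.inr hf)
  push Not at hf
  left
  rw [ncard_lengths]
  refine (mul_le_mul_of_nonneg_right hcc₁ (by positivity)).trans
    (h₁ P ?_ ?_ ?_ G _ hG (fun e he => mem_image_of_mem _ he) hd)
  · intro f hf0 hfd
    by_contra hcon
    push Not at hcon
    have hz : N ^ (1 - η₀) ≤ 1 * ({p : EuclideanSpace ℝ (Fin (n + 1)) | p ∈ P ∧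
        MvPolynomial.eval (fun i => p i) f = 0}.ncard : ℝ) := by
      rw [ncard_zeros, one_mul]
      refine le_trans (Real.rpow_le_rpow_of_exponent_le hN1 (by linarith)) (hcon.le.trans ?_)
      exact le_of_eq (by congr!)
    obtain ⟨p, hp1, -, hp2⟩ := hH P f hP2 hf0 (by
      rw [one_mul]
      exact hfd.trans (Real.rpow_le_rpow_of_exponent_le hN1 hη₁₀)) hz
    have h3 := hp p hp1
    have h4 : c * N ^ (2 / d + η) ≤ c₂ * N ^ (2 / d + η₀) :=
      mul_le_mul hcc₂ (Real.rpow_le_rpow_of_exponent_le hN1 (by linarith)) (by positivity) hc₂.le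
    exact absurd (hp2.trans_lt h3) (not_lt.2 h4)
  · have h2 := hC P (N ^ (2 / d + η)) (Real.one_le_rpow hN1 (by linarith)) (fun p hp1 =>
      (hp p hp1).le.trans (mul_le_of_le_one_left (by positivity) hc1))
    refine h2.mono le_rfl (mul_le_mul hCA ?_ (by positivity) (by linarith))
    rw [← Real.rpow_mul hN0.le]
    refine Real.rpow_le_rpow_of_exponent_le hN1 ?_
    have h3 : (2 / d + η) * (κ / 2) ≤ 1 * (κ / 2) :=
      mul_le_mul_of_nonneg_right (by linarith) (by linarith)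
    nlinarith
  · intro σ hσ hσn U hU S hS hSU
    exact (hf σ hσ (by omega) U hU S hS hSU).trans
      (mul_le_mul_of_nonneg_right hAA (by positivity))

/-- **the three alternatives**, all dimensions `d ≥ 3` -/
theorem tri_all (d : ℕ) (hd : 3 ≤ d) : ∃ η : ℝ, 0 < η ∧ ∀ δ A : ℝ, 0 < δ →
    ∃ c : ℝ, 0 < c ∧ Tri d η δ A c := by
  rcases Nat.lt_or_ge d 4 with h4 | h4
  · have : d = 3 := by omega
    subst this
    obtain ⟨η, hη, h⟩ := dense_or_pinned
    refine ⟨η, hη, fun δ A hδ => ?_⟩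
    obtain ⟨c, hc, h⟩ := h δ hδ
    refine ⟨c, hc, fun P G hG hd => ?_⟩
    have e : (2 / ((3 : ℕ) : ℝ)) = 2 / 3 := by norm_num
    rw [e]
    rcases h P G hG hd with h1 | h1
    · exact Or.inl h1
    · exact Or.inr (Or.inl h1)
  · obtain ⟨n, rfl⟩ : ∃ n, d = n + 1 := ⟨d - 1, by omega⟩
    exact tri_four (by omega)

/-- extension of a subspace to a prescribed dimension -/
theorem exists_le_finrank_eq {V : Type*} [AddCommGroup V] [Module ℝ V] [Module.Finite ℝ V]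
    (U : Submodule ℝ V) (m : ℕ) (h1 : finrank ℝ U ≤ m) (h2 : m ≤ finrank ℝ V) :
    ∃ U' : Submodule ℝ V, U ≤ U' ∧ finrank ℝ U' = m := by
  induction m with
  | zero => exact ⟨U, le_rfl, by omega⟩
  | succ m ih =>
    rcases Nat.lt_or_ge (finrank ℝ U) (m + 1) with h | h
    · obtain ⟨U', h3, h4⟩ := ih (by omega) (by omega)
      have h5 : U' ≠ ⊤ := by
        intro h5
        rw [h5, finrank_top] at h4
        omega
      obtain ⟨v, -, hv⟩ := SetLike.exists_of_lt (lt_top_iff_ne_top.2 h5)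
      refine ⟨U' ⊔ Submodule.span ℝ {v}, h3.trans le_sup_left, ?_⟩
      rw [Submodule.finrank_sup_span_singleton hv, h4]
    · exact ⟨U, le_rfl, by omega⟩

/-- **dense graphs**: many lengths, or a point with more than `n^(2/d)` distances, or a rich flat of
even dimension `4 ≤ m < d` -/
theorem trichotomy (d : ℕ) (hd : 3 ≤ d) : ∃ η : ℝ, 0 < η ∧ ∀ δ : ℝ, 0 < δ → ∀ A : ℝ,
    ∃ c : ℝ, 0 < c ∧ ∀ (P : Finset (EuclideanSpace ℝ (Fin d)))
      (G : Finset (EuclideanSpace ℝ (Fin d) × EuclideanSpace ℝ (Fin d))),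
      (∀ e ∈ G, e.1 ∈ P ∧ e.2 ∈ P ∧ e.1 ≠ e.2) → δ * (P.card : ℝ) ^ 2 ≤ G.card →
      c * (P.card : ℝ) ^ (2 / (d : ℝ)) ≤ ({r : ℝ | ∃ e ∈ G, r = dist e.1 e.2}.ncard : ℝ) ∨
      (∃ p ∈ P, c * (P.card : ℝ) ^ (2 / (d : ℝ) + η) ≤
        ({r : ℝ | ∃ q ∈ P, q ≠ p ∧ r = dist p q}.ncard : ℝ)) ∨
      ∃ (m : ℕ) (F : AffineSubspace ℝ (EuclideanSpace ℝ (Fin d))), Even m ∧ 4 ≤ m ∧ m < d ∧
        finrank ℝ F.direction = m ∧ A * (P.card : ℝ) ^ ((m : ℝ) / (d : ℝ)) <
          ({p : EuclideanSpace ℝ (Fin d) | p ∈ P ∧ p ∈ F}.ncard : ℝ) := by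
  obtain ⟨η, hη, h⟩ := tri_all d hd
  refine ⟨η, hη, fun δ hδ A => ?_⟩
  obtain ⟨c, hc, h⟩ := h δ (max A 0) hδ
  refine ⟨c, hc, fun P G hG hden => ?_⟩
  rcases h P G hG hden with h1 | h1 | ⟨σ, hσ, hσd, U, hU, S, hS, hSU, h1⟩
  · exact Or.inl h1
  · exact Or.inr (Or.inl h1)
  · right
    right
    obtain ⟨U', hUU, hU'⟩ := exists_le_finrank_eq U (2 * σ) hU (by
      rw [finrank_euclideanSpace, Fintype.card_fin]
      omega)
    have hSne : S.Nonempty := by
      rw [← card_pos]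
      have h2 : (0 : ℝ) < S.card := lt_of_le_of_lt (by positivity) h1
      exact_mod_cast h2
    obtain ⟨p₀, hp₀⟩ := hSne
    refine ⟨2 * σ, AffineSubspace.mk' p₀ U', even_two_mul σ, by omega, hσd,
      by rw [AffineSubspace.direction_mk', hU'], ?_⟩
    refine lt_of_le_of_lt (mul_le_mul_of_nonneg_right (le_max_left A 0) (by positivity))
      (h1.trans_le ?_)
    rw [← Set.ncard_coe_finset]
    refine Nat.cast_le.2 (Set.ncard_le_ncard ?_ (P.finite_toSet.subset fun p hp => hp.1))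
    intro p hp
    exact ⟨hS hp, AffineSubspace.mem_mk'.2 (hUU (hSU p hp p₀ hp₀))⟩

open scoped Classical in
/-- the bound with exceptional pairs -/
def RB (d : ℕ) (η c : ℝ) : Prop :=
  ∀ P : Finset (EuclideanSpace ℝ (Fin d)), 2 ≤ P.card → ∀ Ds : Finset ℝ,
    (∀ p ∈ P, ((P.filter fun q => q ≠ p ∧ dist p q ∉ Ds).card : ℝ) ≤
      c * (P.card : ℝ) ^ (2 / (d : ℝ) + η)) →
    c * (P.card : ℝ) ^ (2 / (d : ℝ)) ≤ Ds.card

theorem RB.mono {d : ℕ} {η c η' c' : ℝ} (h : RB d η c) (hη : η' ≤ η) (hc0 : 0 ≤ c') (hc : c' ≤ c) :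
    RB d η' c' := by
  intro P hP Ds hDs
  have hN1 : (1 : ℝ) ≤ P.card := by exact_mod_cast (by omega : 1 ≤ P.card)
  refine (mul_le_mul_of_nonneg_right hc (by positivity)).trans (h P hP Ds fun p hp => ?_)
  exact (hDs p hp).trans (mul_le_mul hc (Real.rpow_le_rpow_of_exponent_le hN1 (by linarith))
    (by positivity) (hc0.trans hc))

theorem rb_step {d : ℕ} (hd : 3 ≤ d) {η₀ c₀ : ℝ} (hη₀ : 0 < η₀) (hc₀ : 0 < c₀)
    (ih : ∀ m : ℕ, 3 ≤ m → m < d → RB m η₀ c₀) : ∃ η c : ℝ, 0 < η ∧ 0 < c ∧ RB d η c := by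
  classical
  obtain ⟨η₁, hη₁, h⟩ := tri_all d hd
  obtain ⟨c₁, hc₁, h⟩ := h (1 / 4) 1 (by norm_num)
  have hd3 : (3 : ℝ) ≤ d := by exact_mod_cast hd
  have hd0 : (0 : ℝ) < d := by linarith
  have h2d : 2 / (d : ℝ) ≤ 2 / 3 := by
    rw [div_le_iff₀ hd0]
    linarith
  have h2d0 : 0 < 2 / (d : ℝ) := by positivity
  obtain ⟨η, hη0, hη1, hη2, hη3⟩ : ∃ η : ℝ, 0 < η ∧ η ≤ η₁ ∧ η ≤ 1 / 3 ∧ η ≤ η₀ / d :=
    ⟨min (min η₁ (1 / 3)) (η₀ / d), lt_min (lt_min hη₁ (by norm_num)) (by positivity),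
      (min_le_left _ _).trans (min_le_left _ _), (min_le_left _ _).trans (min_le_right _ _),
      min_le_right _ _⟩
  obtain ⟨c, hc0, hc1, hc2, hc3⟩ : ∃ c : ℝ, 0 < c ∧ c ≤ c₁ / 2 ∧ c ≤ 1 / 4 ∧ c ≤ c₀ :=
    ⟨min (min (c₁ / 2) (1 / 4)) c₀, lt_min (lt_min (by linarith) (by norm_num)) hc₀,
      (min_le_left _ _).trans (min_le_left _ _), (min_le_left _ _).trans (min_le_right _ _),
      min_le_right _ _⟩
  refine ⟨η, c, hη0, hc0, fun P hP Ds hDs => ?_⟩
  set N : ℝ := (P.card : ℝ) with hN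
  have hN2 : 2 ≤ N := by rw [hN]; exact_mod_cast hP
  have hN1 : 1 ≤ N := by linarith
  have hN0 : 0 < N := by linarith
  have hs : c * N ^ (2 / (d : ℝ) + η) ≤ N / 4 := by
    have h1 : N ^ (2 / (d : ℝ) + η) ≤ N := by
      calc N ^ (2 / (d : ℝ) + η) ≤ N ^ (1 : ℝ) :=
            Real.rpow_le_rpow_of_exponent_le hN1 (by linarith)
        _ = N := Real.rpow_one _
    calc c * N ^ (2 / (d : ℝ) + η) ≤ 1 / 4 * N := mul_le_mul hc2 h1 (by positivity) (by norm_num)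
      _ = N / 4 := by ring
  set G := (P ×ˢ P).filter fun e => e.1 ≠ e.2 ∧ dist e.1 e.2 ∈ Ds with hG
  have hGP : ∀ e ∈ G, e.1 ∈ P ∧ e.2 ∈ P ∧ e.1 ≠ e.2 := by
    intro e he
    obtain ⟨h1, h2⟩ := mem_filter.1 he
    exact ⟨(mem_product.1 h1).1, (mem_product.1 h1).2, h2.1⟩
  have hden : 1 / 4 * N ^ 2 ≤ G.card := by
    have h1 : G.card = ∑ p ∈ P, (P.filter fun q => p ≠ q ∧ dist p q ∈ Ds).card := by
      rw [hG, card_filter, sum_product]
      refine sum_congr rfl fun p _ => ?_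
      rw [card_filter]
    have h2 : ∀ p ∈ P, N / 4 ≤ ((P.filter fun q => p ≠ q ∧ dist p q ∈ Ds).card : ℝ) := by
      intro p hp
      have h3 : P ⊆ insert p ((P.filter fun q => p ≠ q ∧ dist p q ∈ Ds) ∪
          (P.filter fun q => q ≠ p ∧ dist p q ∉ Ds)) := by
        intro q hq
        by_cases h4 : q = p
        · exact mem_insert.2 (Or.inl h4)
        · refine mem_insert_of_mem (mem_union.2 ?_)
          by_cases h5 : dist p q ∈ Ds
          · exact Or.inl (mem_filter.2 ⟨hq, fun h => h4 h.symm, h5⟩)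
          · exact Or.inr (mem_filter.2 ⟨hq, h4, h5⟩)
      have h4 := (card_le_card h3).trans ((card_insert_le _ _).trans
        (Nat.add_le_add_right (card_union_le _ _) 1))
      have h5 : N ≤ ((P.filter fun q => p ≠ q ∧ dist p q ∈ Ds).card : ℝ) +
          (P.filter fun q => q ≠ p ∧ dist p q ∉ Ds).card + 1 := by
        rw [hN]
        exact_mod_cast h4
      have h6 := (hDs p hp).trans hs
      linarith
    have h3 := Finset.sum_le_sum h2
    rw [sum_const, nsmul_eq_mul, ← hN] at h3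
    rw [h1]
    push_cast
    linarith
  rcases h P G hGP hden with h1 | ⟨p, hp, h1⟩ | ⟨σ, hσ, hσd, U, hU, S, hS, hSU, h1⟩
  · refine (mul_le_mul_of_nonneg_right (by linarith) (by positivity)).trans (h1.trans ?_)
    rw [← Set.ncard_coe_finset]
    refine Nat.cast_le.2 (Set.ncard_le_ncard ?_ Ds.finite_toSet)
    rintro r ⟨e, he, rfl⟩
    exact (mem_filter.1 he).2.2
  · have h2 : ({r : ℝ | ∃ q ∈ P, q ≠ p ∧ r = dist p q}.ncard : ℝ) ≤
        Ds.card + (P.filter fun q => q ≠ p ∧ dist p q ∉ Ds).card := by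
      have h3 : {r : ℝ | ∃ q ∈ P, q ≠ p ∧ r = dist p q} ⊆
          ((Ds ∪ (P.filter fun q => q ≠ p ∧ dist p q ∉ Ds).image fun q => dist p q : Finset ℝ) :
            Set ℝ) := by
        rintro r ⟨q, hq, hqp, rfl⟩
        refine mem_coe.2 (mem_union.2 ?_)
        by_cases h5 : dist p q ∈ Ds
        · exact Or.inl h5
        · exact Or.inr (mem_image.2 ⟨q, mem_filter.2 ⟨hq, hqp, h5⟩, rfl⟩)
      have h4 := Set.ncard_le_ncard h3 (Finset.finite_toSet _)
      rw [Set.ncard_coe_finset] at h4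
      have h5 := h4.trans ((card_union_le _ _).trans (Nat.add_le_add_left card_image_le _))
      exact_mod_cast h5
    have h3 := hDs p hp
    have h4 : N ^ (2 / (d : ℝ) + η) ≤ N ^ (2 / (d : ℝ) + η₁) :=
      Real.rpow_le_rpow_of_exponent_le hN1 (by linarith)
    have h5 : N ^ (2 / (d : ℝ)) ≤ N ^ (2 / (d : ℝ) + η₁) :=
      Real.rpow_le_rpow_of_exponent_le hN1 (by linarith)
    have h6 : c * N ^ (2 / (d : ℝ) + η) ≤ c₁ / 2 * N ^ (2 / (d : ℝ) + η₁) :=
      mul_le_mul hc1 h4 (by positivity) (by linarith)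
    have h7 : c * N ^ (2 / (d : ℝ)) ≤ c₁ / 2 * N ^ (2 / (d : ℝ) + η₁) :=
      mul_le_mul hc1 h5 (by positivity) (by linarith)
    rw [← hN] at h1
    linarith
  · rw [← hN, one_mul] at h1
    set m : ℝ := ((2 * σ : ℕ) : ℝ) with hm
    have hm4 : 4 ≤ m := by rw [hm]; exact_mod_cast (by omega : 4 ≤ 2 * σ)
    have hm0 : 0 < m := by linarith
    obtain ⟨f, hf⟩ := exists_iso_map U hU S hSU
    have hinj := injOn_of_dist hf
    have hcard : (S.image f).card = S.card := card_image_of_injOn hinj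
    have hy1 : 1 ≤ N ^ (m / d) := Real.one_le_rpow hN1 (by positivity)
    have hS2 : 2 ≤ S.card := by
      have h2 : (1 : ℝ) < S.card := hy1.trans_lt h1
      exact_mod_cast h2
    have hS1 : (1 : ℝ) ≤ S.card := by exact_mod_cast (by omega : 1 ≤ S.card)
    have h2 := ih (2 * σ) (by omega) hσd (S.image f) (by rw [hcard]; exact hS2) Ds (by
      intro x hx
      obtain ⟨p, hp, rfl⟩ := mem_image.1 hx
      have h3 : ((S.image f).filter fun q => q ≠ f p ∧ dist (f p) q ∉ Ds) ⊆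
          (P.filter fun q => q ≠ p ∧ dist p q ∉ Ds).image f := by
        intro y hy
        obtain ⟨h4, h5, h6⟩ := mem_filter.1 hy
        obtain ⟨q, hq, rfl⟩ := mem_image.1 h4
        refine mem_image.2 ⟨q, mem_filter.2 ⟨hS hq, fun h => h5 (by rw [h]), ?_⟩, rfl⟩
        rwa [hf p hp q hq] at h6
      have h4 := (card_le_card h3).trans card_image_le
      have h5 : ((((S.image f).filter fun q => q ≠ f p ∧ dist (f p) q ∉ Ds).card : ℕ) : ℝ) ≤
          (P.filter fun q => q ≠ p ∧ dist p q ∉ Ds).card := by exact_mod_cast h4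
      refine le_trans (le_of_eq (by congr!)) (h5.trans ((hDs p (hS hp)).trans ?_))
      rw [hcard, ← hm]
      refine mul_le_mul hc3 ?_ (by positivity) hc₀.le
      have h6 : N ^ (2 / (d : ℝ) + η) = (N ^ (m / d)) ^ (2 / m + η * d / m) := by
        rw [← Real.rpow_mul hN0.le]
        congr 1
        field_simp
      rw [h6]
      have h7 : η * d / m ≤ η₀ := by
        rw [le_div_iff₀ hd0] at hη3
        rw [div_le_iff₀ hm0]
        nlinarith
      calc (N ^ (m / d)) ^ (2 / m + η * d / m) ≤ (S.card : ℝ) ^ (2 / m + η * d / m) :=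
            Real.rpow_le_rpow (by positivity) h1.le (by positivity)
        _ ≤ _ := Real.rpow_le_rpow_of_exponent_le hS1 (by linarith))
    rw [hcard, ← hm] at h2
    refine le_trans (mul_le_mul hc3 ?_ (by positivity) hc₀.le) h2
    have h6 : N ^ (2 / (d : ℝ)) = (N ^ (m / d)) ^ (2 / m) := by
      rw [← Real.rpow_mul hN0.le]
      congr 1
      field_simp
    rw [h6]
    exact Real.rpow_le_rpow (by positivity) h1.le (by positivity)

theorem rb_all (d : ℕ) : ∃ η c : ℝ, 0 < η ∧ 0 < c ∧ ∀ m : ℕ, 3 ≤ m → m < d → RB m η c := by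
  induction d with
  | zero => exact ⟨1, 1, one_pos, one_pos, fun m _ h => by omega⟩
  | succ d ih =>
    obtain ⟨η₀, c₀, hη₀, hc₀, ih⟩ := ih
    rcases Nat.lt_or_ge d 3 with h3 | h3
    · exact ⟨1, 1, one_pos, one_pos, fun m _ h => by omega⟩
    · obtain ⟨η, c, hη, hc, h⟩ := rb_step h3 hη₀ hc₀ ih
      refine ⟨min η₀ η, min c₀ c, lt_min hη₀ hη, lt_min hc₀ hc, fun m hm hmd => ?_⟩
      rcases Nat.lt_or_ge m d with h4 | h4
      · exact (ih m hm h4).mono (min_le_left _ _) (lt_min hc₀ hc).le (min_le_left _ _)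
      · have : m = d := by omega
        subst this
        exact h.mono (min_le_right _ _) (lt_min hc₀ hc).le (min_le_right _ _)

/-- **almost complete graphs**: at most `c n^(1 + 2/d + η)` pairs may be left out -/
theorem almost_complete (d : ℕ) (hd : 3 ≤ d) : ∃ η c : ℝ, 0 < η ∧ 0 < c ∧
    ∀ (P : Finset (EuclideanSpace ℝ (Fin d)))
      (G : Finset (EuclideanSpace ℝ (Fin d) × EuclideanSpace ℝ (Fin d))), 2 ≤ P.card →
      (∀ e ∈ G, e.1 ∈ P ∧ e.2 ∈ P ∧ e.1 ≠ e.2) →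
      (P.card : ℝ) * ((P.card : ℝ) - 1) - c * (P.card : ℝ) ^ (1 + 2 / (d : ℝ) + η) ≤ G.card →
      c * (P.card : ℝ) ^ (2 / (d : ℝ)) ≤ ({r : ℝ | ∃ e ∈ G, r = dist e.1 e.2}.ncard : ℝ) := by
  classical
  obtain ⟨η₀, c, hη₀, hc, h⟩ := rb_all (d + 1)
  have hd3 : (3 : ℝ) ≤ d := by exact_mod_cast hd
  have hd0 : (0 : ℝ) < d := by linarith
  have h2d : 2 / (d : ℝ) ≤ 2 / 3 := by
    rw [div_le_iff₀ hd0]
    linarith
  have h2d0 : 0 < 2 / (d : ℝ) := by positivity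
  obtain ⟨η, hη0, hη1, hη2⟩ : ∃ η : ℝ, 0 < η ∧ η ≤ η₀ ∧ η ≤ 1 / 3 :=
    ⟨min η₀ (1 / 3), lt_min hη₀ (by norm_num), min_le_left _ _, min_le_right _ _⟩
  have h' : RB d η c := (h d hd (by omega)).mono hη1 hc.le le_rfl
  refine ⟨η, c / 4, hη0, by linarith, fun P G hP hG hden => ?_⟩
  rw [ncard_lengths]
  set Ds := G.image fun e => dist e.1 e.2 with hDs
  set N : ℝ := (P.card : ℝ) with hN
  have hN2 : 2 ≤ N := by rw [hN]; exact_mod_cast hP
  have hN1 : 1 ≤ N := by linarith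
  have hN0 : 0 < N := by linarith
  set y : ℝ := N ^ (2 / (d : ℝ) + η) with hy
  have hy0 : 0 < y := by positivity
  have hyN : N ^ (1 + 2 / (d : ℝ) + η) = N * y := by
    rw [hy, add_assoc, Real.rpow_add hN0, Real.rpow_one]
  set ex : EuclideanSpace ℝ (Fin d) → ℕ :=
    fun p => (P.filter fun q => q ≠ p ∧ dist p q ∉ Ds).card with hex
  have hsum : ((∑ p ∈ P, ex p : ℕ) : ℝ) ≤ c / 4 * (N * y) := by
    set X := (P ×ˢ P).filter fun e => e.2 ≠ e.1 ∧ dist e.1 e.2 ∉ Ds with hX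
    have h1 : X.card = ∑ p ∈ P, ex p := by
      rw [hX, card_filter, sum_product]
      refine sum_congr rfl fun p _ => ?_
      simp only [hex]
      rw [card_filter]
    have h2 : Disjoint X G := by
      rw [Finset.disjoint_left]
      intro e he he'
      exact (mem_filter.1 he).2.2 (mem_image_of_mem _ he')
    have h3 : X ∪ G ⊆ P.offDiag := by
      intro e he
      rcases mem_union.1 he with h4 | h4
      · obtain ⟨h5, h6⟩ := mem_filter.1 h4
        exact mem_offDiag.2 ⟨(mem_product.1 h5).1, (mem_product.1 h5).2, h6.1.symm⟩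
      · exact mem_offDiag.2 (hG e h4)
    have h4 := card_le_card h3
    rw [card_union_of_disjoint h2, offDiag_card, h1] at h4
    have h5 : P.card ≤ P.card * P.card := Nat.le_mul_self _
    have h6 : ∑ p ∈ P, ex p + G.card + P.card ≤ P.card * P.card := by omega
    have h7 : ((∑ p ∈ P, ex p : ℕ) : ℝ) + G.card + N ≤ N * N := by
      rw [hN]
      exact_mod_cast h6
    rw [hyN] at hden
    linarith
  set P' := P.filter fun p => (ex p : ℝ) ≤ c / 2 * y with hP'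
  have hP'P : P' ⊆ P := filter_subset _ _
  have hbig : N < 2 * P'.card := by
    set R := P.filter fun p => ¬ (ex p : ℝ) ≤ c / 2 * y with hR
    have h1 : P'.card + R.card = P.card := Finset.card_filter_add_card_filter_not _
    have h1' : (P'.card : ℝ) + R.card = N := by rw [hN]; exact_mod_cast h1
    rcases R.eq_empty_or_nonempty with h0 | hne
    · rw [h0, card_empty, Nat.cast_zero] at h1'
      linarith
    · have h2 : ∑ _p ∈ R, c / 2 * y < ∑ p ∈ R, (ex p : ℝ) :=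
        Finset.sum_lt_sum_of_nonempty hne fun p hp => not_le.1 (mem_filter.1 hp).2
      have h3 : ∑ p ∈ R, (ex p : ℝ) ≤ ∑ p ∈ P, (ex p : ℝ) :=
        Finset.sum_le_sum_of_subset_of_nonneg (filter_subset _ _) fun _ _ _ => Nat.cast_nonneg _
      rw [sum_const, nsmul_eq_mul] at h2
      push_cast at hsum
      have h4 : (R.card : ℝ) * (c / 2 * y) < N / 2 * (c / 2 * y) := by linarith
      have h5 : (R.card : ℝ) < N / 2 := lt_of_mul_lt_mul_right h4 (by positivity)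
      linarith
  have hP'2 : 2 ≤ P'.card := by
    have h1 : (1 : ℝ) < P'.card := by linarith
    exact_mod_cast h1
  have hN'0 : (0 : ℝ) ≤ P'.card := Nat.cast_nonneg _
  have hpow : ∀ e : ℝ, 0 ≤ e → e ≤ 1 → N ^ e ≤ 2 * (P'.card : ℝ) ^ e := by
    intro e he0 he1
    calc N ^ e ≤ (2 * (P'.card : ℝ)) ^ e := Real.rpow_le_rpow hN0.le hbig.le he0
      _ = 2 ^ e * (P'.card : ℝ) ^ e := Real.mul_rpow (by norm_num) hN'0
      _ ≤ 2 ^ (1 : ℝ) * (P'.card : ℝ) ^ e :=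
          mul_le_mul_of_nonneg_right (Real.rpow_le_rpow_of_exponent_le (by norm_num) he1)
            (by positivity)
      _ = _ := by rw [Real.rpow_one]
  have h1 := h' P' hP'2 Ds (fun p hp => by
    have h2 : ((P'.filter fun q => q ≠ p ∧ dist p q ∉ Ds).card : ℝ) ≤ ex p := by
      exact_mod_cast card_le_card (filter_subset_filter _ hP'P)
    refine le_trans (le_of_eq (by congr!)) (h2.trans ((mem_filter.1 hp).2.trans ?_))
    have h3 := hpow (2 / (d : ℝ) + η) (by linarith) (by linarith)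
    rw [← hy] at h3
    calc c / 2 * y ≤ c / 2 * (2 * (P'.card : ℝ) ^ (2 / (d : ℝ) + η)) := by gcongr
      _ = _ := by ring)
  refine le_trans ?_ h1
  have h3 := hpow (2 / (d : ℝ)) h2d0.le (by linarith)
  have h4 : (0 : ℝ) ≤ (P'.card : ℝ) ^ (2 / (d : ℝ)) := by positivity
  calc c / 4 * N ^ (2 / (d : ℝ)) ≤ c / 4 * (2 * (P'.card : ℝ) ^ (2 / (d : ℝ))) := by gcongr
    _ = c / 2 * (P'.card : ℝ) ^ (2 / (d : ℝ)) := by ring
    _ ≤ c * (P'.card : ℝ) ^ (2 / (d : ℝ)) := by gcongr; linarith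

end Vale.Agent.N054
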